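import Vale.Agent.Lib.P338.Ruler

/-!
The value of a stretch of tape, and full-adder scans.
-/

namespace Vale.Agent.Lib.P338

open Prog

section
variable {G : Type}

/-- The value of `w` cells from `a`, little-endian; only `one` counts as the bit 1. -/
def vl (τ : ℤ → Sym G) (a : ℤ) (w : ℕ) : ℕ :=
  ∑ i ∈ Finset.range w, (τ (a + i)).isOne.toNat * 2 ^ i

theorem vl_lt (τ : ℤ → Sym G) (a : ℤ) (w : ℕ) : vl τ a w < 2 ^ w := by
  induction w with
  | zero => simp [vl]
  | succ w ih =>
    simp only [vl, Finset.sum_range_succ] at ih ⊢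
    have h : (τ (a + w)).isOne.toNat ≤ 1 := Bool.toNat_le _
    have : (τ (a + w)).isOne.toNat * 2 ^ w ≤ 1 * 2 ^ w := Nat.mul_le_mul_right _ h
    rw [pow_succ]
    omega

theorem vl_succ (τ : ℤ → Sym G) (a : ℤ) (w : ℕ) :
    vl τ a (w + 1) = vl τ a w + (τ (a + w)).isOne.toNat * 2 ^ w := by
  simp [vl, Finset.sum_range_succ]

theorem vl_add (τ : ℤ → Sym G) (a : ℤ) (u v : ℕ) :
    vl τ a (u + v) = vl τ a u + 2 ^ u * vl τ (a + u) v := by
  induction v with
  | zero => simp [vl]
  | succ v ih =>
    rw [← add_assoc, vl_succ, ih, vl_succ τ (a + u)]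
    have e : a + ((u + v : ℕ) : ℤ) = a + (u : ℤ) + (v : ℤ) := by push_cast; ring
    rw [e, mul_add, pow_add]
    ring

theorem vl_congr {τ τ' : ℤ → Sym G} {a a' : ℤ} {w : ℕ}
    (h : ∀ i : ℕ, i < w → (τ (a + i)).isOne = (τ' (a' + i)).isOne) : vl τ a w = vl τ' a' w := by
  unfold vl
  apply Finset.sum_congr rfl
  intro i hi
  rw [h i (Finset.mem_range.1 hi)]

theorem vl_zero (τ : ℤ → Sym G) (a : ℤ) : vl τ a 0 = 0 := by simp [vl]

theorem vl_eq_zero {τ : ℤ → Sym G} {a : ℤ} {w : ℕ}
    (h : ∀ i : ℕ, i < w → (τ (a + i)).isOne = false) : vl τ a w = 0 := by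
  unfold vl
  apply Finset.sum_eq_zero
  intro i hi
  rw [h i (Finset.mem_range.1 hi)]
  simp

/-- Equal values have equal bits. -/
theorem vl_inj {τ τ' : ℤ → Sym G} {a a' : ℤ} {w : ℕ} (h : vl τ a w = vl τ' a' w) :
    ∀ i : ℕ, i < w → (τ (a + i)).isOne = (τ' (a' + i)).isOne := by
  induction w with
  | zero => intro i hi; omega
  | succ w ih =>
    rw [vl_succ, vl_succ] at h
    have h1 := vl_lt τ a w
    have h2 := vl_lt τ' a' w
    have hb : (τ (a + w)).isOne = (τ' (a' + w)).isOne := by
      cases hb1 : (τ (a + w)).isOne <;> cases hb2 : (τ' (a' + w)).isOne <;> simp [hb1, hb2] at h ⊢ <;> omega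
    have hv : vl τ a w = vl τ' a' w := by
      rw [hb] at h
      omega
    intro i hi
    by_cases hiw : i < w
    · exact ih hv i hiw
    · have : i = w := by omega
      subst this
      exact hb

/-- A bit pattern read from a number. -/
theorem vl_of_testBit {τ : ℤ → Sym G} {a : ℤ} {w : ℕ} (Z : ℕ)
    (h : ∀ i : ℕ, i < w → (τ (a + i)).isOne = Z.testBit i) : vl τ a w = Z % 2 ^ w := by
  induction w with
  | zero => simp [vl, Nat.mod_one]
  | succ w ih =>
    rw [vl_succ, ih (fun i hi => h i (by omega)), h w (by omega), Nat.mod_pow_succ,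
      Nat.testBit_eq_decide_div_mod_eq]
    rcases Nat.mod_two_eq_zero_or_one (Z / 2 ^ w) with h0 | h0 <;> simp [h0, mul_comm]

end

section fa
variable {T G : Type} [DecidableEq T]

/-- A full-adder-like operation: the new bit and the new carry. -/
abbrev BitOp := Bool → Bool → Bool → Bool × Bool

/-- The addition bit operation. -/
def addOp : BitOp := fun a b c => (xor a (xor b c), (a && b) || (a && c) || (b && c))

/-- The subtraction bit operation. -/
def subOp : BitOp := fun a b c => (xor a (xor b c), (!a && b) || (!a && c) || (b && c))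

theorem addOp_eq (a b c : Bool) :
    ((addOp a b c).1.toNat : ℤ) + 1 * (2 * (addOp a b c).2.toNat) = a.toNat + 1 * (b.toNat + c.toNat) := by
  cases a <;> cases b <;> cases c <;> rfl

theorem subOp_eq (a b c : Bool) :
    ((subOp a b c).1.toNat : ℤ) + (-1) * (2 * (subOp a b c).2.toNat) = a.toNat + (-1) * (b.toNat + c.toNat) := by
  cases a <;> cases b <;> cases c <;> rfl

/-- Writes of the full-adder scan. -/
def faW (op : BitOp) (Acc src Cy : T) : (T → Sym G) → T → Sym G := fun s t =>
  if t = Acc then Sym.ofBit (op (s Acc).isOne (s src).isOne (s Cy).isOne).1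
  else if t = Cy then Sym.ofBit (op (s Acc).isOne (s src).isOne (s Cy).isOne).2
  else s t

/-- Tapes of the full-adder scan. -/
def faTs (R Acc src Cy : T) : T → Bool := fun t =>
  decide (t = R) || decide (t = Acc) || decide (t = src) || decide (t = Cy)

/-- Directions of the full-adder scan. -/
def faD (R Acc src : T) (ds : Dir) : T → Dir := fun t =>
  if t = R then .R else if t = Acc then .R else if t = src then ds else .S

/-- Full-adder scan along the ruler `R`: `Acc` moves right and gets the result, `src` moves by `ds`,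
the carry sits in one cell of `Cy`. -/
def faScan (op : BitOp) (R Acc src : T) (ds : Dir) (Cy : T) : Prog T (Sym G) :=
  scan (fun s => (s R).isOne) (faTs R Acc src Cy) (faW op Acc src Cy) (faD R Acc src ds)

/-- Bit of the source at step `i`. -/
def srcBit (c : TS T (Sym G)) (src : T) (ds : Dir) (i : ℕ) : Bool :=
  (c.tape src (c.head src + i * ds.toInt)).isOne

theorem faScan_spec (op : BitOp) (eps : ℤ)
    (hop : ∀ a b c : Bool, ((op a b c).1.toNat : ℤ) + eps * (2 * (op a b c).2.toNat) =
      a.toNat + eps * (b.toNat + c.toNat))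
    (R Acc src : T) (ds : Dir) (Cy : T)
    (h1 : R ≠ Acc) (h2 : R ≠ src) (h3 : R ≠ Cy) (h4 : Acc ≠ src) (h5 : Acc ≠ Cy) (h6 : src ≠ Cy)
    (c : TS T (Sym G)) {n : ℕ} (hR : Ruler c R n) :
    ∃ c', Run (faScan op R Acc src ds Cy) c c' (2 * n + 1) ∧ c'.head R = n ∧ c'.tape R = runT n ∧
      c'.head Acc = c.head Acc + n ∧
      (∀ x, ¬ (c.head Acc ≤ x ∧ x < c.head Acc + n) → c'.tape Acc x = c.tape Acc x) ∧
      c'.head src = c.head src + n * ds.toInt ∧ c'.tape src = c.tape src ∧
      c'.head Cy = c.head Cy ∧ (∀ x, x ≠ c.head Cy → c'.tape Cy x = c.tape Cy x) ∧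
      ((vl (c'.tape Acc) (c.head Acc) n : ℕ) : ℤ) + eps * (2 ^ n * (c'.read Cy).isOne.toNat) =
        vl (c.tape Acc) (c.head Acc) n +
          eps * ((∑ i ∈ Finset.range n, (srcBit c src ds i).toNat * 2 ^ i : ℕ) + (c.read Cy).isOne.toNat) ∧
      Same [R, Acc, src, Cy] c c' := by
  set ts := faTs R Acc src Cy with hts
  set W : (T → Sym G) → T → Sym G := faW op Acc src Cy with hW
  set D := faD R Acc src ds with hD
  have wA : ∀ s, W s Acc = Sym.ofBit (op (s Acc).isOne (s src).isOne (s Cy).isOne).1 :=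
    fun s => by simp [hW, faW]
  have wC : ∀ s, W s Cy = Sym.ofBit (op (s Acc).isOne (s src).isOne (s Cy).isOne).2 :=
    fun s => by simp [hW, faW, h5.symm]
  have wO : ∀ s t, t ≠ Acc → t ≠ Cy → W s t = s t := fun s t h h' => by simp [hW, faW, h, h']
  have zR : dirZ ts D R = 1 := by simp [dirZ, hts, hD, faTs, faD, Dir.toInt]
  have zA : dirZ ts D Acc = 1 := by simp [dirZ, hts, hD, faTs, faD, Dir.toInt, h1.symm]
  have zS : dirZ ts D src = ds.toInt := by simp [dirZ, hts, hD, faTs, faD, h2.symm, h4.symm]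
  have zC : dirZ ts D Cy = 0 := by simp [dirZ, hts, hD, faTs, faD, Dir.toInt, h3.symm, h5.symm, h6.symm]
  -- closed forms of the reads
  have rR : ∀ i : ℕ, rd c ts W D i R = c.tape R (c.head R + i) := by
    intro i
    cases i with
    | zero => simp [rd, TS.read]
    | succ i =>
      simp only [rd, zR]
      simp
  have rA : ∀ i : ℕ, rd c ts W D i Acc = c.tape Acc (c.head Acc + i) := by
    intro i
    cases i with
    | zero => simp [rd, TS.read]
    | succ i =>
      simp only [rd, zA]
      simp
  have rS : ∀ i : ℕ, rd c ts W D i src = c.tape src (c.head src + i * ds.toInt) := by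
    intro i
    induction i with
    | zero => simp [rd, TS.read]
    | succ i ih =>
      simp only [rd, zS]
      by_cases hz : ds.toInt = 0
      · simp only [hz, if_true, clampW, mul_zero, add_zero] at ih ⊢
        have : ts src = true := by simp [hts, faTs]
        simp only [this, if_true]
        rw [wO _ _ h4.symm h6]
        exact ih
      · rw [if_neg hz]
        push_cast
        rfl
  -- carries
  set k : ℕ → Bool := fun i => (rd c ts W D i Cy).isOne with hk
  have hkS : ∀ i, rd c ts W D (i + 1) Cy =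
      Sym.ofBit (op (c.tape Acc (c.head Acc + i)).isOne (srcBit c src ds i) (k i)).2 := by
    intro i
    simp only [rd, zC, if_true, clampW]
    have : ts Cy = true := by simp [hts, faTs]
    simp only [this, if_true]
    rw [wC, rA, rS]
    rfl
  have hk0 : k 0 = (c.read Cy).isOne := rfl
  have hkS' : ∀ i, k (i + 1) = (op (c.tape Acc (c.head Acc + i)).isOne (srcBit c src ds i) (k i)).2 := by
    intro i
    simp only [hk]
    rw [hkS i]
    simp
    rfl
  have hnzR : dirZ ts D R ≠ 0 := by rw [zR]; norm_num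
  have hnzA : dirZ ts D Acc ≠ 0 := by rw [zA]; norm_num
  have hread : ∀ i : ℕ, i < n → Sym.isOne (rd c ts W D i R) = true := by
    intro i hi
    rw [rR, hR.1, hR.2, zero_add, cast_runT_in hi]
    rfl
  have hread2 : Sym.isOne (rd c ts W D n R) = false := by
    rw [rR, hR.1, hR.2, zero_add, runT_out (by right; exact le_rfl)]
    rfl
  -- the written accumulator
  have hAcc : ∀ j : ℕ, j < n → (sres c ts W D n).tape Acc (c.head Acc + j) =
      Sym.ofBit (op (c.tape Acc (c.head Acc + j)).isOne (srcBit c src ds j) (k j)).1 := by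
    intro j hj
    have := sres_hit c ts W D n hnzA hj
    rw [zA, mul_one] at this
    rw [this, wA, rA, rS]
    rfl
  refine ⟨sres c ts W D n, ⟨2 * n + 1, le_rfl, exec_scan _ c ts W D n hread hread2⟩, ?_, ?_, ?_, ?_, ?_, ?_,
    ?_, ?_, ?_, ?_⟩
  · rw [sres_head, zR, hR.2]; simp
  · have : (sres c ts W D n).tape R = c.tape R := by
      apply same_of_hit_miss (h := c.head R) (d := 1) (m := n)
      · intro j hj
        have := sres_hit c ts W D n hnzR hj
        rw [zR] at this
        rw [this, wO _ _ h1 h3]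
        simp only [mul_one, rR]
      · intro x hx
        apply sres_miss c ts W D n hnzR
        rw [zR]
        exact hx
    rw [this, hR.1]
  · rw [sres_head, zA, mul_one]
  · intro x hx
    apply sres_miss c ts W D n hnzA
    rw [zA]
    intro j hj he
    apply hx
    rw [he]
    constructor <;> push_cast <;> omega
  · rw [sres_head, zS]
  · by_cases hz : ds.toInt = 0
    · funext x
      rw [sres_stat c ts W D n (by rw [zS, hz])]
      by_cases hx : x = c.head src
      · rw [if_pos hx, rS, hz, hx]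
        simp
      · rw [if_neg hx]
    · apply same_of_hit_miss (h := c.head src) (d := ds.toInt) (m := n)
      · intro j hj
        have := sres_hit c ts W D n (by rw [zS]; exact hz) hj
        rw [zS] at this
        rw [this, wO _ _ h4.symm h6, rS]
      · intro x hx
        apply sres_miss c ts W D n (by rw [zS]; exact hz)
        rw [zS]
        exact hx
  · rw [sres_head, zC]; simp
  · intro x hx
    rw [sres_stat c ts W D n zC, if_neg hx]
  · -- the arithmetic
    have key : ∀ m : ℕ,
        ((∑ i ∈ Finset.range m,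
            (op (c.tape Acc (c.head Acc + i)).isOne (srcBit c src ds i) (k i)).1.toNat * 2 ^ i : ℕ) : ℤ)
          + eps * (2 ^ m * (k m).toNat) =
        ((∑ i ∈ Finset.range m, (c.tape Acc (c.head Acc + i)).isOne.toNat * 2 ^ i : ℕ) : ℤ) +
          eps * ((∑ i ∈ Finset.range m, (srcBit c src ds i).toNat * 2 ^ i : ℕ) + (k 0).toNat) := by
      intro m
      induction m with
      | zero => simp
      | succ m ih =>
        rw [Finset.sum_range_succ, Finset.sum_range_succ, Finset.sum_range_succ, hkS']
        have hh := hop (c.tape Acc (c.head Acc + m)).isOne (srcBit c src ds m) (k m)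
        push_cast at ih ⊢
        rw [pow_succ]
        linear_combination ih + (2 : ℤ) ^ m * hh
    have e1 : vl ((sres c ts W D n).tape Acc) (c.head Acc) n = ∑ i ∈ Finset.range n,
        (op (c.tape Acc (c.head Acc + i)).isOne (srcBit c src ds i) (k i)).1.toNat * 2 ^ i := by
      unfold vl
      apply Finset.sum_congr rfl
      intro i hi
      rw [hAcc i (Finset.mem_range.1 hi), Sym.isOne_ofBit]
    have e2 : ((sres c ts W D n).read Cy).isOne = k n := by
      rw [sres_read]
    rw [e1, e2, ← hk0]
    exact key n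
  · intro t ht
    simp only [List.mem_cons, List.not_mem_nil, or_false, not_or] at ht
    have hz0 : dirZ ts D t = 0 := by simp [dirZ, hts, hD, faTs, ht.1, ht.2.1, ht.2.2.1, ht.2.2.2]
    have hts0 : ts t = false := by simp [hts, faTs, ht.1, ht.2.1, ht.2.2.1, ht.2.2.2]
    have hrd : ∀ i, rd c ts W D i t = c.read t := by
      intro i
      induction i with
      | zero => rfl
      | succ i ih =>
        simp only [rd, hz0, if_true, clampW, hts0, Bool.false_eq_true, if_false]
        exact ih
    constructor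
    · funext x
      rw [sres_stat c ts W D n hz0]
      by_cases hx : x = c.head t
      · rw [if_pos hx, hrd, hx]
        rfl
      · rw [if_neg hx]
    · rw [sres_head, hz0]; simp

/-- A full-adder pass along a ruler; the accumulator head returns. -/
def faPass (op : BitOp) (R Acc src : T) (ds : Dir) (Cy : T) : Prog T (Sym G) :=
  .seq (faScan op R Acc src ds Cy) (rewM R Acc .L)

theorem faPass_spec (op : BitOp) (eps : ℤ)
    (hop : ∀ a b c : Bool, ((op a b c).1.toNat : ℤ) + eps * (2 * (op a b c).2.toNat) =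
      a.toNat + eps * (b.toNat + c.toNat))
    (R Acc src : T) (ds : Dir) (Cy : T)
    (h1 : R ≠ Acc) (h2 : R ≠ src) (h3 : R ≠ Cy) (h4 : Acc ≠ src) (h5 : Acc ≠ Cy) (h6 : src ≠ Cy)
    (c : TS T (Sym G)) {n : ℕ} (hR : Ruler c R n) :
    ∃ c', Run (faPass op R Acc src ds Cy) c c' (4 * n + 4) ∧
      c'.head Acc = c.head Acc ∧
      (∀ x, ¬ (c.head Acc ≤ x ∧ x < c.head Acc + n) → c'.tape Acc x = c.tape Acc x) ∧
      c'.head src = c.head src + n * ds.toInt ∧ c'.tape src = c.tape src ∧
      c'.head Cy = c.head Cy ∧ (∀ x, x ≠ c.head Cy → c'.tape Cy x = c.tape Cy x) ∧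
      ((vl (c'.tape Acc) (c.head Acc) n : ℕ) : ℤ) + eps * (2 ^ n * (c'.read Cy).isOne.toNat) =
        vl (c.tape Acc) (c.head Acc) n +
          eps * ((∑ i ∈ Finset.range n, (srcBit c src ds i).toNat * 2 ^ i : ℕ) + (c.read Cy).isOne.toNat) ∧
      Same [Acc, src, Cy] c c' := by
  obtain ⟨c1, r1, e1, e2, e3, e4, e5, e6, e7, e8, e9, e10⟩ :=
    faScan_spec op eps hop R Acc src ds Cy h1 h2 h3 h4 h5 h6 c hR
  obtain ⟨c2, r2, e11, e12, e13, e14⟩ := rewM_ruler R Acc .L h1 (by simp) c1 e2 e1 le_rfl
  have nS : src ∉ [R, Acc] := by simp [h2.symm, h4.symm]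
  have nC : Cy ∉ [R, Acc] := by simp [h3.symm, h5.symm]
  refine ⟨c2, (r1.seq r2).mono (by omega), ?_, ?_, ?_, ?_, ?_, ?_, ?_, ?_⟩
  · rw [e12, e3]; simp [Dir.toInt]
  · intro x hx
    rw [e13, e4 x hx]
  · rw [e14.head nS, e5]
  · rw [e14.tape nS, e6]
  · rw [e14.head nC, e7]
  · intro x hx
    rw [e14.tape nC, e8 x hx]
  · have f1 : c2.read Cy = c1.read Cy := by
      simp only [TS.read]
      rw [e14.tape nC, e14.head nC]
    rw [e13, f1]
    exact e9
  · refine Same.erase (R := R) ((e10.trans e14).mono (by simp)) ?_ ?_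
    · rw [e11.1, hR.1]
    · rw [e11.2, hR.2]

theorem srcBit_R_sum (c : TS T (Sym G)) (src : T) (n : ℕ) :
    (∑ i ∈ Finset.range n, (srcBit c src .R i).toNat * 2 ^ i) = vl (c.tape src) (c.head src) n := by
  unfold vl srcBit
  simp [Dir.toInt]

theorem srcBit_S_sum (c : TS T (Sym G)) (src : T) (n : ℕ) (h : (c.read src).isOne = false) :
    (∑ i ∈ Finset.range n, (srcBit c src .S i).toNat * 2 ^ i) = 0 := by
  apply Finset.sum_eq_zero
  intro i _
  have : srcBit c src .S i = false := by
    simpa [srcBit, Dir.toInt, TS.read] using h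
  simp [this]

end fa

end Vale.Agent.Lib.P338
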