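import Vale.Agent.Lib.P338.Elem

/-!
The tapes of the transposition machine, and the chirp and kernel stages.
-/

namespace Vale.Agent.Lib.P338

open Prog

/-- The working tapes of the machine (its other tapes simulate the multiplier). -/
inductive Own
  | D | W1 | W2 | W3 | Acc | Cy | Z | TE | TD
  | U1 | U2 | U3 | V1 | V2 | V3 | Tt | Tmp | Tmp2
  | Rp | Rq | Re | RP | RQ | RN | R2N | RL | Rr | RB | RBe | RBL | RBL1 | Rk | RN1B | RNB | R2NB | R4NB | RS
  | Rt | RLt | Ex | Ey | Ez | Ek | Er | Ekap | Et | ERes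
  | Ta | A1 | A2 | A3 | K0 | Stk | Fl | R2k | Rk1 | Rone
  deriving DecidableEq

/-- The tape named `a`. -/
abbrev o {X : Type} (a : Own) : Own ⊕ X := Sum.inl a

section touch
variable {T G : Type} [DecidableEq T]

@[simp] theorem touch_seq (a b : Prog T (Sym G)) (t : T) : touch (.seq a b) t ↔ touch a t ∨ touch b t := Iff.rfl
@[simp] theorem touch_ite (g) (a b : Prog T (Sym G)) (t : T) : touch (.ite g a b) t ↔ touch a t ∨ touch b t := Iff.rfl
@[simp] theorem touch_loop (g) (b : Prog T (Sym G)) (t : T) : touch (.loop g b) t ↔ touch b t := Iff.rfl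
@[simp] theorem touch_act1 (X : T) (w : (T → Sym G) → Sym G) (d : Dir) (t : T) : touch (act1 X w d) t ↔ t = X := by
  simp [act1, touch]
@[simp] theorem touch_mv (X : T) (d : Dir) (t : T) : touch (mv X d : Prog T (Sym G)) t ↔ t = X := by
  simp [mv]
@[simp] theorem touch_skip (t : T) : touch (skip : Prog T (Sym G)) t ↔ False := by
  simp [skip, touch]
@[simp] theorem touch_sc0 (gt) (R : T) (d : Dir) (w : Sym G → Sym G) (t : T) : touch (sc0 gt R d w) t ↔ t = R := by
  simp [sc0, scan, touch]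
@[simp] theorem touch_sc1 (gt) (R : T) (d : Dir) (X : T) (dX : Dir) (w : Sym G → Sym G → Sym G) (t : T) :
    touch (sc1 gt R d X dX w) t ↔ t = R ∨ t = X := by
  simp [sc1, scan, touch]
@[simp] theorem touch_sc2 (gt) (R : T) (d : Dir) (X : T) (dX : Dir) (Y : T) (dY : Dir) (w : Sym G → Sym G) (t : T) :
    touch (sc2 gt R d X dX Y dY w) t ↔ t = R ∨ t = X ∨ t = Y := by
  simp [sc2, scan, touch, or_assoc]
@[simp] theorem touch_rew (R : T) (t : T) : touch (rew R : Prog T (Sym G)) t ↔ t = R := by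
  simp [rew]
@[simp] theorem touch_rewM (R X : T) (d : Dir) (t : T) : touch (rewM R X d : Prog T (Sym G)) t ↔ t = R ∨ t = X := by
  simp only [rewM, touch_seq, touch_mv, touch_sc1]
  tauto
@[simp] theorem touch_mvBy (R X : T) (d : Dir) (t : T) : touch (mvBy R X d : Prog T (Sym G)) t ↔ t = R ∨ t = X := by
  simp only [mvBy, touch_seq, touch_rew, touch_sc1]
  tauto
@[simp] theorem touch_fillBy (R X : T) (v : Sym G) (t : T) : touch (fillBy R X v) t ↔ t = R ∨ t = X := by
  simp only [fillBy, touch_seq, touch_rew, touch_sc1]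
  tauto
@[simp] theorem touch_copyD (R X : T) (dX : Dir) (Y : T) (dY : Dir) (w : Sym G → Sym G) (t : T) :
    touch (copyD R X dX Y dY w) t ↔ t = R ∨ t = X ∨ t = Y := by
  simp only [copyD, touch_seq, touch_rew, touch_sc2]
  tauto
@[simp] theorem touch_forR (R : T) (b : Prog T (Sym G)) (t : T) : touch (forR R b) t ↔ touch b t ∨ t = R := by
  simp only [forR, touch_seq, touch_loop, touch_rew, touch_mv]
  tauto
@[simp] theorem touch_addCyc (S D : T) (t : T) : touch (addCyc S D : Prog T (Sym G)) t ↔ t = S ∨ t = D := by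
  simp only [addCyc, addTick, cwrap, touch_seq, touch_ite, touch_loop, touch_rew, touch_mv, touch_sc0,
    touch_act1, touch_skip]
  tauto
@[simp] theorem touch_faScan (op : BitOp) (R Acc src : T) (ds : Dir) (Cy : T) (t : T) :
    touch (faScan op R Acc src ds Cy : Prog T (Sym G)) t ↔ t = R ∨ t = Acc ∨ t = src ∨ t = Cy := by
  simp [faScan, scan, touch, faTs, or_assoc]
@[simp] theorem touch_faPass (op : BitOp) (R Acc src : T) (ds : Dir) (Cy : T) (t : T) :
    touch (faPass op R Acc src ds Cy : Prog T (Sym G)) t ↔ t = R ∨ t = Acc ∨ t = src ∨ t = Cy := by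
  simp only [faPass, touch_seq, touch_faScan, touch_rewM]
  tauto
@[simp] theorem touch_foldB (RL Acc W Cy Z : T) (t : T) :
    touch (foldB RL Acc W Cy Z : Prog T (Sym G)) t ↔ t = RL ∨ t = Acc ∨ t = W ∨ t = Cy ∨ t = Z := by
  simp only [foldB, touch_seq, touch_fillBy, touch_mvBy, touch_act1, touch_faPass]
  tauto
@[simp] theorem touch_rotL (TE Acc Y : T) (t : T) :
    touch (rotL TE Acc Y : Prog T (Sym G)) t ↔ t = TE ∨ t = Acc ∨ t = Y := by
  simp only [rotL, touch_seq, touch_sc1, touch_sc2, touch_rewM]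
  tauto
@[simp] theorem touch_kBlock (TE Y : T) (t : T) :
    touch (kBlock TE Y : Prog T (Sym G)) t ↔ t = TE ∨ t = Y := by
  simp only [kBlock, touch_seq, touch_sc1, touch_act1, touch_rew]
  tauto

end touch

/-- The exponent generator: `E k` and its increment. -/
def genE (L u v : ℕ) : ℕ → ℕ × ℕ
  | 0 => (0, u)
  | k + 1 => (cycAdd L (genE L u v k).1 (genE L u v k).2, cycAdd L (genE L u v k).2 v)

theorem genE_le {L u v : ℕ} (hu : u ≤ L) (hv : v ≤ L) (k : ℕ) :
    (genE L u v k).1 ≤ L ∧ (genE L u v k).2 ≤ L := by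
  induction k with
  | zero => simp [genE, hu]
  | succ k ih => exact ⟨cycAdd_le ih.1 ih.2, cycAdd_le ih.2 hv⟩

theorem genE_modEq {L u v : ℕ} (hu : u ≤ L) (hv : v ≤ L) (h2 : v ≡ 2 * u [MOD L]) (k : ℕ) :
    (genE L u v k).1 ≡ u * k ^ 2 [MOD L] ∧ (genE L u v k).2 ≡ u * (2 * k + 1) [MOD L] := by
  induction k with
  | zero => simp [genE, Nat.ModEq.refl]
  | succ k ih =>
    have hle := genE_le hu hv k
    constructor
    · have := cycAdd_modEq L _ _ hle.1 hle.2
      refine this.trans ((ih.1.add ih.2).trans ?_)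
      have e : u * k ^ 2 + u * (2 * k + 1) = u * (k + 1) ^ 2 := by ring
      rw [e]
    · have := cycAdd_modEq L _ _ hle.2 hv
      refine this.trans ((ih.2.add h2).trans ?_)
      have e : u * (2 * k + 1) + 2 * u = u * (2 * (k + 1) + 1) := by ring
      rw [e]

section stage
variable {X G : Type} [DecidableEq X]

/-- The body of the chirp loop: fold a block of `W3`, rotate it into `W1`, fill the rest of the block of
`W1`, advance the exponent generator. -/
def chirpBody (V : Own ⊕ X) : Prog (Own ⊕ X) (Sym G) :=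
  .seq (foldB (o .RL) (o .Acc) (o .W3) (o .Cy) (o .Z)) (.seq (rotL (o .TE) (o .Acc) (o .W1))
    (.seq (fillBy (o .RBL) (o .W1) .zero) (.seq (addCyc (o .TD) (o .TE)) (addCyc V (o .TD)))))

/-- One step of the generator on tapes. -/
theorem gen_step (V : Own ⊕ X) (hV : V ≠ o .TD) (hVE : V ≠ o .TE) (c : TS (Own ⊕ X) (Sym G))
    {L e d v : ℕ} (hL : 1 ≤ L)
    (he : e ≤ L) (hd : d ≤ L) (hv : v ≤ L) (h1 : Cyc c (o .TE) L e) (h2 : Cyc c (o .TD) L d)
    (h3 : Cyc c V L v) :
    ∃ c', Run (.seq (addCyc (o .TD) (o .TE)) (addCyc V (o .TD))) c c' (32 * L + 32) ∧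
      Cyc c' (o .TE) L (cycAdd L e d) ∧ Cyc c' (o .TD) L (cycAdd L d v) ∧
      Same [o .TE, o .TD] c c' := by
  obtain ⟨c1, r1, a1, a2, s1⟩ := addCyc_spec (o .TD) (o .TE) (by simp) c hL he hd h2 h1
  obtain ⟨c2, r2, b1, b2, s2⟩ := addCyc_spec V (o .TD) hV c1 hL hd hv
    (h3.of_same s1 (by simpa using hVE)) a1
  refine ⟨c2, (r1.seq r2).mono (by omega), a2.of_same s2 (by simp), b2, (s1.trans s2).mono (by simp)⟩

theorem chirpBody_spec (V : Own ⊕ X) (hV : V ≠ o .TD) (hVE : V ≠ o .TE) (hVA : V ≠ o .Acc)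
    (hVW : V ≠ o .W3) (hVC : V ≠ o .Cy) (hV1 : V ≠ o .W1)
    (c : TS (Own ⊕ X) (Sym G)) {L e d v : ℕ} (hL : 1 ≤ L)
    (he : e ≤ L) (hd : d ≤ L) (hv : v ≤ L) (h1 : Cyc c (o .TE) L e) (h2 : Cyc c (o .TD) L d)
    (h3 : Cyc c V L v) (hRL : Ruler c (o .RL) L) (hRB : Ruler c (o .RBL) (3 * L))
    (hZ : (c.read (o .Z)).isOne = false) :
    ∃ c', Run (chirpBody V) c c' (85 * L + 81) ∧
      c'.head (o .W1) = c.head (o .W1) + ((4 * L : ℕ) : ℤ) ∧
      c'.head (o .W3) = c.head (o .W3) + ((4 * L : ℕ) : ℤ) ∧ c'.tape (o .W3) = c.tape (o .W3) ∧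
      (∀ x, ¬ (c.head (o .W1) ≤ x ∧ x < c.head (o .W1) + ((4 * L : ℕ) : ℤ)) →
        c'.tape (o .W1) x = c.tape (o .W1) x) ∧
      vl (c'.tape (o .W1)) (c.head (o .W1)) (4 * L) < 2 ^ L ∧
      vl (c'.tape (o .W1)) (c.head (o .W1)) (4 * L) * 2 ^ e ≡
        vl (c.tape (o .W3)) (c.head (o .W3)) (4 * L) [MOD 2 ^ L - 1] ∧
      Cyc c' (o .TE) L (cycAdd L e d) ∧ Cyc c' (o .TD) L (cycAdd L d v) ∧
      Same [o .W1, o .W3, o .Acc, o .Cy, o .TE, o .TD] c c' := by
  obtain ⟨c1, r1, a1, a2, a3, a4, a5, a6, a7, a8, a9⟩ :=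
    foldB_spec (o .RL) (o .Acc) (o .W3) (o .Cy) (o .Z) (by simp) (by simp) (by simp) (by simp) (by simp)
      (by simp) (by simp) (by simp) (by simp) (by simp) c hL hRL hZ
  have nTE : o .TE ∉ ([o .Acc, o .W3, o .Cy] : List (Own ⊕ X)) := by simp
  obtain ⟨c2, r2, b1, b2, b3, b4, b5, b6⟩ := rotL_spec (o .TE) (o .Acc) (o .W1) (by simp) (by simp) (by simp)
    c1 he (h1.of_same a9 nTE)
  obtain ⟨c3, r3, d1, d2, d3⟩ := fillBy_spec (o .RBL) (o .W1) .zero (by simp) c2
    ((hRB.of_same a9 (by simp)).of_same b6 (by simp))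
  obtain ⟨c4, r4, f2, f3, f4⟩ := gen_step V hV hVE c3 hL he hd hv
    (((h1.of_same a9 nTE).of_same b6 (by simp)).of_same d3 (by simp))
    (((h2.of_same a9 (by simp)).of_same b6 (by simp)).of_same d3 (by simp))
    (((h3.of_same a9 (by simp [hVA, hVW, hVC])).of_same b6 (by simp [hVA, hV1])).of_same d3 (by simp [hV1]))
    
  have nW1a : o .W1 ∉ ([o .Acc, o .W3, o .Cy] : List (Own ⊕ X)) := by simp
  have nW1b : o .W1 ∉ ([o .TE, o .TD] : List (Own ⊕ X)) := by simp
  have h1W : c1.head (o .W1) = c.head (o .W1) := a9.head nW1a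
  have t1W : c1.tape (o .W1) = c.tape (o .W1) := a9.tape nW1a
  have h4W : c4.head (o .W1) = c.head (o .W1) + ((4 * L : ℕ) : ℤ) := by
    rw [f4.head nW1b, d1, b3, h1W]
    push_cast
    ring
  have t4W : c4.tape (o .W1) = c3.tape (o .W1) := f4.tape nW1b
  have hval : vl (c4.tape (o .W1)) (c.head (o .W1)) (4 * L) =
      vl (c2.tape (o .W1)) (c.head (o .W1)) L := by
    have e : 4 * L = L + 3 * L := by ring
    rw [e, vl_add]
    have z : vl (c4.tape (o .W1)) (c.head (o .W1) + L) (3 * L) = 0 := by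
      apply vl_eq_zero
      intro i hi
      rw [t4W, d2, b3, h1W, if_pos (by push_cast; omega)]
      rfl
    rw [z, mul_zero, add_zero]
    apply vl_congr
    intro i hi
    rw [t4W, d2, b3, h1W, if_neg (by omega)]
  refine ⟨c4, (r1.seq (r2.seq (r3.seq r4))).mono (by omega), h4W, ?_, ?_, ?_, ?_, ?_, f2, f3, ?_⟩
  · rw [f4.head (by simp), d3.head (by simp), b6.head (by simp), a3]
    push_cast
    ring
  · rw [f4.tape (by simp), d3.tape (by simp), b6.tape (by simp), a4]
  · intro x hx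
    push_cast at hx
    rw [t4W, d2, b3, h1W, if_neg (by omega), b4 x (by rw [h1W]; omega), t1W]
  · rw [hval]
    exact vl_lt _ _ _
  · rw [hval]
    have := b5
    rw [h1W, a1] at this
    exact this.trans a8
  · exact (a9.trans (b6.trans (d3.trans f4))).mono (by simp)

/-- The chirp stage: the blocks `N - 1 + k` of `W3` are multiplied by `2 ^ (- E k)` in the ring
modulo `2 ^ L - 1` and written to the blocks `k` of `W1`. -/
def chirp (U V : Own ⊕ X) : Prog (Own ⊕ X) (Sym G) :=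
  .seq (czero (o .TE)) (.seq (ccopy U (o .TD)) (.seq (mvBy (o .RN1B) (o .W3) .R)
    (.seq (forR (o .RN) (chirpBody V)) (.seq (mvBy (o .RNB) (o .W1) .L)
    (.seq (mvBy (o .RNB) (o .W3) .L) (mvBy (o .RN1B) (o .W3) .L))))))

/-- The cost bound of the chirp stage. -/
def chirpCost (N L : ℕ) : ℕ := 150 * (N * L) + 100 * N + 10 * L + 30

theorem chirp_spec (U V : Own ⊕ X) (hU : U ≠ o .TD) (hUE : U ≠ o .TE)
    (hV : V ≠ o .TD) (hVE : V ≠ o .TE) (hVA : V ≠ o .Acc)
    (hVW : V ≠ o .W3) (hVC : V ≠ o .Cy) (hV1 : V ≠ o .W1) (hVN : V ≠ o .RN)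
    (c : TS (Own ⊕ X) (Sym G)) {L N u v e0 d0 : ℕ} (hL : 1 ≤ L)
    (hu : u ≤ L) (hv : v ≤ L) (he0 : e0 ≤ L) (hd0 : d0 ≤ L)
    (hTE : Cyc c (o .TE) L e0) (hTD : Cyc c (o .TD) L d0) (hUc : Cyc c U L u) (hVc : Cyc c V L v)
    (hRN : Ruler c (o .RN) N) (hRL : Ruler c (o .RL) L) (hRB : Ruler c (o .RBL) (3 * L))
    (hN1 : Ruler c (o .RN1B) ((N - 1) * (4 * L))) (hNB : Ruler c (o .RNB) (N * (4 * L)))
    (hZ : (c.read (o .Z)).isOne = false) (hW1 : c.head (o .W1) = 0) (hW3 : c.head (o .W3) = 0) :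
    ∃ c', Run (chirp U V) c c' (chirpCost N L) ∧ c'.head (o .W1) = 0 ∧ c'.head (o .W3) = 0 ∧
      c'.tape (o .W3) = c.tape (o .W3) ∧
      (∀ k, k < N → vl (c'.tape (o .W1)) ((k * (4 * L) : ℕ) : ℤ) (4 * L) < 2 ^ L ∧
        vl (c'.tape (o .W1)) ((k * (4 * L) : ℕ) : ℤ) (4 * L) * 2 ^ (genE L u v k).1 ≡
          vl (c.tape (o .W3)) (((N - 1 + k) * (4 * L) : ℕ) : ℤ) (4 * L) [MOD 2 ^ L - 1]) ∧
      (∃ e', e' ≤ L ∧ Cyc c' (o .TE) L e') ∧ (∃ d', d' ≤ L ∧ Cyc c' (o .TD) L d') ∧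
      Same [o .W1, o .W3, o .Acc, o .Cy, o .TE, o .TD] c c' := by
  obtain ⟨c1, r1, a1, s1⟩ := czero_spec (o .TE) c he0 hTE
  obtain ⟨c2, r2, b1, b2, s2⟩ := ccopy_spec U (o .TD) hU c1 hu hd0
    (hUc.of_same s1 (by simpa using hUE)) (hTD.of_same s1 (by simp))
  obtain ⟨c3, r3, d1, d2, d3⟩ := mvBy_spec (o .RN1B) (o .W3) .R (by simp) (by simp) c2
    ((hN1.of_same s1 (by simp)).of_same s2 (by simp))
  have s3' : Same [o .W3, o .TE, o .TD] c c3 := (s1.trans (s2.trans d3)).mono (by simp)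
  have hle := fun k => genE_le (L := L) (u := u) (v := v) hu hv k
  -- the invariant
  set τ3 := c.tape (o .W3) with hτ3
  obtain ⟨c4, ⟨i1, i2, i3, i4, i5, i6, i7, i8, i9, i10, i11⟩, hRN4, r4⟩ :=
    forR_spec (R := o .RN) (n := N) (body := chirpBody V)
    (fun k c' => c'.head (o .W1) = ((k * (4 * L) : ℕ) : ℤ) ∧
      c'.head (o .W3) = (((N - 1 + k) * (4 * L) : ℕ) : ℤ) ∧ c'.tape (o .W3) = τ3 ∧
      (∀ j, j < k → vl (c'.tape (o .W1)) ((j * (4 * L) : ℕ) : ℤ) (4 * L) < 2 ^ L ∧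
        vl (c'.tape (o .W1)) ((j * (4 * L) : ℕ) : ℤ) (4 * L) * 2 ^ (genE L u v j).1 ≡
          vl τ3 (((N - 1 + j) * (4 * L) : ℕ) : ℤ) (4 * L) [MOD 2 ^ L - 1]) ∧
      Cyc c' (o .TE) L (genE L u v k).1 ∧ Cyc c' (o .TD) L (genE L u v k).2 ∧
      Cyc c' V L v ∧ Ruler c' (o .RL) L ∧ Ruler c' (o .RBL) (3 * L) ∧
      (c'.read (o .Z)).isOne = false ∧ Same [o .RN, o .W1, o .W3, o .Acc, o .Cy, o .TE, o .TD] c c')
    (fun _ => 85 * L + 81) (c := c3)
    (hRN.of_same s3' (by simp))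
    (by
      simp only [chirpBody, touch_seq, touch_foldB, touch_rotL, touch_fillBy, touch_addCyc]
      simp [hVN.symm])
    (by
      refine ⟨?_, ?_, ?_, ?_, ?_, ?_, ?_, ?_, ?_, ?_, ?_⟩
      · rw [s3'.head (by simp), hW1]; simp
      · rw [d1, s2.head (by simp), s1.head (by simp), hW3]
        simp [Dir.toInt]
      · rw [d2, s2.tape (by simp), s1.tape (by simp)]
      · intro j hj; omega
      · simpa [genE] using (a1.of_same s2 (by simp)).of_same d3 (by simp)
      · simpa [genE] using b2.of_same d3 (by simp)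
      · exact hVc.of_same s3' (by simp [hV, hVE, hVW])
      · exact hRL.of_same s3' (by simp)
      · exact hRB.of_same s3' (by simp)
      · have : c3.read (o .Z) = c.read (o .Z) := by
          simp only [TS.read]
          rw [s3'.tape (by simp), s3'.head (by simp)]
        rw [this]; exact hZ
      · exact s3'.mono (by simp))
    (by
      rintro k c1 c2 ⟨f1, f2, f3, f4, f5, f6, f7, f8, f9, f10, f11⟩ hs _
      refine ⟨?_, ?_, ?_, ?_, f5.of_same hs (by simp), f6.of_same hs (by simp),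
        f7.of_same hs (by simpa using hVN), f8.of_same hs (by simp), f9.of_same hs (by simp), ?_, ?_⟩
      · rw [hs.head (by simp)]; exact f1
      · rw [hs.head (by simp)]; exact f2
      · rw [hs.tape (by simp)]; exact f3
      · rw [hs.tape (by simp)]; exact f4
      · have : c2.read (o .Z) = c1.read (o .Z) := by
          simp only [TS.read]
          rw [hs.tape (by simp), hs.head (by simp)]
        rw [this]; exact f10
      · exact (f11.trans hs).mono (by simp))
    (by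
      rintro k hk c1 _ _ ⟨f1, f2, f3, f4, f5, f6, f7, f8, f9, f10, f11⟩
      obtain ⟨c2, r, g1, g2, g3, g4, g5, g6, g7, g8, g9⟩ := chirpBody_spec V hV hVE hVA hVW hVC hV1 c1 hL
        (hle k).1 (hle k).2 hv f5 f6 f7 f8 f9 f10
      refine ⟨c2, r, ?_, ?_, ?_, ?_, g7, g8, f7.of_same g9 (by simp [hV, hVE, hVA, hVW, hVC, hV1]),
        f8.of_same g9 (by simp), f9.of_same g9 (by simp), ?_, (f11.trans g9).mono (by simp)⟩
      · rw [g1, f1]
        push_cast
        ring
      · rw [g2, f2]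
        have : N - 1 + (k + 1) = N - 1 + k + 1 := by omega
        rw [this]
        push_cast
        ring
      · rw [g3, f3]
      · intro j hj
        by_cases hjk : j < k
        · have hblock : vl (c2.tape (o .W1)) ((j * (4 * L) : ℕ) : ℤ) (4 * L) =
              vl (c1.tape (o .W1)) ((j * (4 * L) : ℕ) : ℤ) (4 * L) := by
            apply vl_congr
            intro i hi
            rw [g4]
            rw [f1]
            rintro ⟨h1, _⟩
            have : (j + 1) * (4 * L) ≤ k * (4 * L) := Nat.mul_le_mul_right _ hjk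
            have e : (j + 1) * (4 * L) = j * (4 * L) + 4 * L := by ring
            rw [e] at this
            have h2 : (((j * (4 * L) + 4 * L) : ℕ) : ℤ) ≤ ((k * (4 * L) : ℕ) : ℤ) := by exact_mod_cast this
            push_cast at h1 h2 hi ⊢
            have hi' : (i : ℤ) < 4 * L := by exact_mod_cast hi
            linarith
          rw [hblock]
          exact f4 j hjk
        · have hjk' : j = k := by omega
          subst hjk'
          rw [f1] at g5 g6
          rw [f2, f3] at g6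
          exact ⟨g5, g6⟩
      · have : c2.read (o .Z) = c1.read (o .Z) := by
          simp only [TS.read]
          rw [g9.tape (by simp), g9.head (by simp)]
        rw [this]; exact f10)
  have nNB : o .RNB ∉ ([o .RN, o .W1, o .W3, o .Acc, o .Cy, o .TE, o .TD] : List (Own ⊕ X)) := by simp
  have nN1 : o .RN1B ∉ ([o .RN, o .W1, o .W3, o .Acc, o .Cy, o .TE, o .TD] : List (Own ⊕ X)) := by simp
  obtain ⟨c5, r5, j1, j2, j3⟩ := mvBy_spec (o .RNB) (o .W1) .L (by simp) (by simp) c4 (hNB.of_same i11 nNB)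
  obtain ⟨c6, r6, j4, j5, j6⟩ := mvBy_spec (o .RNB) (o .W3) .L (by simp) (by simp) c5
    ((hNB.of_same i11 nNB).of_same j3 (by simp))
  obtain ⟨c7, r7, j7, j8, j9⟩ := mvBy_spec (o .RN1B) (o .W3) .L (by simp) (by simp) c6
    (((hN1.of_same i11 nN1).of_same j3 (by simp)).of_same j6 (by simp))
  have hcost : (N - 1) * (4 * L) ≤ 4 * (N * L) := by
    calc (N - 1) * (4 * L) ≤ N * (4 * L) := Nat.mul_le_mul_right _ (Nat.sub_le _ _)
      _ = 4 * (N * L) := by ring
  have hcost2 : N * (4 * L) = 4 * (N * L) := by ring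
  have tW1 : c7.tape (o .W1) = c4.tape (o .W1) := by
    rw [j9.tape (by simp), j6.tape (by simp), j2]
  refine ⟨c7, ?_, ?_, ?_, ?_, ?_, ⟨_, (hle N).1, ?_⟩, ⟨_, (hle N).2, ?_⟩, ?_⟩
  · refine (r1.seq (r2.seq (r3.seq (r4.seq (r5.seq (r6.seq r7)))))).mono ?_
    simp only [Finset.sum_const, Finset.card_range, smul_eq_mul, chirpCost]
    have : N * (85 * L + 81 + 2) = 85 * (N * L) + 83 * N := by ring
    rw [this]
    omega
  · rw [j9.head (by simp), j6.head (by simp), j1, i1]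
    simp [Dir.toInt]
  · rw [j7, j4, j3.head (by simp), i2]
    have e : (N - 1 + N) * (4 * L) = (N - 1) * (4 * L) + N * (4 * L) := by ring
    rw [e]
    simp only [Dir.toInt]
    push_cast
    ring
  · rw [j8, j5, j3.tape (by simp), i3]
  · intro k hk
    rw [tW1]
    exact i4 k hk
  · exact ((i5.of_same j3 (by simp)).of_same j6 (by simp)).of_same j9 (by simp)
  · exact ((i6.of_same j3 (by simp)).of_same j6 (by simp)).of_same j9 (by simp)
  · refine Same.erase (R := o .RN) ((i11.trans (j3.trans (j6.trans j9))).mono (by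
      intro t ht
      simp only [List.mem_append, List.mem_cons, List.not_mem_nil, or_false] at ht ⊢
      tauto)) ?_ ?_
    · rw [j9.tape (by simp), j6.tape (by simp), j3.tape (by simp), hRN4.1, hRN.1]
    · rw [j9.head (by simp), j6.head (by simp), j3.head (by simp), hRN4.2, hRN.2]

end stage

end Vale.Agent.Lib.P338
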