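import Vale.Agent.Lib.P338.Bits

/-!
Products of numbers cut into blocks.
-/

namespace Vale.Agent.Lib.P338

open Finset

section
variable {G : Type}

theorem vl_blocks (τ : ℤ → Sym G) (B K : ℕ) :
    vl τ 0 (K * B) = ∑ k ∈ range K, vl τ ((k * B : ℕ) : ℤ) B * 2 ^ (k * B) := by
  induction K with
  | zero => simp [vl]
  | succ K ih =>
    rw [sum_range_succ, ← ih, add_mul, one_mul, vl_add, zero_add]
    ring

theorem sum_blocks_lt (c : ℕ → ℕ) (B J : ℕ) (hc : ∀ j, j < J → c j < 2 ^ B) :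
    ∑ j ∈ range J, c j * 2 ^ (j * B) < 2 ^ (J * B) := by
  induction J with
  | zero => simp
  | succ J ih =>
    rw [sum_range_succ]
    have h1 := ih (fun j hj => hc j (by omega))
    have h2 := hc J (by omega)
    have h3 : 2 ^ ((J + 1) * B) = 2 ^ B * 2 ^ (J * B) := by
      rw [add_mul, one_mul, pow_add]
      ring
    rw [h3]
    have h4 : c J * 2 ^ (J * B) + 2 ^ (J * B) ≤ 2 ^ B * 2 ^ (J * B) := by
      have : (c J + 1) * 2 ^ (J * B) ≤ 2 ^ B * 2 ^ (J * B) := Nat.mul_le_mul_right _ h2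
      linarith
    omega

theorem digit_unique {x x' y y' m : ℕ} (hx : x < m) (hx' : x' < m) (h : x + m * y = x' + m * y') :
    x = x' ∧ y = y' := by
  have h1 : (x + m * y) % m = x := by
    rw [Nat.add_mul_mod_self_left, Nat.mod_eq_of_lt hx]
  have h2 : (x' + m * y') % m = x' := by
    rw [Nat.add_mul_mod_self_left, Nat.mod_eq_of_lt hx']
  have e : x = x' := by
    rw [← h1, ← h2, h]
  subst e
  refine ⟨rfl, ?_⟩
  have hm : 0 < m := by omega
  exact Nat.eq_of_mul_eq_mul_left hm (by omega)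

theorem blocks_unique (τ : ℤ → Sym G) (B J : ℕ) (c : ℕ → ℕ) (hc : ∀ j, j < J → c j < 2 ^ B)
    (h : vl τ 0 (J * B) = ∑ j ∈ range J, c j * 2 ^ (j * B)) :
    ∀ j, j < J → vl τ ((j * B : ℕ) : ℤ) B = c j := by
  induction J with
  | zero => intro j hj; omega
  | succ J ih =>
    rw [sum_range_succ, add_mul, one_mul, vl_add, zero_add] at h
    have h1 := vl_lt τ 0 (J * B)
    have h2 := sum_blocks_lt c B J (fun j hj => hc j (by omega))
    have e : vl τ 0 (J * B) + 2 ^ (J * B) * vl τ ((J * B : ℕ) : ℤ) B =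
        ∑ j ∈ range J, c j * 2 ^ (j * B) + 2 ^ (J * B) * c J := by
      rw [h]
      ring
    obtain ⟨e1, e2⟩ := digit_unique h1 h2 e
    intro j hj
    by_cases hjJ : j < J
    · exact ih (fun j hj => hc j (by omega)) e1 j hjJ
    · have : j = J := by omega
      subst this
      exact e2

/-- The block convolution. -/
def cv (a b : ℕ → ℕ) (K j : ℕ) : ℕ :=
  ∑ n ∈ range K, if n ≤ j ∧ j - n < K then a n * b (j - n) else 0

theorem inner_shift (f : ℕ → ℕ) (n K z : ℕ) (hn : n < K) :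
    ∑ j ∈ range (2 * K), (if n ≤ j ∧ j - n < K then f (j - n) else 0) * z ^ j =
      ∑ d ∈ range K, f d * z ^ (n + d) := by
  have e : ∀ j ∈ range (2 * K), (if n ≤ j ∧ j - n < K then f (j - n) else 0) * z ^ j =
      if n ≤ j ∧ j - n < K then f (j - n) * z ^ j else 0 := by
    intro j _
    split_ifs <;> simp
  rw [sum_congr rfl e, ← sum_filter]
  apply sum_nbij' (fun j => j - n) (fun d => n + d)
  · intro j hj
    simp only [mem_filter, mem_range] at hj
    simp only [mem_range]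
    omega
  · intro d hd
    simp only [mem_range] at hd
    simp only [mem_filter, mem_range]
    omega
  · intro j hj
    simp only [mem_filter, mem_range] at hj
    omega
  · intro d _
    omega
  · intro j hj
    simp only [mem_filter, mem_range] at hj
    have : n + (j - n) = j := by omega
    rw [this]

theorem cv_mul (a b : ℕ → ℕ) (K z : ℕ) :
    (∑ k ∈ range K, a k * z ^ k) * (∑ d ∈ range K, b d * z ^ d) =
      ∑ j ∈ range (2 * K), cv a b K j * z ^ j := by
  unfold cv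
  simp only [sum_mul]
  rw [sum_comm]
  apply sum_congr rfl
  intro n hn
  have := inner_shift (fun d => a n * b d) n K z (mem_range.1 hn)
  have e : ∀ j ∈ range (2 * K), (if n ≤ j ∧ j - n < K then a n * b (j - n) else 0) * z ^ j =
      (if n ≤ j ∧ j - n < K then (fun d => a n * b d) (j - n) else 0) * z ^ j := by
    intro j _
    rfl
  rw [sum_congr rfl e, this]
  rw [mul_sum]
  apply sum_congr rfl
  intro d _
  rw [pow_add]
  ring

theorem product_blocks (τ1 τ2 τ3 : ℤ → Sym G) (B K : ℕ)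
    (hmul : vl τ3 0 (2 * (K * B)) = vl τ1 0 (K * B) * vl τ2 0 (K * B))
    (hc : ∀ j, j < 2 * K → cv (fun n => vl τ1 ((n * B : ℕ) : ℤ) B) (fun n => vl τ2 ((n * B : ℕ) : ℤ) B) K j < 2 ^ B) :
    ∀ j, j < 2 * K → vl τ3 ((j * B : ℕ) : ℤ) B =
      cv (fun n => vl τ1 ((n * B : ℕ) : ℤ) B) (fun n => vl τ2 ((n * B : ℕ) : ℤ) B) K j := by
  apply blocks_unique τ3 B (2 * K) _ hc
  have e0 : ∀ (m : ℕ), (2 : ℕ) ^ (m * B) = (2 ^ B) ^ m := by
    intro m
    rw [← pow_mul, mul_comm]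
  rw [show 2 * K * B = 2 * (K * B) by ring, hmul, vl_blocks τ1 B K, vl_blocks τ2 B K]
  simp only [e0]
  rw [cv_mul (fun n => vl τ1 ((n * B : ℕ) : ℤ) B) (fun n => vl τ2 ((n * B : ℕ) : ℤ) B) K (2 ^ B)]

theorem cv_window (a b : ℕ → ℕ) (N k : ℕ) (hk : k < N) (ha : ∀ n, N ≤ n → n < 2 * N → a n = 0) :
    cv a b (2 * N) (N - 1 + k) = ∑ n ∈ range N, a n * b (N - 1 + k - n) := by
  unfold cv
  rw [← sum_subset (s₁ := range N) (s₂ := range (2 * N))]
  · apply sum_congr rfl
    intro n hn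
    have := mem_range.1 hn
    rw [if_pos (by omega)]
  · intro n hn
    simp only [mem_range] at hn ⊢
    omega
  · intro n hn hn'
    simp only [mem_range] at hn hn'
    rw [ha n (by omega) hn]
    simp

theorem cv_bound (a b : ℕ → ℕ) (K L j : ℕ) (hL : 1 ≤ L) (hK : K ≤ 2 ^ L)
    (ha : ∀ n, n < K → a n ≤ 2 ^ L) (hb : ∀ n, n < K → b n ≤ 2 ^ L) : cv a b K j < 2 ^ (4 * L) := by
  unfold cv
  have h1 : ∑ n ∈ range K, (if n ≤ j ∧ j - n < K then a n * b (j - n) else 0) ≤ ∑ n ∈ range K, 2 ^ L * 2 ^ L := by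
    apply sum_le_sum
    intro n hn
    have hn' := mem_range.1 hn
    split_ifs with h
    · exact Nat.mul_le_mul (ha n hn') (hb _ h.2)
    · exact Nat.zero_le _
  rw [sum_const, card_range, smul_eq_mul] at h1
  have h2 : K * (2 ^ L * 2 ^ L) ≤ 2 ^ L * (2 ^ L * 2 ^ L) := Nat.mul_le_mul_right _ hK
  have h3 : 2 ^ L * (2 ^ L * 2 ^ L) = 2 ^ (3 * L) := by
    rw [show 3 * L = L + (L + L) by ring, pow_add, pow_add]
  have h4 : 2 ^ (3 * L) < 2 ^ (4 * L) := Nat.pow_lt_pow_right (by norm_num) (by omega)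
  omega

theorem stage_values (τ1 τ1' τ2 τ3 : ℤ → Sym G) (B L N : ℕ) (G : ℕ → ℕ) (hB : B = 4 * L) (hL : 1 ≤ L)
    (hNL : 2 * N ≤ 2 ^ L) (hG : ∀ d, G d ≤ L)
    (hkeep : ∀ x : ℤ, x < (N * B : ℕ) → τ1' x = τ1 x)
    (hzero : ∀ x : ℤ, (N * B : ℕ) ≤ x → x < (2 * N * B : ℕ) → τ1' x = .zero)
    (ha : ∀ k, k < N → vl τ1 ((k * B : ℕ) : ℤ) B < 2 ^ L)
    (hb : ∀ d, d < 2 * N → vl τ2 ((d * B : ℕ) : ℤ) B = 2 ^ G (d + 1))
    (hmul : vl τ3 0 (2 * (2 * N * B)) = vl τ1' 0 (2 * N * B) * vl τ2 0 (2 * N * B)) :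
    ∀ k, k < N → vl τ3 (((N - 1 + k) * B : ℕ) : ℤ) B =
      ∑ n ∈ range N, vl τ1 ((n * B : ℕ) : ℤ) B * 2 ^ G (N + k - n) := by
  set a' : ℕ → ℕ := fun n => vl τ1' ((n * B : ℕ) : ℤ) B with ha'
  set b' : ℕ → ℕ := fun n => vl τ2 ((n * B : ℕ) : ℤ) B with hb'
  have ha1 : ∀ n, n < N → a' n = vl τ1 ((n * B : ℕ) : ℤ) B := by
    intro n hn
    apply vl_congr
    intro i hi
    rw [hkeep]
    have h1 : (n + 1) * B ≤ N * B := Nat.mul_le_mul_right _ hn
    have h2 : ((n * B : ℕ) : ℤ) + i < ((N * B : ℕ) : ℤ) := by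
      have : n * B + i < N * B := by
        rw [add_mul, one_mul] at h1
        omega
      exact_mod_cast this
    exact h2
  have ha0 : ∀ n, N ≤ n → n < 2 * N → a' n = 0 := by
    intro n h1 h2
    apply vl_eq_zero
    intro i hi
    rw [hzero]
    · rfl
    · have : N * B ≤ n * B := Nat.mul_le_mul_right _ h1
      have h3 : ((N * B : ℕ) : ℤ) ≤ ((n * B : ℕ) : ℤ) := by exact_mod_cast this
      have h4 : (0 : ℤ) ≤ i := by positivity
      linarith
    · have h3 : (n + 1) * B ≤ 2 * N * B := Nat.mul_le_mul_right _ h2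
      have : n * B + i < 2 * N * B := by
        rw [add_mul, one_mul] at h3
        omega
      exact_mod_cast this
  have hcb : ∀ j, cv a' b' (2 * N) j < 2 ^ B := by
    intro j
    rw [hB]
    apply cv_bound a' b' (2 * N) L j hL hNL
    · intro n hn
      by_cases hnN : n < N
      · rw [ha1 n hnN]
        exact (ha n hnN).le
      · rw [ha0 n (by omega) hn]
        exact Nat.zero_le _
    · intro n hn
      change vl τ2 ((n * B : ℕ) : ℤ) B ≤ 2 ^ L
      rw [hb n hn]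
      exact Nat.pow_le_pow_right (by norm_num) (hG _)
  have hprod := product_blocks τ1' τ2 τ3 B (2 * N) hmul (fun j _ => hcb j)
  intro k hk
  have hj : N - 1 + k < 2 * (2 * N) := by omega
  rw [hprod _ hj]
  change cv a' b' (2 * N) (N - 1 + k) = _
  rw [cv_window a' b' N k hk ha0]
  apply sum_congr rfl
  intro n hn
  have hn' := mem_range.1 hn
  rw [ha1 n hn']
  change _ * vl τ2 (((N - 1 + k - n) * B : ℕ) : ℤ) B = _
  rw [hb _ (by omega)]
  have e : N - 1 + k - n + 1 = N + k - n := by omega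
  rw [e]

end

end Vale.Agent.Lib.P338
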