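import Vale.Agent.Lib.P338.Bits

/-!
Cyclic runs: a residue `E` modulo `L` stored as `E` ones followed by `L - E` zeros.
-/

namespace Vale.Agent.Lib.P338

open Prog

section
variable {T G : Type} [DecidableEq T]

/-- `E` ones then zeros up to cell `L`, blank elsewhere. -/
def crun (L E : ℕ) : ℤ → Sym G := fun i =>
  if 0 ≤ i ∧ i < E then .one else if 0 ≤ i ∧ i < L then .zero else .blank

/-- A cyclic run with its head at the start. -/
def Cyc (c : TS T (Sym G)) (X : T) (L E : ℕ) : Prop := c.tape X = crun L E ∧ c.head X = 0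

omit [DecidableEq T] in
theorem Cyc.of_same {c c' : TS T (Sym G)} {X : T} {L E : ℕ} (h : Cyc c X L E) {l : List T}
    (hs : Same l c c') (hX : X ∉ l) : Cyc c' X L E :=
  ⟨(hs.tape hX).trans h.1, (hs.head hX).trans h.2⟩

theorem crun_one {L E : ℕ} {i : ℕ} (h : i < E) : (crun L E (i : ℤ) : Sym G) = .one := by
  simp [crun, h]

theorem crun_zero {L E : ℕ} {i : ℕ} (h : E ≤ i) (h2 : i < L) : (crun L E (i : ℤ) : Sym G) = .zero := by
  have h3 : ¬ (i : ℤ) < E := by omega
  simp [crun, h2, h3]

theorem crun_blank {L E : ℕ} (hE : E ≤ L) {i : ℤ} (h : i < 0 ∨ (L : ℤ) ≤ i) : (crun L E i : Sym G) = .blank := by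
  unfold crun
  rw [if_neg (by omega), if_neg (by omega)]

theorem crun_nonBlank {L E : ℕ} (hE : E ≤ L) {i : ℕ} (h : i < L) : (crun L E (i : ℤ) : Sym G).nonBlank = true := by
  by_cases h2 : i < E
  · rw [crun_one h2]; rfl
  · rw [crun_zero (by omega) h]; rfl

/-- Walk to the end of the ones of a cyclic run. -/
theorem crun_walk (X : T) (c : TS T (Sym G)) {L E : ℕ} (hE : E ≤ L) (hX : Cyc c X L E) :
    ∃ c', Run (sc0 Sym.isOne X .R fun x => x) c c' (2 * E + 1) ∧ c'.head X = E ∧
      c'.tape X = crun L E ∧ Same [X] c c' := by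
  obtain ⟨h1, h2⟩ := hX
  obtain ⟨c1, r1, e1, hit1, miss1, s1⟩ := sc0_spec Sym.isOne X .R (fun x => x) (by simp) c E
    (by
      intro i hi
      rw [h1, h2]
      simp only [Dir.toInt, mul_one, zero_add]
      rw [crun_one hi]
      rfl)
    (by
      rw [h1, h2]
      simp only [Dir.toInt, mul_one, zero_add]
      by_cases hh : E < L
      · rw [crun_zero le_rfl hh]; rfl
      · rw [crun_blank hE (by right; omega)]; rfl)
  have t1 : c1.tape X = c.tape X := same_of_hit_miss hit1 miss1
  exact ⟨c1, r1, by rw [e1, h2]; simp [Dir.toInt], t1.trans h1, s1⟩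

/-- Sum of residues, in the range `[0, L]`. -/
def cycAdd (L E a : ℕ) : ℕ := if E + a ≤ L then E + a else E + a - L

theorem cycAdd_le {L E a : ℕ} (hE : E ≤ L) (ha : a ≤ L) : cycAdd L E a ≤ L := by
  unfold cycAdd
  split_ifs <;> omega

theorem cycAdd_modEq (L E a : ℕ) (hE : E ≤ L) (ha : a ≤ L) : cycAdd L E a ≡ E + a [MOD L] := by
  unfold cycAdd
  split_ifs with h
  · rfl
  · have : E + a = (E + a - L) + L := by omega
    conv_rhs => rw [this]
    simp [Nat.ModEq]

/-- Reset a cyclic run whose head is on the cell after its end to all zeros, head at the start. -/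
def cwrap (D : T) : Prog T (Sym G) :=
  .seq (mv D .L) (.seq (sc0 Sym.nonBlank D .L fun _ => .zero) (mv D .R))

/-- One tick of addition. -/
def addTick (S D : T) : Prog T (Sym G) :=
  .seq (.ite (fun s => !(s D).nonBlank) (cwrap D) skip) (.seq (act1 D (fun _ => .one) .R) (mv S .R))

/-- Add the cyclic run `S` to the cyclic run `D`. -/
def addCyc (S D : T) : Prog T (Sym G) :=
  .seq (sc0 Sym.isOne D .R fun x => x)
    (.seq (.loop (fun s => (s S).isOne) (addTick S D)) (.seq (rew D) (rew S)))

theorem cwrap_spec (D : T) (c : TS T (Sym G)) {L : ℕ} (ht : c.tape D = crun L L)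
    (hh : c.head D = L) :
    ∃ c', Run (cwrap D) c c' (2 * L + 3) ∧ Cyc c' D L 0 ∧ Same [D] c c' := by
  obtain ⟨c1, r1, h1, t1, s1⟩ := mv_spec D .L c
  obtain ⟨c2, r2, h2, hit, miss, s2⟩ := sc0_spec Sym.nonBlank D .L (fun _ => .zero) (by simp) c1 L
    (by
      intro i hi
      rw [t1, ht, h1, hh]
      simp only [Dir.toInt]
      have e : (L : ℤ) + -1 + (i : ℤ) * -1 = ((L - 1 - i : ℕ) : ℤ) := by omega
      rw [e, crun_one (by omega)]
      rfl)
    (by
      rw [t1, ht, h1, hh]
      simp only [Dir.toInt]
      have e : (L : ℤ) + -1 + (L : ℤ) * -1 = -1 := by ring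
      rw [e, crun_blank le_rfl (by left; omega)]
      rfl)
  obtain ⟨c3, r3, h3, t3, s3⟩ := mv_spec D .R c2
  refine ⟨c3, (r1.seq (r2.seq r3)).mono (by omega), ⟨?_, ?_⟩, (s1.trans (s2.trans s3)).mono (by simp)⟩
  · rw [t3]
    funext x
    by_cases hx : 0 ≤ x ∧ x < L
    · have := hit (L - 1 - x).toNat (by omega)
      rw [h1, hh] at this
      simp only [Dir.toInt] at this
      have e : (L : ℤ) + -1 + ((L - 1 - x).toNat : ℤ) * -1 = x := by omega
      rw [e] at this
      rw [this]
      simp [crun, hx.1, hx.2]
    · rw [miss x, t1, ht, crun_blank le_rfl (by omega), crun_blank (by omega) (by omega)]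
      rw [h1, hh]
      intro j hj he
      simp only [Dir.toInt] at he
      omega
  · rw [h3, h2, h1, hh]
    simp only [Dir.toInt]
    push_cast
    ring

theorem addCyc_spec (S D : T) (hSD : S ≠ D) (c : TS T (Sym G)) {L E a : ℕ} (hL : 1 ≤ L)
    (hE : E ≤ L) (ha : a ≤ L) (h1 : Cyc c S L a) (h2 : Cyc c D L E) :
    ∃ c', Run (addCyc S D) c c' (16 * L + 16) ∧ Cyc c' S L a ∧ Cyc c' D L (cycAdd L E a) ∧
      Same [D] c c' := by
  obtain ⟨c1, r1, e1, e2, s1⟩ := crun_walk D c hE h2
  have hS1 : Cyc c1 S L a := h1.of_same s1 (by simpa using hSD)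
  -- the loop
  set cost : ℕ → ℕ := fun i => if i = L - E then 2 * L + 7 else 6 with hcost
  have hec : ∀ i, cycAdd L E i ≤ L ∨ i ≥ L := fun i => by
    unfold cycAdd; split_ifs <;> omega
  obtain ⟨c2, ⟨i1, i2, i3, i4, i5⟩, r2⟩ := Run.loop (g := fun s => (s S).isOne) (b := addTick S D)
    (fun i c' => c'.tape S = crun L a ∧ c'.head S = (i : ℤ) ∧ c'.tape D = crun L (cycAdd L E i) ∧
      c'.head D = (cycAdd L E i : ℕ) ∧ Same [S, D] c c') a cost (c := c1)
    ⟨hS1.1, by simpa using hS1.2, by simpa [cycAdd, hE] using e2, by simpa [cycAdd, hE] using e1,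
      s1.mono (by simp)⟩
    (by
      rintro i hi c' ⟨f1, f2, f3, f4, f5⟩
      constructor
      · simp only [TS.read, f1, f2]
        rw [crun_one hi]
        rfl
      · have hiL : i < L := by omega
        by_cases hw : i = L - E
        · -- wrap
          have eE : cycAdd L E i = L := by
            unfold cycAdd
            rw [if_pos (by omega)]
            omega
          rw [eE] at f3 f4
          obtain ⟨c3, r3, h3, s3⟩ := cwrap_spec D c' f3 f4
          have r3' : Run (.ite (fun s => !(s D).nonBlank) (cwrap D) skip) c' c3 (2 * L + 3 + 1) := by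
            apply Run.iteT _ r3
            simp only [TS.read, f3, f4]
            rw [crun_blank le_rfl (by right; omega)]
            rfl
          obtain ⟨c4, r4, h4, t4, s4⟩ := act1_spec D (fun _ => .one) .R c3
          obtain ⟨c5, r5, h5, t5, s5⟩ := mv_spec S .R c4
          have nSD : S ∉ [D] := by simpa using hSD
          have nDS : D ∉ [S] := by simpa using hSD.symm
          refine ⟨c5, ?_, ?_, ?_, ?_, ?_, ?_⟩
          · refine (r3'.seq (r4.seq r5)).mono ?_
            simp only [hcost, if_pos hw]
            omega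
          · rw [t5, s4.tape nSD, s3.tape nSD, f1]
          · rw [h5, s4.head nSD, s3.head nSD, f2]
            simp [Dir.toInt]
          · rw [s5.tape nDS]
            funext x
            rw [t4, h3.2, h3.1]
            have eE2 : cycAdd L E (i + 1) = 1 := by
              unfold cycAdd
              rw [if_neg (by omega)]
              omega
            rw [eE2]
            by_cases hx : x = 0
            · subst hx
              simp [crun]
            · rw [if_neg (by simpa using hx)]
              simp only [crun]
              have : ¬ (0 ≤ x ∧ x < ((0 : ℕ) : ℤ)) := by omega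
              rw [if_neg this]
              have : ¬ (0 ≤ x ∧ x < ((1 : ℕ) : ℤ)) := by omega
              rw [if_neg this]
          · rw [s5.head nDS, h4, h3.2]
            have eE2 : cycAdd L E (i + 1) = 1 := by
              unfold cycAdd
              rw [if_neg (by omega)]
              omega
            rw [eE2]
            simp [Dir.toInt]
          · exact (f5.trans (s3.trans (s4.trans s5))).mono (by simp)
        · -- no wrap
          have eE : cycAdd L E i < L := by
            unfold cycAdd
            split_ifs <;> omega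
          have eE2 : cycAdd L E (i + 1) = cycAdd L E i + 1 := by
            unfold cycAdd
            split_ifs <;> omega
          have r3' : Run (.ite (fun s => !(s D).nonBlank) (cwrap D) skip) c' c' (1 + 1) := by
            apply Run.iteF _ (skip_spec c')
            simp only [TS.read, f3, f4]
            rw [crun_zero le_rfl eE]
            rfl
          obtain ⟨c4, r4, h4, t4, s4⟩ := act1_spec D (fun _ => .one) .R c'
          obtain ⟨c5, r5, h5, t5, s5⟩ := mv_spec S .R c4
          have nSD : S ∉ [D] := by simpa using hSD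
          have nDS : D ∉ [S] := by simpa using hSD.symm
          refine ⟨c5, ?_, ?_, ?_, ?_, ?_, ?_⟩
          · refine (r3'.seq (r4.seq r5)).mono ?_
            simp only [hcost, if_neg hw]
            omega
          · rw [t5, s4.tape nSD, f1]
          · rw [h5, s4.head nSD, f2]
            simp [Dir.toInt]
          · rw [s5.tape nDS]
            funext x
            rw [t4, f4, f3, eE2]
            by_cases hx : x = (cycAdd L E i : ℕ)
            · rw [if_pos hx, hx]
              simp only [crun]
              push_cast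
              rw [if_pos (by omega)]
            · rw [if_neg hx]
              simp only [crun]
              push_cast
              by_cases hx1 : 0 ≤ x ∧ x < (cycAdd L E i : ℤ)
              · rw [if_pos hx1, if_pos (by omega)]
              · have h9 : ¬ (0 ≤ x ∧ x < (cycAdd L E i : ℤ) + 1) := by omega
                rw [if_neg hx1, if_neg h9]
          · rw [s5.head nDS, h4, f4, eE2]
            simp [Dir.toInt]
          · exact (f5.trans (s4.trans s5)).mono (by simp))
    (by
      rintro c' ⟨f1, f2, _⟩
      simp only [TS.read, f1, f2]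
      by_cases hh : a < L
      · rw [crun_zero le_rfl hh]; rfl
      · rw [crun_blank ha (by right; omega)]; rfl)
  have hfin : cycAdd L E a ≤ L := cycAdd_le hE ha
  obtain ⟨c3, r3, e3, e4, s3⟩ := rew_spec D c2 (cycAdd L E a) i4
    (by
      intro i hi
      rw [i3]
      exact crun_nonBlank hfin (by omega))
    (by rw [i3]; exact crun_blank hfin (by left; omega))
  obtain ⟨c4, r4, e5, e6, s4⟩ := rew_spec S c3 a
    (by rw [s3.head (by simpa using hSD), i2])
    (by
      intro i hi
      rw [s3.tape (by simpa using hSD), i1]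
      exact crun_nonBlank ha (by omega))
    (by
      rw [s3.tape (by simpa using hSD), i1]
      exact crun_blank ha (by left; omega))
  have nSD : S ∉ [D] := by simpa using hSD
  have nDS : D ∉ [S] := by simpa using hSD.symm
  refine ⟨c4, ?_, ⟨?_, e5⟩, ⟨?_, ?_⟩, ?_⟩
  · refine (r1.seq (r2.seq (r3.seq r4))).mono ?_
    have hsum : ∑ i ∈ Finset.range a, (cost i + 1) ≤ 7 * a + (2 * L + 7) := by
      have : ∀ i ∈ Finset.range a, cost i + 1 = 7 + (if i = L - E then 2 * L + 1 else 0) := by
        intro i _
        simp only [hcost]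
        split_ifs <;> omega
      rw [Finset.sum_congr rfl this, Finset.sum_add_distrib, Finset.sum_ite_eq']
      simp only [Finset.sum_const, Finset.card_range, smul_eq_mul]
      split_ifs <;> omega
    omega
  · rw [e6, s3.tape (by simpa using hSD), i1]
  · rw [s4.tape nDS, e4, i3]
  · rw [s4.head nDS, e3]
  · refine Same.erase (R := S) ((i5.trans (s3.trans s4)).mono (by simp)) ?_ ?_
    · rw [e6, s3.tape (by simpa using hSD), i1, h1.1]
    · rw [e5, h1.2]

end

end Vale.Agent.Lib.P338
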