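import Vale.Agent.Lib.P338.Setup

/-!
Preparing and erasing the cyclic counters of a pass.
-/

namespace Vale.Agent.Lib.P338

open Prog

/-- Iterated cyclic addition. -/
def mulCyc (L t : ℕ) : ℕ → ℕ
  | 0 => 0
  | i + 1 => cycAdd L (mulCyc L t i) t

theorem mulCyc_le {L t : ℕ} (ht : t ≤ L) (i : ℕ) : mulCyc L t i ≤ L := by
  induction i with
  | zero => exact Nat.zero_le _
  | succ i ih => exact cycAdd_le ih ht

theorem mulCyc_modEq {L t : ℕ} (ht : t ≤ L) (i : ℕ) : mulCyc L t i ≡ i * t [MOD L] := by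
  induction i with
  | zero => simp [mulCyc, Nat.ModEq]
  | succ i ih =>
    have := cycAdd_modEq L (mulCyc L t i) t (mulCyc_le ht i) ht
    refine this.trans ?_
    have e : (i + 1) * t = i * t + t := by ring
    rw [e]
    exact ih.add_right t

section
variable {X G : Type} [DecidableEq X]

/-- A zero counter. -/
def mk0 (Y : Own ⊕ X) : Prog (Own ⊕ X) (Sym G) := mkCrun (o .Tmp) (o .RL) Y

/-- The sum of two counters. -/
def cycS (S1 S2 D : Own ⊕ X) : Prog (Own ⊕ X) (Sym G) := .seq (mk0 D) (.seq (addCyc S1 D) (addCyc S2 D))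

/-- All counters. -/
def crunSetup : Prog (Own ⊕ X) (Sym G) :=
  .seq (.seq (mkCrun (o .Rt) (o .RL) (o .Tt)) <| .seq (mkCrun (o .RLt) (o .RL) (o .U1)) <| .seq (mk0 (o .U3)) <|
    forR (o .RQ) (addCyc (o .Tt) (o .U3))) <|
  .seq (cycS (o .U3) (o .U1) (o .U2)) <| .seq (cycS (o .U1) (o .U1) (o .V1)) <|
  .seq (cycS (o .U2) (o .U2) (o .V2)) <| .seq (cycS (o .U3) (o .U3) (o .V3)) <|
  .seq (mk0 (o .TE)) (mk0 (o .TD))

theorem cycS_spec (S1 S2 D : Own ⊕ X) (h1 : S1 ≠ D) (h2 : S2 ≠ D) (hT : (o .Tmp : Own ⊕ X) ≠ D) (hR : (o .RL : Own ⊕ X) ≠ D)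
    (c : TS (Own ⊕ X) (Sym G)) {L a b : ℕ} (hL : 1 ≤ L) (ha : a ≤ L) (hb : b ≤ L)
    (hS1 : Cyc c S1 L a) (hS2 : Cyc c S2 L b) (hD : Ruler c D 0) (hTmp : Ruler c (o .Tmp) 0) (hRL : Ruler c (o .RL) L) :
    ∃ c', Run (cycS S1 S2 D) c c' (3 * (16 * L + 16)) ∧ Cyc c' D L (cycAdd L (cycAdd L 0 a) b) ∧ Same [D] c c' := by
  obtain ⟨c1, r1, a1, s1⟩ := mkCrun_spec (o .Tmp) (o .RL) D hT hR c (Nat.zero_le L) hTmp hRL hD
  have n1 : S1 ∉ [D] := by simpa using h1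
  have n2 : S2 ∉ [D] := by simpa using h2
  obtain ⟨c2, r2, _, a2, s2⟩ := addCyc_spec S1 D h1 c1 hL (Nat.zero_le L) ha (hS1.of_same s1 n1) a1
  obtain ⟨c3, r3, _, a3, s3⟩ := addCyc_spec S2 D h2 c2 hL (cycAdd_le (Nat.zero_le L) ha) hb
    ((hS2.of_same s1 n2).of_same s2 n2) a2
  refine ⟨c3, (r1.seq (r2.seq r3)).mono (by omega), a3, (s1.trans (s2.trans s3)).mono (by simp)⟩

theorem crunSetup_a (c : TS (Own ⊕ X) (Sym G)) {L t Q : ℕ} (hL : 1 ≤ L) (ht : t ≤ L)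
    (hRt : Ruler c (o .Rt) t) (hRLt : Ruler c (o .RLt) (L - t)) (hTmp : Ruler c (o .Tmp) 0) (hRL : Ruler c (o .RL) L)
    (hRQ : Ruler c (o .RQ) Q)
    (h1 : Ruler c (o .Tt) 0) (h2 : Ruler c (o .U1) 0) (h3 : Ruler c (o .U3) 0) :
    ∃ c', Run (.seq (mkCrun (o .Rt) (o .RL) (o .Tt)) <| .seq (mkCrun (o .RLt) (o .RL) (o .U1)) <| .seq (mk0 (o .U3)) <|
        (forR (o .RQ) (addCyc (o .Tt) (o .U3))) : Prog (Own ⊕ X) (Sym G)) c c'
        (3 * (16 * L + 16) + (Q * (16 * L + 18) + 1 + (2 * Q + 3))) ∧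
      Cyc c' (o .Tt) L t ∧ Cyc c' (o .U1) L (L - t) ∧ Cyc c' (o .U3) L (mulCyc L t Q) ∧
      Same [o .Tt, o .U1, o .U3] c c' := by
  obtain ⟨c1, r1, a1, s1⟩ := mkCrun_spec (o .Rt) (o .RL) (o .Tt) (by simp) (by simp) c ht hRt hRL h1
  obtain ⟨c2, r2, a2, s2⟩ := mkCrun_spec (o .RLt) (o .RL) (o .U1) (by simp) (by simp) c1 (Nat.sub_le L t)
    (hRLt.of_same s1 (by simp)) (hRL.of_same s1 (by simp)) (h2.of_same s1 (by simp))
  have s12 : Same [o .Tt, o .U1] c c2 := (s1.trans s2).mono (by simp)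
  obtain ⟨c3, r3, a3, s3⟩ := mkCrun_spec (o .Tmp) (o .RL) (o .U3) (by simp) (by simp) c2 (Nat.zero_le L)
    (hTmp.of_same s12 (by simp)) (hRL.of_same s12 (by simp)) (h3.of_same s12 (by simp))
  have s123 : Same [o .Tt, o .U1, o .U3] c c3 := (s12.trans s3).mono (by simp)
  obtain ⟨c4, ⟨i1, i2, i3⟩, hQ4, r4⟩ := forR_spec (R := o .RQ) (n := Q) (body := addCyc (o .Tt) (o .U3))
    (fun k c' => Cyc c' (o .Tt) L t ∧ Cyc c' (o .U3) L (mulCyc L t k) ∧ Same [o .RQ, o .U3] c3 c')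
    (fun _ => 16 * L + 16) (c := c3)
    (hRQ.of_same s123 (by simp))
    (by simp)
    ⟨(a1.of_same s2 (by simp)).of_same s3 (by simp), a3, Same.refl _ _⟩
    (by
      rintro k c1' c2' ⟨f1, f2, f3⟩ hs _
      exact ⟨f1.of_same hs (by simp), f2.of_same hs (by simp), (f3.trans hs).mono (by simp)⟩)
    (by
      rintro i _ c' _ _ ⟨f1, f2, f3⟩
      obtain ⟨c'', r, g1, g2, g3⟩ := addCyc_spec (o .Tt) (o .U3) (by simp) c' hL (mulCyc_le ht i) ht f1 f2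
      exact ⟨c'', r, g1, g2, (f3.trans g3).mono (by simp)⟩)
  have hsum : ∑ i ∈ Finset.range Q, (16 * L + 16 + 2) = Q * (16 * L + 18) := by simp
  rw [hsum] at r4
  have s4 : Same [o .RQ, o .U3] c3 c4 := i3
  refine ⟨c4, (r1.seq (r2.seq (r3.seq r4))).mono (by omega), i1,
    (a2.of_same s3 (by simp)).of_same s4 (by simp), i2, ?_⟩
  intro y hy
  have hy1 : y ≠ o .U3 := fun e => hy (by simp [e])
  by_cases hyQ : y = o .RQ
  · subst hyQ
    exact ⟨hQ4.1.trans hRQ.1.symm, hQ4.2.trans hRQ.2.symm⟩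
  · have e1 := s123 _ hy
    have e2 := s4 y (by simp [hyQ, hy1])
    exact ⟨e2.1.trans e1.1, e2.2.trans e1.2⟩

/-- The counters after their preparation. -/
structure CS (c : TS (Own ⊕ X) (Sym G)) (L t u1 u2 u3 v1 v2 v3 : ℕ) : Prop where
  hT : Cyc c (o .Tt) L t
  h1 : Cyc c (o .U1) L u1
  h2 : Cyc c (o .U2) L u2
  h3 : Cyc c (o .U3) L u3
  d1 : Cyc c (o .V1) L v1
  d2 : Cyc c (o .V2) L v2
  d3 : Cyc c (o .V3) L v3
  hE : Cyc c (o .TE) L 0
  hD : Cyc c (o .TD) L 0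

/-- The list of the counter tapes. -/
def CycT : List (Own ⊕ X) :=
  [o .Tt, o .U1, o .U2, o .U3, o .V1, o .V2, o .V3, o .TE, o .TD]

theorem crunSetup_spec (c : TS (Own ⊕ X) (Sym G)) {L t Q : ℕ} (hL : 1 ≤ L) (ht : t ≤ L)
    (hRt : Ruler c (o .Rt) t) (hRLt : Ruler c (o .RLt) (L - t)) (hTmp : Ruler c (o .Tmp) 0) (hRL : Ruler c (o .RL) L)
    (hRQ : Ruler c (o .RQ) Q)
    (h1 : Ruler c (o .Tt) 0) (h2 : Ruler c (o .U1) 0) (h3 : Ruler c (o .U2) 0) (h4 : Ruler c (o .U3) 0)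
    (h5 : Ruler c (o .V1) 0) (h6 : Ruler c (o .V2) 0) (h7 : Ruler c (o .V3) 0)
    (h8 : Ruler c (o .TE) 0) (h9 : Ruler c (o .TD) 0) :
    ∃ c', Run (crunSetup : Prog (Own ⊕ X) (Sym G)) c c'
        (3 * (16 * L + 16) + (Q * (16 * L + 18) + 1 + (2 * Q + 3)) + 14 * (16 * L + 16)) ∧
      CS c' L t (L - t) (cycAdd L (cycAdd L 0 (mulCyc L t Q)) (L - t)) (mulCyc L t Q)
        (cycAdd L (cycAdd L 0 (L - t)) (L - t))
        (cycAdd L (cycAdd L 0 (cycAdd L (cycAdd L 0 (mulCyc L t Q)) (L - t))) (cycAdd L (cycAdd L 0 (mulCyc L t Q)) (L - t)))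
        (cycAdd L (cycAdd L 0 (mulCyc L t Q)) (mulCyc L t Q)) ∧
      Same CycT c c' := by
  obtain ⟨c1, r1, b1, b2, b3, s1⟩ := crunSetup_a c (Q := Q) hL ht hRt hRLt hTmp hRL hRQ h1 h2 h4
  have hu1 : L - t ≤ L := Nat.sub_le _ _
  have hu3 := mulCyc_le ht Q
  have hRL1 := hRL.of_same s1 (by simp)
  have hTmp1 := hTmp.of_same s1 (by simp)
  obtain ⟨c2, r2, d1, s2⟩ := cycS_spec (o .U3) (o .U1) (o .U2) (by simp) (by simp) (by simp) (by simp) c1 hL hu3 hu1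
    b3 b2 (h3.of_same s1 (by simp)) hTmp1 hRL1
  have hu2 := cycAdd_le (cycAdd_le (Nat.zero_le L) hu3) hu1
  have s12 : Same [o .Tt, o .U1, o .U3, o .U2] c c2 := (s1.trans s2).mono (by simp)
  obtain ⟨c3, r3, d2, s3⟩ := cycS_spec (o .U1) (o .U1) (o .V1) (by simp) (by simp) (by simp) (by simp) c2 hL hu1 hu1
    (b2.of_same s2 (by simp)) (b2.of_same s2 (by simp)) (h5.of_same s12 (by simp)) (hTmp1.of_same s2 (by simp))
    (hRL1.of_same s2 (by simp))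
  have s13 : Same [o .Tt, o .U1, o .U3, o .U2, o .V1] c c3 := (s12.trans s3).mono (by simp)
  obtain ⟨c4, r4, d3, s4⟩ := cycS_spec (o .U2) (o .U2) (o .V2) (by simp) (by simp) (by simp) (by simp) c3 hL hu2 hu2
    (d1.of_same s3 (by simp)) (d1.of_same s3 (by simp)) (h6.of_same s13 (by simp))
    ((hTmp1.of_same s2 (by simp)).of_same s3 (by simp)) ((hRL1.of_same s2 (by simp)).of_same s3 (by simp))
  have s14 : Same [o .Tt, o .U1, o .U3, o .U2, o .V1, o .V2] c c4 := (s13.trans s4).mono (by simp)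
  have hU3c4 : Cyc c4 (o .U3) L (mulCyc L t Q) := ((b3.of_same s2 (by simp)).of_same s3 (by simp)).of_same s4 (by simp)
  obtain ⟨c5, r5, d4, s5⟩ := cycS_spec (o .U3) (o .U3) (o .V3) (by simp) (by simp) (by simp) (by simp) c4 hL hu3 hu3
    hU3c4 hU3c4 (h7.of_same s14 (by simp))
    (hTmp.of_same s14 (by simp)) (hRL.of_same s14 (by simp))
  have s15 : Same [o .Tt, o .U1, o .U3, o .U2, o .V1, o .V2, o .V3] c c5 := (s14.trans s5).mono (by simp)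
  obtain ⟨c6, r6, e1, s6⟩ := mkCrun_spec (o .Tmp) (o .RL) (o .TE) (by simp) (by simp) c5 (Nat.zero_le L)
    (hTmp.of_same s15 (by simp)) (hRL.of_same s15 (by simp)) (h8.of_same s15 (by simp))
  have s16 : Same [o .Tt, o .U1, o .U3, o .U2, o .V1, o .V2, o .V3, o .TE] c c6 := (s15.trans s6).mono (by simp)
  obtain ⟨c7, r7, e2, s7⟩ := mkCrun_spec (o .Tmp) (o .RL) (o .TD) (by simp) (by simp) c6 (Nat.zero_le L)
    (hTmp.of_same s16 (by simp)) (hRL.of_same s16 (by simp)) (h9.of_same s16 (by simp))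
  have s27 : Same [o .V1, o .V2, o .V3, o .TE, o .TD] c3 c7 := (s4.trans (s5.trans (s6.trans s7))).mono (by simp)
  have s37 : Same [o .V2, o .V3, o .TE, o .TD] c3 c7 := (s4.trans (s5.trans (s6.trans s7))).mono (by simp)
  have s47 : Same [o .V3, o .TE, o .TD] c4 c7 := (s5.trans (s6.trans s7)).mono (by simp)
  have s57 : Same [o .TE, o .TD] c5 c7 := (s6.trans s7).mono (by simp)
  have s17 : Same [o .V1, o .U2, o .V2, o .V3, o .TE, o .TD] c1 c7 :=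
    (s2.trans (s3.trans s27)).mono (by simp)
  refine ⟨c7, ?_, ⟨b1.of_same s17 (by simp), b2.of_same s17 (by simp), ?_, b3.of_same s17 (by simp),
    d2.of_same s37 (by simp), d3.of_same s47 (by simp), d4.of_same s57 (by simp), e1.of_same s7 (by simp), e2⟩, ?_⟩
  · unfold crunSetup
    refine (r1.seq (r2.seq (r3.seq (r4.seq (r5.seq (r6.seq r7)))))).mono ?_
    omega
  · exact (d1.of_same s3 (by simp)).of_same s37 (by simp)
  · unfold CycT
    exact (s1.trans (s2.trans (s3.trans s27))).mono (by simp)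

end

end Vale.Agent.Lib.P338
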