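import Vale.Agent.Lib.P338.CycSetup

/-!
The data tape and the effect of a pass on it.
-/

namespace Vale.Agent.Lib.P338

section
variable {G : Type}

/-- The data tape: the bits of `f` on cells `0, …, n - 1`, blank elsewhere. -/
def dataT (n : ℕ) (f : ℕ → Bool) : ℤ → Sym G := fun i =>
  if 0 ≤ i ∧ i < n then Sym.ofBit (f i.toNat) else .blank

theorem dataT_in {n : ℕ} {f : ℕ → Bool} {i : ℕ} (h : i < n) : (dataT n f (i : ℤ) : Sym G) = Sym.ofBit (f i) := by
  unfold dataT
  rw [if_pos ⟨by positivity, by exact_mod_cast h⟩]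
  simp

theorem dataT_out {n : ℕ} {f : ℕ → Bool} {i : ℤ} (h : i < 0 ∨ (n : ℤ) ≤ i) : (dataT n f i : Sym G) = .blank := by
  unfold dataT
  rw [if_neg (by omega)]

/-- The source of cell `x` in a pass with segments of `p` rows, `q` columns, entries of `e` bits. -/
def srcIdx (p q e x : ℕ) : ℕ :=
  x / (q * p * e) * (q * p * e) + ((x % (q * p * e)) / e % p * q + (x % (q * p * e)) / e / p) * e + (x % (q * p * e)) % e

/-- The bits after `i` segments. -/
def fnI (p q e : ℕ) (f : ℕ → Bool) (i x : ℕ) : Bool :=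
  if x < i * (q * p * e) then f (srcIdx p q e x) else f x

theorem srcIdx_seg {p q e i k m w : ℕ} (hp : 0 < p) (hq : 0 < q) (he : 0 < e) (hm : m < q * p) (hw : w < e) :
    srcIdx p q e (i * (q * p * e) + (m * e + w)) = i * (q * p * e) + (m % p * q + m / p) * e + w ∧
      (m % p * q + m / p) * e + w < q * p * e := by
  have hS : 0 < q * p * e := by positivity
  have hk : m * e + w < q * p * e := by
    have : (m + 1) * e ≤ (q * p) * e := Nat.mul_le_mul_right _ hm
    rw [add_mul, one_mul] at this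
    omega
  have h1 : (i * (q * p * e) + (m * e + w)) / (q * p * e) = i := by
    rw [add_comm, Nat.add_mul_div_right _ _ hS, Nat.div_eq_of_lt hk, zero_add]
  have h2 : (i * (q * p * e) + (m * e + w)) % (q * p * e) = m * e + w := by
    rw [add_comm, Nat.add_mul_mod_self_right, Nat.mod_eq_of_lt hk]
  have h3 : (m * e + w) / e = m := by
    rw [add_comm, Nat.add_mul_div_right _ _ he, Nat.div_eq_of_lt hw, zero_add]
  have h4 : (m * e + w) % e = w := by
    rw [add_comm, Nat.add_mul_mod_self_right, Nat.mod_eq_of_lt hw]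
  constructor
  · unfold srcIdx
    rw [h1, h2, h3, h4]
  · have h5 : m % p < p := Nat.mod_lt _ hp
    have h6 : m / p < q := by
      apply Nat.div_lt_of_lt_mul
      rwa [mul_comm]
    have h7 : m % p * q + m / p < q * p := by
      have : (m % p + 1) * q ≤ p * q := Nat.mul_le_mul_right _ h5
      rw [add_mul, one_mul] at this
      rw [mul_comm q p]
      omega
    have : (m % p * q + m / p + 1) * e ≤ (q * p) * e := Nat.mul_le_mul_right _ h7
    rw [add_mul, one_mul] at this
    omega

theorem dataT_step {n p q e i : ℕ} {f : ℕ → Bool} (hp : 0 < p) (hq : 0 < q) (he : 0 < e)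
    (hi : (i + 1) * (q * p * e) ≤ n) {D : ℤ → Sym G}
    (hD : DOut D (dataT n (fnI p q e f i)) ((i * (q * p * e) : ℕ) : ℤ) p q e (q * p)) :
    D = dataT n (fnI p q e f (i + 1)) := by
  obtain ⟨h1, h2⟩ := hD
  have hS : 0 < q * p * e := by positivity
  rw [add_mul, one_mul] at hi
  funext x
  by_cases hseg : ((i * (q * p * e) : ℕ) : ℤ) ≤ x ∧ x < ((i * (q * p * e) : ℕ) : ℤ) + ((q * p * e : ℕ) : ℤ)
  · -- inside the segment
    obtain ⟨hs1, hs2⟩ := hseg
    obtain ⟨y, rfl⟩ : ∃ y : ℕ, x = (y : ℤ) := ⟨x.toNat, by omega⟩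
    have hy1 : i * (q * p * e) ≤ y := by exact_mod_cast hs1
    have hy2 : y < i * (q * p * e) + q * p * e := by exact_mod_cast hs2
    obtain ⟨k, rfl⟩ : ∃ k, y = i * (q * p * e) + k := ⟨y - i * (q * p * e), by omega⟩
    have hk : k < q * p * e := by omega
    have hdm := Nat.div_add_mod k e
    set m := k / e with hm
    set w := k % e with hw
    have hwe : w < e := Nat.mod_lt _ he
    have hme : m < q * p := by
      apply Nat.div_lt_of_lt_mul
      rwa [mul_comm]
    have hkk : k = m * e + w := by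
      rw [mul_comm]
      exact hdm.symm
    obtain ⟨s1, s2⟩ := srcIdx_seg (i := i) (k := k) hp hq he hme hwe
    have hc := h1 m hme w hwe
    have e1 : ((i * (q * p * e) : ℕ) : ℤ) + ((m * e : ℕ) : ℤ) + (w : ℤ) = ((i * (q * p * e) + k : ℕ) : ℤ) := by
      rw [hkk]
      push_cast
      ring
    rw [e1] at hc
    rw [hc]
    have e2 : ((i * (q * p * e) : ℕ) : ℤ) + (((m % p * q + m / p) * e : ℕ) : ℤ) + (w : ℤ) =
        ((i * (q * p * e) + ((m % p * q + m / p) * e + w) : ℕ) : ℤ) := by
      push_cast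
      ring
    rw [e2, dataT_in (by omega), Sym.isOne_ofBit, dataT_in (by omega)]
    unfold fnI
    rw [if_neg (by omega), if_pos (by rw [add_mul, one_mul]; omega)]
    congr 2
    rw [hkk, s1]
    ring
  · rw [h2 x hseg]
    by_cases hx : 0 ≤ x ∧ x < n
    · obtain ⟨y, rfl⟩ : ∃ y : ℕ, x = (y : ℤ) := ⟨x.toNat, by omega⟩
      have hyn : y < n := by exact_mod_cast hx.2
      rw [dataT_in hyn, dataT_in hyn]
      congr 1
      unfold fnI
      have hnot : ¬ (i * (q * p * e) ≤ y ∧ y < i * (q * p * e) + q * p * e) := by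
        intro hh
        apply hseg
        constructor
        · exact_mod_cast hh.1
        · exact_mod_cast hh.2
      by_cases hc : y < i * (q * p * e)
      · rw [if_pos hc, if_pos (by rw [add_mul, one_mul]; omega)]
      · rw [if_neg hc, if_neg (by rw [add_mul, one_mul]; omega)]
    · rw [dataT_out (by omega), dataT_out (by omega)]

theorem fnI_all {n p q e m : ℕ} {f : ℕ → Bool} (hn : n = m * (q * p * e)) :
    (dataT n (fnI p q e f m) : ℤ → Sym G) = dataT n (fun x => f (srcIdx p q e x)) := by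
  funext x
  by_cases hx : 0 ≤ x ∧ x < n
  · obtain ⟨y, rfl⟩ : ∃ y : ℕ, x = (y : ℤ) := ⟨x.toNat, by omega⟩
    have hyn : y < n := by exact_mod_cast hx.2
    rw [dataT_in hyn, dataT_in hyn]
    unfold fnI
    rw [if_pos (by omega)]
  · rw [dataT_out (by omega), dataT_out (by omega)]

theorem fnI_zero {p q e : ℕ} {f : ℕ → Bool} : fnI p q e f 0 = f := by
  funext x
  simp [fnI]

end

end Vale.Agent.Lib.P338
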