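import Mathlib

/-!
Deterministic multitape Turing machines (two-way infinite tapes, one fixed finite alphabet, one fixed
finite set of tapes, one fixed finite set of control states), with the input conventions of the problem:
the input is written from cell 0 of the first tape `inp`, all heads start on cell 0, all other cells blank.
-/

namespace Vale.Agent.Lib.P338

open Classical

/-- Head movement: left, stay, right. -/
inductive Dir
  | L | S | R

/-- The displacement of a head movement. -/
def Dir.toInt : Dir → ℤ
  | .L => -1
  | .S => 0
  | .R => 1

/-- A deterministic multitape Turing machine: finite sets of tapes `T`, symbols `Γ`, states `Q`;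
`inp` is the input tape, `out` the designated output tape; `blank`, `b0`, `b1`, `sep` are the blank,
the bits and the separator of the input alphabet; `δ q s` is the transition for state `q` when the
heads read `s`: it gives the next state, the symbols written on all tapes and the head moves.
The value `none` means that the machine halts. -/
structure MTM where
  T : Type
  Γ : Type
  Q : Type
  fT : Fintype T
  fΓ : Fintype Γ
  fQ : Fintype Q
  inp : T
  out : T
  blank : Γ
  b0 : Γ
  b1 : Γ
  sep : Γ
  blank_ne_b0 : blank ≠ b0
  blank_ne_b1 : blank ≠ b1
  blank_ne_sep : blank ≠ sep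
  b0_ne_b1 : b0 ≠ b1
  b0_ne_sep : b0 ≠ sep
  b1_ne_sep : b1 ≠ sep
  q0 : Q
  δ : Q → (T → Γ) → Option (Q × (T → Γ) × (T → Dir))

namespace MTM

variable (M : MTM)

/-- A configuration: control state, contents of all tapes and head positions. -/
structure Cfg where
  q : M.Q
  tape : M.T → ℤ → M.Γ
  head : M.T → ℤ

variable {M}

/-- The symbols under the heads. -/
def Cfg.read (c : M.Cfg) : M.T → M.Γ := fun t => c.tape t (c.head t)

/-- One step of the machine; `none` if the machine has halted. -/
def step (c : M.Cfg) : Option M.Cfg :=
  match M.δ c.q c.read with
  | none => none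
  | some (q', w, d) =>
      some ⟨q', fun t i => if i = c.head t then w t else c.tape t i,
        fun t => c.head t + (d t).toInt⟩

/-- `run c n` is the configuration after exactly `n` steps from `c` (`none` if the machine halts earlier). -/
def run (c : M.Cfg) : ℕ → Option M.Cfg
  | 0 => some c
  | n + 1 => (step c).bind fun c1 => run c1 n

variable (M)

/-- The initial configuration on the input word `w`. -/
noncomputable def init (w : List M.Γ) : M.Cfg :=
  ⟨M.q0, fun t i => if t = M.inp ∧ 0 ≤ i then w.getD i.toNat M.blank else M.blank, fun _ => 0⟩

/-- The symbol of a bit. -/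
def bitSym (b : Bool) : M.Γ := if b then M.b1 else M.b0

/-- `M` halts on input `w` within `τ` steps, and the final configuration satisfies `post`. -/
def HaltsWithin (w : List M.Γ) (τ : ℕ) (post : M.Cfg → Prop) : Prop :=
  ∃ t ≤ τ, ∃ c, run (M.init w) t = some c ∧ step c = none ∧ post c

end MTM

/-- The value of a bit string, leftmost bit most significant. -/
def val (x : List Bool) : ℕ := x.foldl (fun acc b => 2 * acc + b.toNat) 0

/-- `A` multiplies within time `τ`: on input `x#y` with `x`, `y` bit strings of length `n ≥ 1` it halts
within `τ n` steps with the `2n` bits of `val x * val y` (most significant first) on cells `0, …, 2n-1`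
of its output tape. -/
def Multiplies (A : MTM) (τ : ℕ → ℕ) : Prop :=
  ∀ n, 1 ≤ n → ∀ x y : List Bool, x.length = n → y.length = n →
    A.HaltsWithin (x.map A.bitSym ++ [A.sep] ++ y.map A.bitSym) (τ n) fun c =>
      ∀ i : ℕ, i < 2 * n →
        c.tape A.out i = A.bitSym (Nat.testBit (val x * val y) (2 * n - 1 - i))

/-- `B` transposes binary matrices of side `2 ^ a` within time `σ a`: the input is the matrix `f`
written row by row with no separators (entry `(r, c)` at cell `r * 2 ^ a + c`), and `B` halts within
`σ a` steps with exactly the transposed matrix, written row by row, on its output tape (all other cells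
of that tape being blank). -/
def Transposes (B : MTM) (σ : ℕ → ℕ) : Prop :=
  ∀ (a : ℕ) (f : ℕ → ℕ → Bool),
    B.HaltsWithin
      ((List.range (4 ^ a)).map fun i => B.bitSym (f (i / 2 ^ a) (i % 2 ^ a))) (σ a) fun c =>
      (∀ r k : ℕ, r < 2 ^ a → k < 2 ^ a →
        c.tape B.out ((k * 2 ^ a + r : ℕ) : ℤ) = B.bitSym (f r k)) ∧
      (∀ i : ℤ, (i < 0 ∨ (4 ^ a : ℤ) ≤ i) → c.tape B.out i = B.blank)

end Vale.Agent.Lib.P338
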