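import Vale.Agent.Lib.P338.PassSpec

/-!
Splitting the unary number `a` into the digit lengths of a recursion level.
-/

namespace Vale.Agent.Lib.P338

open Prog

section
variable {X G : Type} [DecidableEq X]

/-- Append a one to a unary number, with the head at its end. -/
def tk (Y : Own ⊕ X) : Prog (Own ⊕ X) (Sym G) := act1 Y (fun _ => .one) .R

theorem tk_spec (Y : Own ⊕ X) (c : TS (Own ⊕ X) (Sym G)) {b : ℕ} (ht : c.tape Y = runT b) (hh : c.head Y = b) :
    ∃ c', Run (tk Y) c c' 1 ∧ c'.tape Y = runT (b + 1) ∧ c'.head Y = ((b + 1 : ℕ) : ℤ) ∧ Same [Y] c c' := by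
  obtain ⟨c', r, a1, a2, a3⟩ := act1_spec Y (fun _ => (.one : Sym G)) .R c
  refine ⟨c', r, ?_, ?_, a3⟩
  · funext x
    rw [a2, ht, hh]
    unfold runT
    by_cases hx : x = b
    · rw [if_pos hx, if_pos (by push_cast; omega)]
    · rw [if_neg hx]
      by_cases h0 : 0 ≤ x ∧ x < b
      · rw [if_pos h0, if_pos (by push_cast; omega)]
      · rw [if_neg h0, if_neg (by push_cast; omega)]
  · rw [a1, hh]
    simp [Dir.toInt]

/-- One slot of the round robin. -/
def slot (Y : Own ⊕ X) : Prog (Own ⊕ X) (Sym G) :=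
  .ite (fun s => (s (o .Ta)).isOne) (.seq (tk Y) (mv (o .Ta) .R)) skip

/-- One round of the round robin. -/
def digRound : Prog (Own ⊕ X) (Sym G) :=
  .seq (tk (o .K0)) (.seq (slot (o .A1)) (.seq (slot (o .A2)) (.seq (slot (o .A3))
    (.seq (slot (o .A1)) (.seq (slot (o .A2)) (slot (o .A3)))))))

/-- The digit lengths of `a`. -/
def digits : Prog (Own ⊕ X) (Sym G) :=
  .seq (tk (o .K0)) (.seq (.loop (fun s => (s (o .Ta)).isOne) digRound)
    (.seq (rew (o .Ta)) (.seq (rew (o .A1)) (.seq (rew (o .A2)) (.seq (rew (o .A3)) (rew (o .K0)))))))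

/-- The state of the round robin after `s` slots and `j` rounds. -/
structure DgS (c : TS (Own ⊕ X) (Sym G)) (a s j : ℕ) : Prop where
  hs : s ≤ a
  tT : c.tape (o .Ta) = runT a
  hT : c.head (o .Ta) = s
  t1 : c.tape (o .A1) = runT ((s + 2) / 3)
  h1 : c.head (o .A1) = ((s + 2) / 3 : ℕ)
  t2 : c.tape (o .A2) = runT ((s + 1) / 3)
  h2 : c.head (o .A2) = ((s + 1) / 3 : ℕ)
  t3 : c.tape (o .A3) = runT (s / 3)
  h3 : c.head (o .A3) = (s / 3 : ℕ)
  tK : c.tape (o .K0) = runT j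
  hK : c.head (o .K0) = (j : ℤ)

/-- The tapes used by the digit computation. -/
def DigT : List (Own ⊕ X) := [o .Ta, o .A1, o .A2, o .A3, o .K0]

theorem slot_skip (Y : Own ⊕ X) (c : TS (Own ⊕ X) (Sym G)) {a j : ℕ} (h : DgS c a a j) :
    Run (slot Y) c c 4 := by
  have hg : (fun s : (Own ⊕ X) → Sym G => (s (o .Ta)).isOne) c.read = false := by
    simp only [TS.read]
    rw [h.tT, h.hT, runT_out (by omega)]
    rfl
  exact (Run.iteF hg (skip_spec c)).mono (by omega)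

theorem slot1 (c : TS (Own ⊕ X) (Sym G)) {a s j : ℕ} (h : DgS c a s j) (hs : s < a) (h3 : s % 3 = 0) :
    ∃ c', Run (slot (o .A1)) c c' 4 ∧ DgS c' a (s + 1) j ∧ Same DigT c c' := by
  have hg : (fun s : (Own ⊕ X) → Sym G => (s (o .Ta)).isOne) c.read = true := by
    simp only [TS.read]
    rw [h.tT, h.hT, cast_runT_in hs]
    rfl
  obtain ⟨c1, r1, a1, a2, a3⟩ := tk_spec (o .A1) c h.t1 h.h1
  obtain ⟨c2, r2, b1, b2, b3⟩ := mv_spec (o .Ta) .R c1
  have n1 : ∀ a : Own, a ≠ .A1 → (o a : Own ⊕ X) ∉ [(o .A1 : Own ⊕ X)] := fun a ha => by simp [o, ha]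
  have n2 : ∀ a : Own, a ≠ .Ta → (o a : Own ⊕ X) ∉ [(o .Ta : Own ⊕ X)] := fun a ha => by simp [o, ha]
  refine ⟨c2, (Run.iteT hg (r1.seq r2)).mono (by omega), ⟨by omega, ?_, ?_, ?_, ?_, ?_, ?_, ?_, ?_, ?_, ?_⟩,
    (a3.trans b3).mono (by simp [DigT])⟩
  · rw [b2, a3.tape (n1 _ (by decide))]
    exact h.tT
  · rw [b1, a3.head (n1 _ (by decide)), h.hT]
    simp [Dir.toInt]
  · rw [b3.tape (n2 _ (by decide)), a1]
    congr 1
    omega
  · rw [b3.head (n2 _ (by decide)), a2]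
    congr 1
    omega
  · rw [b3.tape (n2 _ (by decide)), a3.tape (n1 _ (by decide)), h.t2]
    congr 1
    omega
  · rw [b3.head (n2 _ (by decide)), a3.head (n1 _ (by decide)), h.h2]
    congr 1
    omega
  · rw [b3.tape (n2 _ (by decide)), a3.tape (n1 _ (by decide)), h.t3]
    congr 1
    omega
  · rw [b3.head (n2 _ (by decide)), a3.head (n1 _ (by decide)), h.h3]
    congr 1
    omega
  · rw [b3.tape (n2 _ (by decide)), a3.tape (n1 _ (by decide))]
    exact h.tK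
  · rw [b3.head (n2 _ (by decide)), a3.head (n1 _ (by decide))]
    exact h.hK

theorem slot2 (c : TS (Own ⊕ X) (Sym G)) {a s j : ℕ} (h : DgS c a s j) (hs : s < a) (h3 : s % 3 = 1) :
    ∃ c', Run (slot (o .A2)) c c' 4 ∧ DgS c' a (s + 1) j ∧ Same DigT c c' := by
  have hg : (fun s : (Own ⊕ X) → Sym G => (s (o .Ta)).isOne) c.read = true := by
    simp only [TS.read]
    rw [h.tT, h.hT, cast_runT_in hs]
    rfl
  obtain ⟨c1, r1, a1, a2, a3⟩ := tk_spec (o .A2) c h.t2 h.h2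
  obtain ⟨c2, r2, b1, b2, b3⟩ := mv_spec (o .Ta) .R c1
  have n1 : ∀ a : Own, a ≠ .A2 → (o a : Own ⊕ X) ∉ [(o .A2 : Own ⊕ X)] := fun a ha => by simp [o, ha]
  have n2 : ∀ a : Own, a ≠ .Ta → (o a : Own ⊕ X) ∉ [(o .Ta : Own ⊕ X)] := fun a ha => by simp [o, ha]
  refine ⟨c2, (Run.iteT hg (r1.seq r2)).mono (by omega), ⟨by omega, ?_, ?_, ?_, ?_, ?_, ?_, ?_, ?_, ?_, ?_⟩,
    (a3.trans b3).mono (by simp [DigT])⟩
  · rw [b2, a3.tape (n1 _ (by decide))]
    exact h.tT
  · rw [b1, a3.head (n1 _ (by decide)), h.hT]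
    simp [Dir.toInt]
  · rw [b3.tape (n2 _ (by decide)), a3.tape (n1 _ (by decide)), h.t1]
    congr 1
    omega
  · rw [b3.head (n2 _ (by decide)), a3.head (n1 _ (by decide)), h.h1]
    congr 1
    omega
  · rw [b3.tape (n2 _ (by decide)), a1]
    congr 1
    omega
  · rw [b3.head (n2 _ (by decide)), a2]
    congr 1
    omega
  · rw [b3.tape (n2 _ (by decide)), a3.tape (n1 _ (by decide)), h.t3]
    congr 1
    omega
  · rw [b3.head (n2 _ (by decide)), a3.head (n1 _ (by decide)), h.h3]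
    congr 1
    omega
  · rw [b3.tape (n2 _ (by decide)), a3.tape (n1 _ (by decide))]
    exact h.tK
  · rw [b3.head (n2 _ (by decide)), a3.head (n1 _ (by decide))]
    exact h.hK

theorem slot3 (c : TS (Own ⊕ X) (Sym G)) {a s j : ℕ} (h : DgS c a s j) (hs : s < a) (h3 : s % 3 = 2) :
    ∃ c', Run (slot (o .A3)) c c' 4 ∧ DgS c' a (s + 1) j ∧ Same DigT c c' := by
  have hg : (fun s : (Own ⊕ X) → Sym G => (s (o .Ta)).isOne) c.read = true := by
    simp only [TS.read]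
    rw [h.tT, h.hT, cast_runT_in hs]
    rfl
  obtain ⟨c1, r1, a1, a2, a3⟩ := tk_spec (o .A3) c h.t3 h.h3
  obtain ⟨c2, r2, b1, b2, b3⟩ := mv_spec (o .Ta) .R c1
  have n1 : ∀ a : Own, a ≠ .A3 → (o a : Own ⊕ X) ∉ [(o .A3 : Own ⊕ X)] := fun a ha => by simp [o, ha]
  have n2 : ∀ a : Own, a ≠ .Ta → (o a : Own ⊕ X) ∉ [(o .Ta : Own ⊕ X)] := fun a ha => by simp [o, ha]
  refine ⟨c2, (Run.iteT hg (r1.seq r2)).mono (by omega), ⟨by omega, ?_, ?_, ?_, ?_, ?_, ?_, ?_, ?_, ?_, ?_⟩,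
    (a3.trans b3).mono (by simp [DigT])⟩
  · rw [b2, a3.tape (n1 _ (by decide))]
    exact h.tT
  · rw [b1, a3.head (n1 _ (by decide)), h.hT]
    simp [Dir.toInt]
  · rw [b3.tape (n2 _ (by decide)), a3.tape (n1 _ (by decide)), h.t1]
    congr 1
    omega
  · rw [b3.head (n2 _ (by decide)), a3.head (n1 _ (by decide)), h.h1]
    congr 1
    omega
  · rw [b3.tape (n2 _ (by decide)), a3.tape (n1 _ (by decide)), h.t2]
    congr 1
    omega
  · rw [b3.head (n2 _ (by decide)), a3.head (n1 _ (by decide)), h.h2]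
    congr 1
    omega
  · rw [b3.tape (n2 _ (by decide)), a1]
    congr 1
    omega
  · rw [b3.head (n2 _ (by decide)), a2]
    congr 1
    omega
  · rw [b3.tape (n2 _ (by decide)), a3.tape (n1 _ (by decide))]
    exact h.tK
  · rw [b3.head (n2 _ (by decide)), a3.head (n1 _ (by decide))]
    exact h.hK

/-- The slot at a possibly finished state. -/
theorem slot_any (Y : Own ⊕ X) (c : TS (Own ⊕ X) (Sym G)) {a s j : ℕ} (h : DgS c a s j)
    (hY : s < a → ∃ c', Run (slot Y) c c' 4 ∧ DgS c' a (s + 1) j ∧ Same DigT c c') :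
    ∃ c', Run (slot Y) c c' 4 ∧ DgS c' a (min a (s + 1)) j ∧ Same DigT c c' := by
  by_cases hs : s < a
  · obtain ⟨c', r, d, t⟩ := hY hs
    refine ⟨c', r, ?_, t⟩
    rwa [min_eq_right (by omega)]
  · have : s = a := by have := h.hs; omega
    subst this
    refine ⟨c, slot_skip Y c h, ?_, Same.refl _ _⟩
    rwa [min_eq_left (by omega)]

theorem DgS.tick {c c' : TS (Own ⊕ X) (Sym G)} {a s j : ℕ} (h : DgS c a s j) (h1 : c'.tape (o .K0) = runT (j + 1))
    (h2 : c'.head (o .K0) = ((j + 1 : ℕ) : ℤ)) (hs : Same [o .K0] c c') : DgS c' a s (j + 1) := by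
  have n : ∀ a : Own, a ≠ .K0 → (o a : Own ⊕ X) ∉ [(o .K0 : Own ⊕ X)] := fun a ha => by simp [o, ha]
  exact ⟨h.hs, by rw [hs.tape (n _ (by decide))]; exact h.tT, by rw [hs.head (n _ (by decide))]; exact h.hT,
    by rw [hs.tape (n _ (by decide))]; exact h.t1, by rw [hs.head (n _ (by decide))]; exact h.h1,
    by rw [hs.tape (n _ (by decide))]; exact h.t2, by rw [hs.head (n _ (by decide))]; exact h.h2,
    by rw [hs.tape (n _ (by decide))]; exact h.t3, by rw [hs.head (n _ (by decide))]; exact h.h3,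
    h1, h2⟩

theorem digRound_spec (c : TS (Own ⊕ X) (Sym G)) {a j : ℕ} (h : DgS c a (min a (6 * j)) (j + 1)) :
    ∃ c', Run digRound c c' 25 ∧ DgS c' a (min a (6 * (j + 1))) (j + 2) ∧ Same DigT c c' := by
  obtain ⟨c0, r0, a1, a2, a3⟩ := tk_spec (o .K0) c h.tK h.hK
  have h0 : DgS c0 a (min a (6 * j)) (j + 2) := h.tick a1 a2 a3
  obtain ⟨c1, r1, h1, s1⟩ := slot_any (o .A1) c0 h0 (fun hs => slot1 c0 h0 hs (by omega))
  have e1 : min a (min a (6 * j) + 1) = min a (6 * j + 1) := by omega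
  rw [e1] at h1
  obtain ⟨c2, r2, h2, s2⟩ := slot_any (o .A2) c1 h1 (fun hs => slot2 c1 h1 hs (by omega))
  have e2 : min a (min a (6 * j + 1) + 1) = min a (6 * j + 2) := by omega
  rw [e2] at h2
  obtain ⟨c3, r3, h3, s3⟩ := slot_any (o .A3) c2 h2 (fun hs => slot3 c2 h2 hs (by omega))
  have e3 : min a (min a (6 * j + 2) + 1) = min a (6 * j + 3) := by omega
  rw [e3] at h3
  obtain ⟨c4, r4, h4, s4⟩ := slot_any (o .A1) c3 h3 (fun hs => slot1 c3 h3 hs (by omega))
  have e4 : min a (min a (6 * j + 3) + 1) = min a (6 * j + 4) := by omega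
  rw [e4] at h4
  obtain ⟨c5, r5, h5, s5⟩ := slot_any (o .A2) c4 h4 (fun hs => slot2 c4 h4 hs (by omega))
  have e5 : min a (min a (6 * j + 4) + 1) = min a (6 * j + 5) := by omega
  rw [e5] at h5
  obtain ⟨c6, r6, h6, s6⟩ := slot_any (o .A3) c5 h5 (fun hs => slot3 c5 h5 hs (by omega))
  have e6 : min a (min a (6 * j + 5) + 1) = min a (6 * (j + 1)) := by omega
  rw [e6] at h6
  refine ⟨c6, (r0.seq (r1.seq (r2.seq (r3.seq (r4.seq (r5.seq r6)))))).mono (by omega), h6, ?_⟩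
  refine (a3.trans (s1.trans (s2.trans (s3.trans (s4.trans (s5.trans s6)))))).mono ?_
  intro u hu
  simp only [List.mem_append, List.mem_singleton] at hu
  rcases hu with hu | hu | hu | hu | hu | hu | hu
  · subst hu
    simp [DigT]
  all_goals exact hu

/-- The cost bound of the digit computation. -/
def digCost (a : ℕ) : ℕ := 40 * a + 200

theorem digits_spec (c : TS (Own ⊕ X) (Sym G)) {a : ℕ} (hT : Ruler c (o .Ta) a) (h1 : Ruler c (o .A1) 0)
    (h2 : Ruler c (o .A2) 0) (h3 : Ruler c (o .A3) 0) (h4 : Ruler c (o .K0) 0) :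
    ∃ c', Run digits c c' (digCost a) ∧ Ruler c' (o .Ta) a ∧ Ruler c' (o .A1) ((a + 2) / 3) ∧
      Ruler c' (o .A2) ((a + 1) / 3) ∧ Ruler c' (o .A3) (a / 3) ∧ Ruler c' (o .K0) (1 + (a + 5) / 6) ∧
      Same DigT c c' := by
  have n : ∀ a : Own, a ≠ .K0 → (o a : Own ⊕ X) ∉ [(o .K0 : Own ⊕ X)] := fun a ha => by simp [o, ha]
  obtain ⟨c0, r0, a1, a2, a3⟩ := tk_spec (o .K0) c h4.1 (by rw [h4.2]; simp)
  have d0 : DgS c0 a (min a (6 * 0)) (0 + 1) := by
    have e : min a (6 * 0) = 0 := by omega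
    rw [e]
    refine ⟨by omega, ?_, ?_, ?_, ?_, ?_, ?_, ?_, ?_, a1, a2⟩
    · rw [a3.tape (n _ (by decide))]; exact hT.1
    · rw [a3.head (n _ (by decide))]; exact hT.2
    · rw [a3.tape (n _ (by decide))]; exact h1.1
    · rw [a3.head (n _ (by decide))]; exact h1.2
    · rw [a3.tape (n _ (by decide))]; exact h2.1
    · rw [a3.head (n _ (by decide))]; exact h2.2
    · rw [a3.tape (n _ (by decide))]; exact h3.1
    · rw [a3.head (n _ (by decide))]; exact h3.2
  obtain ⟨c1, ⟨d1, s1⟩, r1⟩ := Run.loop (g := fun s => (s (o .Ta)).isOne) (b := digRound)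
    (fun i c' => DgS c' a (min a (6 * i)) (i + 1) ∧ Same DigT c0 c') ((a + 5) / 6) (fun _ => 25)
    (c := c0) ⟨d0, Same.refl _ _⟩
    (by
      rintro i hi c' ⟨g1, g2⟩
      constructor
      · simp only [TS.read]
        rw [g1.tT, g1.hT, cast_runT_in (by omega)]
        rfl
      · obtain ⟨c'', r, g3, g4⟩ := digRound_spec c' g1
        exact ⟨c'', r, g3, (g2.trans g4).mono (by simp)⟩)
    (by
      rintro c' ⟨g1, _⟩
      simp only [TS.read]
      rw [g1.tT, g1.hT]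
      have e : min a (6 * ((a + 5) / 6)) = a := by omega
      rw [e, runT_out (by omega)]
      rfl)
  have e : min a (6 * ((a + 5) / 6)) = a := by omega
  rw [e] at d1
  have hsum : ∑ i ∈ Finset.range ((a + 5) / 6), (25 + 1) = ((a + 5) / 6) * 26 := by simp
  rw [hsum] at r1
  have nA : ∀ a b : Own, a ≠ b → (o a : Own ⊕ X) ∉ [(o b : Own ⊕ X)] := fun a b ha => by simp [o, ha]
  obtain ⟨c2, r2, b1, s2⟩ := rew_ruler (o .Ta) c1 d1.tT d1.hT (le_refl a)
  obtain ⟨c3, r3, b2, s3⟩ := rew_ruler (o .A1) c2 (by rw [s2.tape (nA _ _ (by decide))]; exact d1.t1)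
    (by rw [s2.head (nA _ _ (by decide))]; exact d1.h1) (le_refl _)
  have s23 : Same [o .Ta, o .A1] c1 c3 := (s2.trans s3).mono (by simp)
  have nB : ∀ a : Own, a ≠ .Ta → a ≠ .A1 → (o a : Own ⊕ X) ∉ [(o .Ta : Own ⊕ X), o .A1] := fun a h1 h2 => by simp [o, h1, h2]
  obtain ⟨c4, r4, b3, s4⟩ := rew_ruler (o .A2) c3 (by rw [s23.tape (nB _ (by decide) (by decide))]; exact d1.t2)
    (by rw [s23.head (nB _ (by decide) (by decide))]; exact d1.h2) (le_refl _)
  have s24 : Same [o .Ta, o .A1, o .A2] c1 c4 := (s23.trans s4).mono (by simp)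
  have nC' : ∀ a : Own, a ≠ .Ta → a ≠ .A1 → a ≠ .A2 → (o a : Own ⊕ X) ∉ [(o .Ta : Own ⊕ X), o .A1, o .A2] :=
    fun a h1 h2 h3 => by simp [o, h1, h2, h3]
  obtain ⟨c5, r5, b4, s5⟩ := rew_ruler (o .A3) c4 (by rw [s24.tape (nC' _ (by decide) (by decide) (by decide))]; exact d1.t3)
    (by rw [s24.head (nC' _ (by decide) (by decide) (by decide))]; exact d1.h3) (le_refl _)
  have s25 : Same [o .Ta, o .A1, o .A2, o .A3] c1 c5 := (s24.trans s5).mono (by simp)
  have nD' : ∀ a : Own, a ≠ .Ta → a ≠ .A1 → a ≠ .A2 → a ≠ .A3 → (o a : Own ⊕ X) ∉ [(o .Ta : Own ⊕ X), o .A1, o .A2, o .A3] :=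
    fun a h1 h2 h3 h4 => by simp [o, h1, h2, h3, h4]
  obtain ⟨c6, r6, b5, s6⟩ := rew_ruler (o .K0) c5
    (by rw [s25.tape (nD' _ (by decide) (by decide) (by decide) (by decide))]; exact d1.tK)
    (by rw [s25.head (nD' _ (by decide) (by decide) (by decide) (by decide))]; exact d1.hK) (le_refl _)
  refine ⟨c6, ?_, b1.of_same (s3.trans (s4.trans (s5.trans s6))) (by simp), b2.of_same (s4.trans (s5.trans s6)) (by simp),
    b3.of_same (s5.trans s6) (by simp), b4.of_same s6 (by simp), ?_, ?_⟩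
  · refine (r0.seq (r1.seq (r2.seq (r3.seq (r4.seq (r5.seq r6)))))).mono ?_
    unfold digCost
    have := Nat.div_mul_le_self (a + 5) 6
    omega
  · have e2 : ((a + 5) / 6 + 1 : ℕ) = 1 + (a + 5) / 6 := by omega
    rw [e2] at b5
    exact b5
  · have hm : ∀ u ∈ DigT, u ∈ (DigT : List (Own ⊕ X)) := fun _ h => h
    refine (a3.trans (s1.trans (s25.trans s6))).mono ?_
    intro u hu
    rcases List.mem_append.1 hu with hu | hu
    · revert u
      simp [DigT]
    rcases List.mem_append.1 hu with hu | hu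
    · exact hu
    revert u
    simp [DigT]

end

end Vale.Agent.Lib.P338
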