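import Mathlib

/-!
The algebra of the construction: a Bluestein chain over a ring with a root of unity of order `2 N`.
-/

namespace Vale.Agent.Lib.P338

open Finset

section Root
variable {R : Type} [CommRing R]

theorem sum_two_pow_eq_zero (x : R) {κ i : ℕ} (hi : i < κ) (hx : x ^ 2 ^ i = -1) :
    ∑ k ∈ range (2 ^ κ), x ^ k = 0 := by
  induction κ with
  | zero => omega
  | succ κ ih =>
    have e : ∑ k ∈ range (2 ^ (κ + 1)), x ^ k = (∑ k ∈ range (2 ^ κ), x ^ k) * (1 + x ^ 2 ^ κ) := by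
      rw [pow_succ 2 κ, mul_two, sum_range_add, mul_add, mul_one, sum_mul]
      congr 1
      apply sum_congr rfl
      intro k _
      rw [pow_add]
      ring
    rw [e]
    by_cases h : i = κ
    · subst h
      rw [hx]
      ring
    · rw [ih (by omega)]
      ring

theorem two_adic_split : ∀ (κ : ℕ) (s : ℤ), ¬ ((2 : ℤ) ^ κ ∣ s) → ∃ v, v < κ ∧ ∃ s' : ℤ, s = 2 ^ v * (2 * s' + 1) := by
  intro κ
  induction κ with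
  | zero =>
    intro s h
    exact absurd (by simp) h
  | succ κ ih =>
    intro s h
    rcases Int.even_or_odd' s with ⟨s1, hs | hs⟩
    · subst hs
      obtain ⟨v, hv, s', hs'⟩ := ih s1 (by
        intro hd
        apply h
        rw [pow_succ, mul_comm]
        exact mul_dvd_mul_left 2 hd)
      refine ⟨v + 1, by omega, s', ?_⟩
      rw [hs', pow_succ]
      ring
    · exact ⟨0, by omega, s1, by rw [hs]; ring⟩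

theorem root_sum_zero (ψ : Rˣ) {κ : ℕ} (hψ : ψ ^ 2 ^ κ = -1) (s : ℤ) (hs : ¬ ((2 : ℤ) ^ κ ∣ s)) :
    ∑ k ∈ range (2 ^ κ), ((ψ ^ (2 * s) : Rˣ) : R) ^ k = 0 := by
  obtain ⟨v, hv, s', hs'⟩ := two_adic_split κ s hs
  apply sum_two_pow_eq_zero _ (i := κ - 1 - v) (by omega)
  have e : ((ψ ^ (2 * s) : Rˣ) : R) ^ 2 ^ (κ - 1 - v) = ((ψ ^ (2 * s) ^ 1 : Rˣ) ^ 2 ^ (κ - 1 - v) : Rˣ) := by
    simp
  rw [e]
  have e2 : (ψ ^ (2 * s) ^ 1 : Rˣ) ^ 2 ^ (κ - 1 - v) = (ψ ^ 2 ^ κ) ^ (2 * s' + 1) := by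
    rw [← zpow_natCast, ← zpow_natCast ψ, ← zpow_mul, ← zpow_mul]
    congr 1
    rw [hs', pow_one]
    have : κ = (κ - 1 - v) + v + 1 := by omega
    conv_rhs => rw [this]
    push_cast
    ring
  rw [e2, hψ]
  have : ((-1 : Rˣ) ^ (2 * s' + 1)) = -1 := by
    rw [zpow_add, zpow_mul]
    simp
  rw [this]
  simp

theorem root_sum_one (ψ : Rˣ) {κ : ℕ} (hψ : ψ ^ 2 ^ κ = -1) (s : ℤ) (hs : (2 : ℤ) ^ κ ∣ s) :
    ∑ k ∈ range (2 ^ κ), ((ψ ^ (2 * s) : Rˣ) : R) ^ k = ((2 ^ κ : ℕ) : R) := by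
  obtain ⟨w, rfl⟩ := hs
  have e : ψ ^ (2 * ((2 : ℤ) ^ κ * w)) = 1 := by
    have : 2 * ((2 : ℤ) ^ κ * w) = ((2 ^ κ : ℕ) : ℤ) * (2 * w) := by
      push_cast
      ring
    rw [this, zpow_mul, zpow_natCast, hψ, zpow_mul]
    simp
  rw [e]
  simp

theorem chirp_identity (ψ : Rˣ) {κ : ℕ} (hκ : 1 ≤ κ) (hψ : ψ ^ 2 ^ κ = -1) (Q : ℤ) (k n l : ℤ) :
    ψ ^ (n ^ 2) * ψ ^ (-(((2 ^ κ : ℕ) : ℤ) + k - n) ^ 2) * ψ ^ ((1 - Q) * k ^ 2) *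
      ψ ^ (Q * (((2 ^ κ : ℕ) : ℤ) + l - k) ^ 2) * ψ ^ (-Q * l ^ 2) = ψ ^ (2 * (n - Q * l) * k) := by
  obtain ⟨κ', rfl⟩ : ∃ κ', κ = κ' + 1 := ⟨κ - 1, by omega⟩
  have h2N : ψ ^ (((2 ^ (κ' + 1) : ℕ) : ℤ) * 2) = 1 := by
    rw [zpow_mul, zpow_natCast, hψ]
    simp
  rw [← zpow_add, ← zpow_add, ← zpow_add, ← zpow_add]
  have e : n ^ 2 + -(((2 ^ (κ' + 1) : ℕ) : ℤ) + k - n) ^ 2 + (1 - Q) * k ^ 2 +
      Q * (((2 ^ (κ' + 1) : ℕ) : ℤ) + l - k) ^ 2 + -Q * l ^ 2 =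
      2 * (n - Q * l) * k + ((2 ^ (κ' + 1) : ℕ) : ℤ) * 2 *
        (((2 ^ κ' : ℕ) : ℤ) * (Q - 1) - (k - n) + Q * (l - k)) := by
    have hh : ((2 ^ (κ' + 1) : ℕ) : ℤ) = 2 * ((2 ^ κ' : ℕ) : ℤ) := by
      push_cast
      ring
    rw [hh]
    ring
  rw [e, zpow_add, zpow_mul ψ (((2 ^ (κ' + 1) : ℕ) : ℤ) * 2), h2N]
  simp

theorem bluestein (ψ : Rˣ) {κ : ℕ} (hκ : 1 ≤ κ) (hψ : ψ ^ 2 ^ κ = -1) (F0 : ℕ → R) (Q l : ℕ) :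
    ∑ k ∈ range (2 ^ κ), (∑ n ∈ range (2 ^ κ), F0 n * ((ψ ^ (((n : ℤ)) ^ 2) : Rˣ) : R) *
        ((ψ ^ (-(((2 ^ κ : ℕ) : ℤ) + k - n) ^ 2) : Rˣ) : R)) * ((ψ ^ ((1 - (Q : ℤ)) * (k : ℤ) ^ 2) : Rˣ) : R) *
        ((ψ ^ ((Q : ℤ) * (((2 ^ κ : ℕ) : ℤ) + l - k) ^ 2) : Rˣ) : R) * ((ψ ^ (-(Q : ℤ) * (l : ℤ) ^ 2) : Rˣ) : R) =
      ((2 ^ κ : ℕ) : R) * F0 ((Q * l) % 2 ^ κ) := by
  have h1 : ∀ k ∈ range (2 ^ κ), (∑ n ∈ range (2 ^ κ), F0 n * ((ψ ^ (((n : ℤ)) ^ 2) : Rˣ) : R) *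
        ((ψ ^ (-(((2 ^ κ : ℕ) : ℤ) + k - n) ^ 2) : Rˣ) : R)) * ((ψ ^ ((1 - (Q : ℤ)) * (k : ℤ) ^ 2) : Rˣ) : R) *
        ((ψ ^ ((Q : ℤ) * (((2 ^ κ : ℕ) : ℤ) + l - k) ^ 2) : Rˣ) : R) * ((ψ ^ (-(Q : ℤ) * (l : ℤ) ^ 2) : Rˣ) : R) =
      ∑ n ∈ range (2 ^ κ), F0 n * ((ψ ^ (2 * ((n : ℤ) - Q * l)) : Rˣ) : R) ^ k := by
    intro k _
    rw [sum_mul, sum_mul, sum_mul]
    apply sum_congr rfl
    intro n _
    have := chirp_identity ψ hκ hψ (Q : ℤ) (k : ℤ) (n : ℤ) (l : ℤ)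
    have e : ((ψ ^ (2 * ((n : ℤ) - Q * l)) : Rˣ) : R) ^ k = ((ψ ^ (2 * ((n : ℤ) - Q * l) * k) : Rˣ) : R) := by
      rw [zpow_mul ψ _ (k : ℤ), zpow_natCast]
      simp
    rw [e, ← this]
    push_cast
    ring
  rw [sum_congr rfl h1, sum_comm]
  have h2 : ∀ n ∈ range (2 ^ κ), ∑ k ∈ range (2 ^ κ), F0 n * ((ψ ^ (2 * ((n : ℤ) - Q * l)) : Rˣ) : R) ^ k =
      if n = (Q * l) % 2 ^ κ then ((2 ^ κ : ℕ) : R) * F0 n else 0 := by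
    intro n hn
    rw [← mul_sum]
    have hn' : n < 2 ^ κ := mem_range.1 hn
    by_cases he : n = (Q * l) % 2 ^ κ
    · rw [if_pos he, root_sum_one ψ hψ _ ?_]
      · ring
      · have : ((n : ℤ) - Q * l) = -(((2 ^ κ : ℕ) : ℤ) * ((Q * l / 2 ^ κ : ℕ) : ℤ)) := by
          have := Nat.div_add_mod (Q * l) (2 ^ κ)
          rw [he]
          zify at this
          push_cast
          linarith
        rw [this]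
        push_cast
        exact (dvd_mul_right _ _).neg_right
    · rw [if_neg he, root_sum_zero ψ hψ _ ?_, mul_zero]
      intro hd
      apply he
      have h3 : ((n : ℤ) - ((Q * l : ℕ) : ℤ)) ≡ 0 [ZMOD ((2 ^ κ : ℕ) : ℤ)] := by
        apply Int.modEq_zero_iff_dvd.2
        push_cast
        exact hd
      have h4 : (n : ℤ) ≡ ((Q * l : ℕ) : ℤ) [ZMOD ((2 ^ κ : ℕ) : ℤ)] := by
        have := h3.add_right ((Q * l : ℕ) : ℤ)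
        simpa using this
      have h5 : n ≡ Q * l [MOD 2 ^ κ] := (Int.natCast_modEq_iff).1 h4
      have h6 : n % 2 ^ κ = (Q * l) % 2 ^ κ := h5
      rw [← h6, Nat.mod_eq_of_lt hn']
  rw [sum_congr rfl h2, sum_ite_eq' (range (2 ^ κ))]
  rw [if_pos (mem_range.2 (Nat.mod_lt _ (by positivity)))]

end Root

section Fermat

/-- The unit `2` in the Fermat ring. -/
theorem exists_root (r t N : ℕ) (hr : r = t * N) (h1 : 1 ≤ r) :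
    ∃ ψ : (ZMod (2 ^ r + 1))ˣ, ψ ^ N = -1 ∧ ∀ (E : ℕ) (c : ℤ), (E : ℤ) ≡ c * t [ZMOD ((r + r : ℕ) : ℤ)] →
      ((2 : ZMod (2 ^ r + 1)) ^ E) = ((ψ ^ c : (ZMod (2 ^ r + 1))ˣ) : ZMod (2 ^ r + 1)) := by
  have hr0 : ((2 : ZMod (2 ^ r + 1)) ^ r) = -1 := by
    have : ((2 ^ r + 1 : ℕ) : ZMod (2 ^ r + 1)) = 0 := ZMod.natCast_self _
    push_cast at this
    exact eq_neg_of_add_eq_zero_left this
  let g : (ZMod (2 ^ r + 1))ˣ := ⟨2, -2 ^ (r - 1), by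
    have e : (2 : ZMod (2 ^ r + 1)) * -2 ^ (r - 1) = -(2 ^ r) := by
      have e3 : (2 : ZMod (2 ^ r + 1)) ^ r = 2 ^ (r - 1) * 2 := by
        rw [← pow_succ]
        congr 1
        omega
      rw [e3]
      ring
    rw [e, hr0]
    ring, by
    have e : -(2 : ZMod (2 ^ r + 1)) ^ (r - 1) * 2 = -(2 ^ r) := by
      have e3 : (2 : ZMod (2 ^ r + 1)) ^ r = 2 ^ (r - 1) * 2 := by
        rw [← pow_succ]
        congr 1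
        omega
      rw [e3]
      ring
    rw [e, hr0]
    ring⟩
  have hg : g ^ r = -1 := by
    apply Units.ext
    simp only [Units.val_pow_eq_pow_val, Units.val_neg, Units.val_one]
    exact hr0
  refine ⟨g ^ t, ?_, ?_⟩
  · rw [← pow_mul, ← hr, hg]
  · intro E c hE
    obtain ⟨w, hw⟩ := hE.symm.dvd
    have e : ((2 : ZMod (2 ^ r + 1)) ^ E) = ((g ^ (E : ℤ) : (ZMod (2 ^ r + 1))ˣ) : ZMod (2 ^ r + 1)) := by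
      rw [zpow_natCast]
      simp [g]
    rw [e]
    congr 1
    have e2 : (E : ℤ) = t * c + ((r : ℤ) * (2 * w)) := by
      push_cast at hw
      linarith
    rw [e2, zpow_add, zpow_mul g, zpow_mul g, ← zpow_natCast g t, zpow_natCast, zpow_natCast, hg, zpow_mul]
    simp

end Fermat

section Chain

theorem two_pow_add_one_dvd (r : ℕ) : 2 ^ r + 1 ∣ 2 ^ (r + r) - 1 := by
  refine ⟨2 ^ r - 1, ?_⟩
  have h : 1 ≤ 2 ^ r := Nat.one_le_two_pow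
  obtain ⟨m, hm⟩ : ∃ m, 2 ^ r = m + 1 := ⟨2 ^ r - 1, by omega⟩
  rw [pow_add, hm]
  simp only [Nat.add_sub_cancel]
  have e : (m + 1) * (m + 1) - 1 = (m + 1 + 1) * m := by
    have : (m + 1) * (m + 1) = (m + 1 + 1) * m + 1 := by ring
    omega
  exact e

theorem cast_of_modEq {r x y : ℕ} (h : x ≡ y [MOD 2 ^ (r + r) - 1]) :
    ((x : ℕ) : ZMod (2 ^ r + 1)) = (y : ℕ) :=
  (ZMod.natCast_eq_natCast_iff x y _).2 (h.of_dvd (two_pow_add_one_dvd r))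

theorem of_mul_unit {R : Type} [CommRing R] (ψ : Rˣ) {x y : R} {c : ℤ} (h : x * ((ψ ^ c : Rˣ) : R) = y) :
    x = y * ((ψ ^ (-c) : Rˣ) : R) := by
  rw [← h, mul_assoc, ← Units.val_mul, ← zpow_add]
  simp

theorem chain {r t κ Q : ℕ} (hr : r = t * 2 ^ κ) (hr1 : 1 ≤ r) (hκ : 1 ≤ κ)
    {a1 a2 a3 f0 f1 f2 E1 E2 E3 G1 G2 : ℕ → ℕ}
    (hE1 : ∀ k : ℕ, (E1 k : ℤ) ≡ (-(k : ℤ) ^ 2) * t [ZMOD ((r + r : ℕ) : ℤ)])
    (hG1 : ∀ k : ℕ, (G1 k : ℤ) ≡ (-(k : ℤ) ^ 2) * t [ZMOD ((r + r : ℕ) : ℤ)])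
    (hE2 : ∀ k : ℕ, (E2 k : ℤ) ≡ (((Q : ℤ) - 1) * (k : ℤ) ^ 2) * t [ZMOD ((r + r : ℕ) : ℤ)])
    (hG2 : ∀ k : ℕ, (G2 k : ℤ) ≡ ((Q : ℤ) * (k : ℤ) ^ 2) * t [ZMOD ((r + r : ℕ) : ℤ)])
    (hE3 : ∀ k : ℕ, (E3 k : ℤ) ≡ ((Q : ℤ) * (k : ℤ) ^ 2) * t [ZMOD ((r + r : ℕ) : ℤ)])
    (h1 : ∀ k, k < 2 ^ κ → a1 k * 2 ^ (E1 k) ≡ f0 k [MOD 2 ^ (r + r) - 1])
    (h2 : ∀ k, k < 2 ^ κ → f1 k = ∑ n ∈ range (2 ^ κ), a1 n * 2 ^ (G1 (2 ^ κ + k - n)))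
    (h3 : ∀ k, k < 2 ^ κ → a2 k * 2 ^ (E2 k) ≡ f1 k [MOD 2 ^ (r + r) - 1])
    (h4 : ∀ l, l < 2 ^ κ → f2 l = ∑ k ∈ range (2 ^ κ), a2 k * 2 ^ (G2 (2 ^ κ + l - k)))
    (h5 : ∀ l, l < 2 ^ κ → a3 l * 2 ^ (E3 l) ≡ f2 l [MOD 2 ^ (r + r) - 1]) :
    ∀ l, l < 2 ^ κ → a3 l ≡ 2 ^ κ * f0 ((Q * l) % 2 ^ κ) [MOD 2 ^ r + 1] := by
  obtain ⟨ψ, hψ, hexp⟩ := exists_root r t (2 ^ κ) hr hr1
  have c1 : ∀ n, n < 2 ^ κ → ((a1 n : ℕ) : ZMod (2 ^ r + 1)) =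
      (f0 n : ZMod (2 ^ r + 1)) * ((ψ ^ ((n : ℤ) ^ 2) : (ZMod (2 ^ r + 1))ˣ) : ZMod (2 ^ r + 1)) := by
    intro n hn
    have e := cast_of_modEq (h1 n hn)
    push_cast at e
    rw [hexp _ _ (hE1 n)] at e
    have := of_mul_unit ψ e
    rwa [neg_neg] at this
  have c2 : ∀ k, k < 2 ^ κ → ((f1 k : ℕ) : ZMod (2 ^ r + 1)) =
      ∑ n ∈ range (2 ^ κ), (f0 n : ZMod (2 ^ r + 1)) * ((ψ ^ ((n : ℤ) ^ 2) : (ZMod (2 ^ r + 1))ˣ) : ZMod (2 ^ r + 1)) *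
        ((ψ ^ (-(((2 ^ κ : ℕ) : ℤ) + k - n) ^ 2) : (ZMod (2 ^ r + 1))ˣ) : ZMod (2 ^ r + 1)) := by
    intro k hk
    rw [h2 k hk]
    push_cast
    apply sum_congr rfl
    intro n hn
    have hn' := mem_range.1 hn
    rw [c1 n hn', hexp _ _ (hG1 _)]
    have e : ((2 ^ κ + k - n : ℕ) : ℤ) = ((2 ^ κ : ℕ) : ℤ) + k - n := by
      rw [Nat.cast_sub (by omega)]
      push_cast
      ring
    rw [e]
    push_cast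
    rfl
  have c3 : ∀ k, k < 2 ^ κ → ((a2 k : ℕ) : ZMod (2 ^ r + 1)) =
      (f1 k : ZMod (2 ^ r + 1)) * ((ψ ^ ((1 - (Q : ℤ)) * (k : ℤ) ^ 2) : (ZMod (2 ^ r + 1))ˣ) : ZMod (2 ^ r + 1)) := by
    intro k hk
    have e := cast_of_modEq (h3 k hk)
    push_cast at e
    rw [hexp _ _ (hE2 k)] at e
    have := of_mul_unit ψ e
    have e2 : -(((Q : ℤ) - 1) * (k : ℤ) ^ 2) = (1 - (Q : ℤ)) * (k : ℤ) ^ 2 := by ring
    rwa [e2] at this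
  have c4 : ∀ l, l < 2 ^ κ → ((f2 l : ℕ) : ZMod (2 ^ r + 1)) =
      ∑ k ∈ range (2 ^ κ), (f1 k : ZMod (2 ^ r + 1)) *
        ((ψ ^ ((1 - (Q : ℤ)) * (k : ℤ) ^ 2) : (ZMod (2 ^ r + 1))ˣ) : ZMod (2 ^ r + 1)) *
        ((ψ ^ ((Q : ℤ) * (((2 ^ κ : ℕ) : ℤ) + l - k) ^ 2) : (ZMod (2 ^ r + 1))ˣ) : ZMod (2 ^ r + 1)) := by
    intro l hl
    rw [h4 l hl]
    push_cast
    apply sum_congr rfl
    intro k hk
    have hk' := mem_range.1 hk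
    rw [c3 k hk', hexp _ _ (hG2 _)]
    have e : ((2 ^ κ + l - k : ℕ) : ℤ) = ((2 ^ κ : ℕ) : ℤ) + l - k := by
      rw [Nat.cast_sub (by omega)]
      push_cast
      ring
    rw [e]
    push_cast
    rfl
  intro l hl
  have c5 : ((a3 l : ℕ) : ZMod (2 ^ r + 1)) =
      (f2 l : ZMod (2 ^ r + 1)) * ((ψ ^ (-(Q : ℤ) * (l : ℤ) ^ 2) : (ZMod (2 ^ r + 1))ˣ) : ZMod (2 ^ r + 1)) := by
    have e := cast_of_modEq (h5 l hl)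
    push_cast at e
    rw [hexp _ _ (hE3 l)] at e
    have := of_mul_unit ψ e
    have e2 : -((Q : ℤ) * (l : ℤ) ^ 2) = -(Q : ℤ) * (l : ℤ) ^ 2 := by ring
    rwa [e2] at this
  have hb := bluestein ψ hκ hψ (fun n => ((f0 n : ℕ) : ZMod (2 ^ r + 1))) Q l
  apply (ZMod.natCast_eq_natCast_iff _ _ _).1
  rw [c5, c4 l hl, sum_mul]
  push_cast
  push_cast at hb
  rw [← hb]
  apply sum_congr rfl
  intro k hk
  rw [c2 k (mem_range.1 hk)]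
  push_cast
  rfl

end Chain

end Vale.Agent.Lib.P338
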