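import Vale.Agent.Lib.P338.Stage
import Vale.Agent.Lib.P338.Math

/-!
The direct transposition of one segment through two products.
-/

namespace Vale.Agent.Lib.P338

open Prog

theorem genE_z {L u v t : ℕ} {c : ℤ} (hu : u ≤ L) (hv : v ≤ L) (h2 : v ≡ 2 * u [MOD L])
    (huz : (u : ℤ) ≡ c * t [ZMOD (L : ℤ)]) (k : ℕ) :
    ((genE L u v k).1 : ℤ) ≡ (c * (k : ℤ) ^ 2) * t [ZMOD (L : ℤ)] := by
  have h := (genE_modEq hu hv h2 k).1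
  have h' : ((genE L u v k).1 : ℤ) ≡ ((u * k ^ 2 : ℕ) : ℤ) [ZMOD (L : ℤ)] := (Int.natCast_modEq_iff).2 h
  refine h'.trans ?_
  push_cast
  have := huz.mul_right ((k : ℤ) ^ 2)
  have e : c * (t : ℤ) * (k : ℤ) ^ 2 = c * (k : ℤ) ^ 2 * t := by ring
  rwa [e] at this

/-- The arithmetic of the whole chain. -/
theorem direct_math {r t κ P Q p q u1 u2 u3 v1 v2 v3 : ℕ}
    (hr : r = t * 2 ^ κ) (hr1 : 1 ≤ r) (hκ : 1 ≤ κ) (hPQ : P * Q = 2 ^ κ + 1)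
    (hp : p ≤ P) (hq : q ≤ Q) (hpQ : p * Q ≤ 2 ^ κ) (hqP : q * P ≤ 2 ^ κ)
    (hu1 : u1 ≤ r + r) (hu2 : u2 ≤ r + r) (hu3 : u3 ≤ r + r)
    (hv1 : v1 ≤ r + r) (hv2 : v2 ≤ r + r) (hv3 : v3 ≤ r + r)
    (hv1' : v1 ≡ 2 * u1 [MOD r + r]) (hv2' : v2 ≡ 2 * u2 [MOD r + r]) (hv3' : v3 ≡ 2 * u3 [MOD r + r])
    (hz1 : (u1 : ℤ) ≡ (-1) * t [ZMOD ((r + r : ℕ) : ℤ)])
    (hz2 : (u2 : ℤ) ≡ ((Q : ℤ) - 1) * t [ZMOD ((r + r : ℕ) : ℤ)])
    (hz3 : (u3 : ℤ) ≡ (Q : ℤ) * t [ZMOD ((r + r : ℕ) : ℤ)])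
    {a1 a2 a3 f0 f1 f2 : ℕ → ℕ}
    (h1 : ∀ k, k < 2 ^ κ → a1 k * 2 ^ (genE (r + r) u1 v1 k).1 ≡ f0 k [MOD 2 ^ (r + r) - 1])
    (h2 : ∀ k, k < 2 ^ κ → f1 k = ∑ n ∈ Finset.range (2 ^ κ), a1 n * 2 ^ (genE (r + r) u1 v1 (2 ^ κ + k - n)).1)
    (h3 : ∀ k, k < 2 ^ κ → a2 k * 2 ^ (genE (r + r) u2 v2 k).1 ≡ f1 k [MOD 2 ^ (r + r) - 1])
    (h4 : ∀ l, l < 2 ^ κ → f2 l = ∑ k ∈ Finset.range (2 ^ κ), a2 k * 2 ^ (genE (r + r) u3 v3 (2 ^ κ + l - k)).1)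
    (h5 : ∀ l, l < 2 ^ κ → a3 l * 2 ^ (genE (r + r) u3 v3 l).1 ≡ f2 l [MOD 2 ^ (r + r) - 1]) :
    ∀ i j, i < p → j < q → j * P + i < 2 ^ κ ∧ a3 (j * P + i) ≡ 2 ^ κ * f0 (i * Q + j) [MOD 2 ^ r + 1] := by
  have hmain := chain (κ := κ) (Q := Q) hr hr1 hκ
    (E1 := fun k => (genE (r + r) u1 v1 k).1) (G1 := fun k => (genE (r + r) u1 v1 k).1)
    (E2 := fun k => (genE (r + r) u2 v2 k).1) (G2 := fun k => (genE (r + r) u3 v3 k).1)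
    (E3 := fun k => (genE (r + r) u3 v3 k).1)
    (fun k => by
      have := genE_z hu1 hv1 hv1' hz1 k
      have e : (-1 : ℤ) * (k : ℤ) ^ 2 = -(k : ℤ) ^ 2 := by ring
      rwa [e] at this)
    (fun k => by
      have := genE_z hu1 hv1 hv1' hz1 k
      have e : (-1 : ℤ) * (k : ℤ) ^ 2 = -(k : ℤ) ^ 2 := by ring
      rwa [e] at this)
    (fun k => genE_z hu2 hv2 hv2' hz2 k)
    (fun k => genE_z hu3 hv3 hv3' hz3 k)
    (fun k => genE_z hu3 hv3 hv3' hz3 k)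
    h1 h2 h3 h4 h5
  intro i j hi hj
  have hl : j * P + i < 2 ^ κ := by
    have h6 : (j + 1) * P ≤ q * P := Nat.mul_le_mul_right _ hj
    rw [add_mul, one_mul] at h6
    omega
  have hn : i * Q + j < 2 ^ κ := by
    have h6 : (i + 1) * Q ≤ p * Q := Nat.mul_le_mul_right _ hi
    rw [add_mul, one_mul] at h6
    omega
  refine ⟨hl, ?_⟩
  have := hmain _ hl
  have e : (Q * (j * P + i)) % 2 ^ κ = i * Q + j := by
    have e1 : Q * (j * P + i) = i * Q + j + 2 ^ κ * j := by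
      have : Q * (j * P + i) = j * (P * Q) + i * Q := by ring
      rw [this, hPQ]
      ring
    rw [e1, Nat.add_mul_mod_self_left, Nat.mod_eq_of_lt hn]
  rwa [e] at this

theorem exX_cell {G : Type} (τ : ℤ → Sym G) (h : ℤ) {p q e Q i j : ℕ} (hi : i < p) (hj : j < q) (hq : q ≤ Q) :
    exX τ h p q e Q (i * Q + j) = vl τ (h + ((i * q + j) * e : ℕ)) e := by
  unfold exX
  have hjQ : j < Q := by omega
  have h1 : (i * Q + j) / Q = i := by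
    rw [add_comm, mul_comm, Nat.add_mul_div_left _ _ (by omega), Nat.div_eq_of_lt hjQ, zero_add]
  have h2 : (i * Q + j) % Q = j := by
    rw [add_comm, mul_comm, Nat.add_mul_mod_self_left, Nat.mod_eq_of_lt hjQ]
  rw [h1, h2, if_pos ⟨hi, hj⟩]

theorem vl_narrow {G : Type} (τ : ℤ → Sym G) (a : ℤ) {L : ℕ} (h : vl τ a (4 * L) < 2 ^ L) :
    vl τ a L = vl τ a (4 * L) := by
  have e : 4 * L = L + 3 * L := by ring
  rw [e, vl_add] at h ⊢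
  have hp : 0 < 2 ^ L := by positivity
  by_cases h0 : vl τ (a + L) (3 * L) = 0
  · rw [h0]
    simp
  · exfalso
    have : 2 ^ L * 1 ≤ 2 ^ L * vl τ (a + L) (3 * L) := Nat.mul_le_mul_left _ (by omega)
    omega

section
variable (A : MTM)

/-- Transpose one segment. -/
noncomputable def direct : Prog (BT A) (BG A) :=
  .seq expand (.seq (stage A (o .U1) (o .V1) (o .U1) (o .V1)) (.seq (stage A (o .U2) (o .V2) (o .U3) (o .V3))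
    (.seq (chirp (o .U3) (o .V3)) output)))

/-- The tapes used by the stages. -/
noncomputable def Work0 : List (BT A) :=
  [o .W1, o .W2, o .W3, o .Acc, o .Cy, o .TE, o .TD] ++ allA A

/-- The tapes used by the direct transposition. -/
noncomputable def Work : List (BT A) := o .D :: Work0 A

variable {A}

/-- The own tapes not used by the direct transposition. -/
def inW : Own → Bool
  | .D | .W1 | .W2 | .W3 | .Acc | .Cy | .TE | .TD => true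
  | _ => false

theorem nW (a : Own) (h : inW a = false) : (o a : BT A) ∉ Work A := by
  unfold Work Work0
  simp only [List.mem_cons, List.mem_append, not_or]
  refine ⟨?_, ?_, not_mem_allA A a⟩
  · simp only [o, ne_eq, Sum.inl.injEq]
    cases a <;> simp_all [inW]
  · simp only [List.mem_cons, List.not_mem_nil, or_false, not_or, o, Sum.inl.injEq]
    cases a <;> simp_all [inW]

theorem work0_sub : ∀ x ∈ Work0 A, x ∈ Work A := fun x hx => List.mem_cons_of_mem _ hx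

theorem nD0 : (o .D : BT A) ∉ Work0 A := by
  unfold Work0
  simp only [List.mem_append, not_or]
  refine ⟨?_, not_mem_allA A _⟩
  simp [o]

/-- The rulers of the direct transposition. -/
structure DR (c : TS (BT A) (BG A)) (p q e P Q N κ r : ℕ) : Prop where
  rP : Ruler c (o .RP) P
  rQ : Ruler c (o .RQ) Q
  rp : Ruler c (o .Rp) p
  rq : Ruler c (o .Rq) q
  re : Ruler c (o .Re) e
  rr : Ruler c (o .Rr) r
  rk : Ruler c (o .Rk) κ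
  rBe : Ruler c (o .RBe) (4 * (r + r) - e)
  rN : Ruler c (o .RN) N
  r2N : Ruler c (o .R2N) (2 * N)
  rL : Ruler c (o .RL) (r + r)
  rB : Ruler c (o .RB) (4 * (r + r))
  rBL : Ruler c (o .RBL) (3 * (r + r))
  rBL1 : Ruler c (o .RBL1) (3 * (r + r) - 1)
  rN1B : Ruler c (o .RN1B) ((N - 1) * (4 * (r + r)))
  rNB : Ruler c (o .RNB) (N * (4 * (r + r)))
  r2NB : Ruler c (o .R2NB) (2 * N * (4 * (r + r)))
  r4NB : Ruler c (o .R4NB) (2 * (2 * N * (4 * (r + r))))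
  rS : Ruler c (o .RS) (p * q * e)

theorem DR.of_work {c c' : TS (BT A) (BG A)} {p q e P Q N κ r : ℕ} (h : DR c p q e P Q N κ r)
    {l : List (BT A)} (hs : Same l c c') (hl : ∀ x ∈ l, x ∈ Work A) : DR c' p q e P Q N κ r := by
  have nn : ∀ a : Own, inW a = false → (o a : BT A) ∉ l := fun a ha hm => nW a ha (hl _ hm)
  exact ⟨h.rP.of_same hs (nn _ rfl), h.rQ.of_same hs (nn _ rfl), h.rp.of_same hs (nn _ rfl),
    h.rq.of_same hs (nn _ rfl), h.re.of_same hs (nn _ rfl), h.rr.of_same hs (nn _ rfl),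
    h.rk.of_same hs (nn _ rfl), h.rBe.of_same hs (nn _ rfl), h.rN.of_same hs (nn _ rfl),
    h.r2N.of_same hs (nn _ rfl), h.rL.of_same hs (nn _ rfl), h.rB.of_same hs (nn _ rfl),
    h.rBL.of_same hs (nn _ rfl), h.rBL1.of_same hs (nn _ rfl), h.rN1B.of_same hs (nn _ rfl),
    h.rNB.of_same hs (nn _ rfl), h.r2NB.of_same hs (nn _ rfl), h.r4NB.of_same hs (nn _ rfl),
    h.rS.of_same hs (nn _ rfl)⟩

/-- The chirp parameters. -/
structure DC (c : TS (BT A) (BG A)) (L u1 u2 u3 v1 v2 v3 : ℕ) : Prop where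
  c1 : Cyc c (o .U1) L u1
  c2 : Cyc c (o .U2) L u2
  c3 : Cyc c (o .U3) L u3
  d1 : Cyc c (o .V1) L v1
  d2 : Cyc c (o .V2) L v2
  d3 : Cyc c (o .V3) L v3

theorem DC.of_work {c c' : TS (BT A) (BG A)} {L u1 u2 u3 v1 v2 v3 : ℕ} (h : DC c L u1 u2 u3 v1 v2 v3)
    {l : List (BT A)} (hs : Same l c c') (hl : ∀ x ∈ l, x ∈ Work A) : DC c' L u1 u2 u3 v1 v2 v3 := by
  have nn : ∀ a : Own, inW a = false → (o a : BT A) ∉ l := fun a ha hm => nW a ha (hl _ hm)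
  exact ⟨h.c1.of_same hs (nn _ rfl), h.c2.of_same hs (nn _ rfl), h.c3.of_same hs (nn _ rfl),
    h.d1.of_same hs (nn _ rfl), h.d2.of_same hs (nn _ rfl), h.d3.of_same hs (nn _ rfl)⟩

/-- The cost bound of the direct transposition. -/
def directCost (k P Q κ r S T : ℕ) : ℕ :=
  expandCost P Q (2 ^ κ - 1) (2 * 2 ^ κ) (4 * (r + r)) S +
    (stageCost k (2 ^ κ) (r + r) T + (stageCost k (2 ^ κ) (r + r) T +
      (chirpCost (2 ^ κ) (r + r) + outputCost P Q r (2 ^ κ * (4 * (r + r))))))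

/-- State kept during the direct transposition. -/
structure DS (c : TS (BT A) (BG A)) (p q e P Q N κ r u1 u2 u3 v1 v2 v3 : ℕ) : Prop where
  hR : DR c p q e P Q N κ r
  hC : DC c (r + r) u1 u2 u3 v1 v2 v3
  hTE : ∃ e', e' ≤ r + r ∧ Cyc c (o .TE) (r + r) e'
  hTD : ∃ d', d' ≤ r + r ∧ Cyc c (o .TD) (r + r) d'
  hZ : (c.read (o .Z)).isOne = false
  hW1 : c.head (o .W1) = 0
  hW2 : c.head (o .W2) = 0
  hW3 : c.head (o .W3) = 0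
  hB : ∀ t x, c.tape (Sum.inr t) x = .blank

theorem ZisNot {c c' : TS (BT A) (BG A)} {l : List (BT A)} (hz : (c.read (o .Z)).isOne = false)
    (hs : Same l c c') (hl : ∀ x ∈ l, x ∈ Work A) : (c'.read (o .Z)).isOne = false := by
  have nn : (o .Z : BT A) ∉ l := fun hm => nW .Z rfl (hl _ hm)
  unfold TS.read at hz ⊢
  rw [hs.tape nn, hs.head nn]
  exact hz

theorem stage1_spec {τ : ℕ → ℕ} (hA : Multiplies A τ) (c : TS (BT A) (BG A)) {p q e P Q κ r u1 u2 u3 v1 v2 v3 : ℕ}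
    (hr1 : 1 ≤ r) (hNL : 2 * 2 ^ κ ≤ 2 ^ (r + r))
    (hu1 : u1 ≤ r + r) (hu2 : u2 ≤ r + r) (hu3 : u3 ≤ r + r)
    (hv1 : v1 ≤ r + r) (hv2 : v2 ≤ r + r) (hv3 : v3 ≤ r + r)
    (hS : DS c p q e P Q (2 ^ κ) κ r u1 u2 u3 v1 v2 v3) :
    ∃ c', Run (stage A (o .U1) (o .V1) (o .U1) (o .V1)) c c'
        (stageCost (@Finset.univ A.T A.fT).card (2 ^ κ) (r + r) (τ (2 * 2 ^ κ * (4 * (r + r))))) ∧
      DS c' p q e P Q (2 ^ κ) κ r u1 u2 u3 v1 v2 v3 ∧ Same (Work0 A) c c' ∧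
      ∃ a : ℕ → ℕ,
        (∀ k, k < 2 ^ κ → a k < 2 ^ (r + r) ∧
          a k * 2 ^ (genE (r + r) u1 v1 k).1 ≡ vl (c.tape (o .W3)) (((2 ^ κ - 1 + k) * (4 * (r + r)) : ℕ) : ℤ) (4 * (r + r)) [MOD 2 ^ (r + r) - 1]) ∧
        ∀ k, k < 2 ^ κ → vl (c'.tape (o .W3)) (((2 ^ κ - 1 + k) * (4 * (r + r)) : ℕ) : ℤ) (4 * (r + r)) =
          ∑ n ∈ Finset.range (2 ^ κ), a n * 2 ^ (genE (r + r) u1 v1 (2 ^ κ + k - n)).1 := by
  obtain ⟨hR, hC, ⟨e0, he0, hE⟩, ⟨d0, hd0, hD⟩, hZ, hW1, hW2, hW3, hB⟩ := hS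
  obtain ⟨c', h1, h2, h3, h4, h5, h6, h7, h8, h9⟩ := stage_spec hA (o .U1) (o .V1) (o .U1) (o .V1)
    (by simp) (by simp) (by simp) (by simp) (by simp) (by simp) (by simp) (by simp) (by simp)
    (by simp) (by simp) (by simp) (by simp) (by simp) (by simp) (by simp) (by simp) c
    (L := r + r) (N := 2 ^ κ) (by omega) hNL Nat.one_le_two_pow hu1 hv1 hu1 hv1 he0 hd0 hE hD hC.c1 hC.d1 hC.c1 hC.d1
    hR.rN hR.rL hR.rBL hR.rN1B hR.rNB hR.r2N hR.rBL1 hR.r2NB hR.r4NB hZ hW1 hW2 hW3 hB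
  refine ⟨c', h1, ⟨hR.of_work h8 work0_sub, hC.of_work h8 work0_sub, h6, h7, ZisNot hZ h8 work0_sub, h2, h3, h4, h5⟩, h8, h9⟩

theorem stage2_spec {τ : ℕ → ℕ} (hA : Multiplies A τ) (c : TS (BT A) (BG A)) {p q e P Q κ r u1 u2 u3 v1 v2 v3 : ℕ}
    (hr1 : 1 ≤ r) (hNL : 2 * 2 ^ κ ≤ 2 ^ (r + r))
    (hu1 : u1 ≤ r + r) (hu2 : u2 ≤ r + r) (hu3 : u3 ≤ r + r)
    (hv1 : v1 ≤ r + r) (hv2 : v2 ≤ r + r) (hv3 : v3 ≤ r + r)
    (hS : DS c p q e P Q (2 ^ κ) κ r u1 u2 u3 v1 v2 v3) :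
    ∃ c', Run (stage A (o .U2) (o .V2) (o .U3) (o .V3)) c c'
        (stageCost (@Finset.univ A.T A.fT).card (2 ^ κ) (r + r) (τ (2 * 2 ^ κ * (4 * (r + r))))) ∧
      DS c' p q e P Q (2 ^ κ) κ r u1 u2 u3 v1 v2 v3 ∧ Same (Work0 A) c c' ∧
      ∃ a : ℕ → ℕ,
        (∀ k, k < 2 ^ κ → a k < 2 ^ (r + r) ∧
          a k * 2 ^ (genE (r + r) u2 v2 k).1 ≡ vl (c.tape (o .W3)) (((2 ^ κ - 1 + k) * (4 * (r + r)) : ℕ) : ℤ) (4 * (r + r)) [MOD 2 ^ (r + r) - 1]) ∧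
        ∀ k, k < 2 ^ κ → vl (c'.tape (o .W3)) (((2 ^ κ - 1 + k) * (4 * (r + r)) : ℕ) : ℤ) (4 * (r + r)) =
          ∑ n ∈ Finset.range (2 ^ κ), a n * 2 ^ (genE (r + r) u3 v3 (2 ^ κ + k - n)).1 := by
  obtain ⟨hR, hC, ⟨e0, he0, hE⟩, ⟨d0, hd0, hD⟩, hZ, hW1, hW2, hW3, hB⟩ := hS
  obtain ⟨c', h1, h2, h3, h4, h5, h6, h7, h8, h9⟩ := stage_spec hA (o .U2) (o .V2) (o .U3) (o .V3)
    (by simp) (by simp) (by simp) (by simp) (by simp) (by simp) (by simp) (by simp) (by simp)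
    (by simp) (by simp) (by simp) (by simp) (by simp) (by simp) (by simp) (by simp) c
    (L := r + r) (N := 2 ^ κ) (by omega) hNL Nat.one_le_two_pow hu2 hv2 hu3 hv3 he0 hd0 hE hD hC.c2 hC.d2 hC.c3 hC.d3
    hR.rN hR.rL hR.rBL hR.rN1B hR.rNB hR.r2N hR.rBL1 hR.r2NB hR.r4NB hZ hW1 hW2 hW3 hB
  refine ⟨c', h1, ⟨hR.of_work h8 work0_sub, hC.of_work h8 work0_sub, h6, h7, ZisNot hZ h8 work0_sub, h2, h3, h4, h5⟩, h8, h9⟩

theorem chirp3_spec (c : TS (BT A) (BG A)) {p q e P Q κ r u1 u2 u3 v1 v2 v3 : ℕ}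
    (hr1 : 1 ≤ r)
    (hu1 : u1 ≤ r + r) (hu2 : u2 ≤ r + r) (hu3 : u3 ≤ r + r)
    (hv1 : v1 ≤ r + r) (hv2 : v2 ≤ r + r) (hv3 : v3 ≤ r + r)
    (hS : DS c p q e P Q (2 ^ κ) κ r u1 u2 u3 v1 v2 v3) :
    ∃ c', Run (chirp (o .U3) (o .V3)) c c' (chirpCost (2 ^ κ) (r + r)) ∧
      DS c' p q e P Q (2 ^ κ) κ r u1 u2 u3 v1 v2 v3 ∧ Same (Work0 A) c c' ∧
      (∀ k, k < 2 ^ κ → vl (c'.tape (o .W1)) ((k * (4 * (r + r)) : ℕ) : ℤ) (4 * (r + r)) < 2 ^ (r + r) ∧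
        vl (c'.tape (o .W1)) ((k * (4 * (r + r)) : ℕ) : ℤ) (4 * (r + r)) * 2 ^ (genE (r + r) u3 v3 k).1 ≡
          vl (c.tape (o .W3)) (((2 ^ κ - 1 + k) * (4 * (r + r)) : ℕ) : ℤ) (4 * (r + r)) [MOD 2 ^ (r + r) - 1]) := by
  obtain ⟨hR, hC, ⟨e0, he0, hE⟩, ⟨d0, hd0, hD⟩, hZ, hW1, hW2, hW3, hB⟩ := hS
  obtain ⟨c', h1, h2, h3, _, h5, h6, h7, h8⟩ := chirp_spec (o .U3) (o .V3)
    (by simp) (by simp) (by simp) (by simp) (by simp) (by simp) (by simp) (by simp) (by simp) c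
    (L := r + r) (N := 2 ^ κ) (by omega) hu3 hv3 he0 hd0 hE hD hC.c3 hC.d3
    hR.rN hR.rL hR.rBL hR.rN1B hR.rNB hZ hW1 hW3
  have hl0 : ∀ x ∈ [(o Own.W1 : BT A), o .W3, o .Acc, o .Cy, o .TE, o .TD], x ∈ Work0 A := by
    intro x hx
    unfold Work0
    simp only [List.mem_append, List.mem_cons, List.not_mem_nil, or_false] at hx ⊢
    left
    rcases hx with hx | hx | hx | hx | hx | hx <;> simp only [hx, true_or, or_true]
  have hl : ∀ x ∈ [(o Own.W1 : BT A), o .W3, o .Acc, o .Cy, o .TE, o .TD], x ∈ Work A := fun x hx => work0_sub x (hl0 x hx)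
  have nAll : ∀ t x, c'.tape (Sum.inr t) x = .blank := by
    intro t x
    have : (Sum.inr t : BT A) ∉ [(o Own.W1 : BT A), o .W3, o .Acc, o .Cy, o .TE, o .TD] := by simp [o]
    rw [h8.tape this]
    exact hB t x
  have hW2' : c'.head (o .W2) = 0 := by
    have : (o .W2 : BT A) ∉ [(o Own.W1 : BT A), o .W3, o .Acc, o .Cy, o .TE, o .TD] := by simp [o]
    rw [h8.head this]
    exact hW2
  exact ⟨c', h1, ⟨hR.of_work h8 hl, hC.of_work h8 hl, h6, h7, ZisNot hZ h8 hl, h2, hW2', h3, nAll⟩, h8.mono hl0, h5⟩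

theorem direct_spec {τ : ℕ → ℕ} (hA : Multiplies A τ) (c : TS (BT A) (BG A)) {p q e P Q κ r t u1 u2 u3 v1 v2 v3 : ℕ}
    (hr : r = t * 2 ^ κ) (hr1 : 1 ≤ r) (hκ : 1 ≤ κ) (hPQ : P * Q = 2 ^ κ + 1)
    (hp : p ≤ P) (hq : q ≤ Q) (hpQ : p * Q ≤ 2 ^ κ) (hqP : q * P ≤ 2 ^ κ) (hke : κ + e ≤ r)
    (hu1 : u1 ≤ r + r) (hu2 : u2 ≤ r + r) (hu3 : u3 ≤ r + r)
    (hv1 : v1 ≤ r + r) (hv2 : v2 ≤ r + r) (hv3 : v3 ≤ r + r)
    (hv1' : v1 ≡ 2 * u1 [MOD r + r]) (hv2' : v2 ≡ 2 * u2 [MOD r + r]) (hv3' : v3 ≡ 2 * u3 [MOD r + r])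
    (hz1 : (u1 : ℤ) ≡ (-1) * t [ZMOD ((r + r : ℕ) : ℤ)])
    (hz2 : (u2 : ℤ) ≡ ((Q : ℤ) - 1) * t [ZMOD ((r + r : ℕ) : ℤ)])
    (hz3 : (u3 : ℤ) ≡ (Q : ℤ) * t [ZMOD ((r + r : ℕ) : ℤ)])
    (hS : DS c p q e P Q (2 ^ κ) κ r u1 u2 u3 v1 v2 v3) :
    ∃ c', Run (direct A) c c' (directCost (@Finset.univ A.T A.fT).card P Q κ r (p * q * e) (τ (2 * 2 ^ κ * (4 * (r + r))))) ∧
      c'.head (o .D) = c.head (o .D) + (q * p * e : ℕ) ∧
      DOut (c'.tape (o .D)) (c.tape (o .D)) (c.head (o .D)) p q e (q * p) ∧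
      DS c' p q e P Q (2 ^ κ) κ r u1 u2 u3 v1 v2 v3 ∧ Same (Work A) c c' := by
  have hNL : 2 * 2 ^ κ ≤ 2 ^ (r + r) := by
    rw [← pow_succ']
    exact Nat.pow_le_pow_right (by norm_num) (by omega)
  have hN1 : 1 ≤ 2 ^ κ := Nat.one_le_two_pow
  have hlW0 : ∀ x ∈ [(o Own.W3 : BT A)], x ∈ Work0 A := by
    intro x hx
    unfold Work0
    simp only [List.mem_append, List.mem_cons, List.not_mem_nil, or_false] at hx ⊢
    left
    simp only [hx, true_or, or_true]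
  have hlW : ∀ x ∈ [(o Own.W3 : BT A)], x ∈ Work A := fun x hx => work0_sub x (hlW0 x hx)
  obtain ⟨c1, r1, x1, x2, x3, x4, x5⟩ := expand_spec c (p := p) (q := q) (e := e) (B := 4 * (r + r)) (P := P) (Q := Q)
    (N1 := 2 ^ κ - 1) (M := 2 * 2 ^ κ) (by omega) hq hp hS.hW3 (by rw [hPQ]; omega)
    hS.hR.rP hS.hR.rQ hS.hR.rq hS.hR.rp hS.hR.re hS.hR.rBe hS.hR.rN1B hS.hR.r2NB hS.hR.rS
  have hS1 : DS c1 p q e P Q (2 ^ κ) κ r u1 u2 u3 v1 v2 v3 := by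
    obtain ⟨hR, hC, ⟨e0, he0, hE⟩, ⟨d0, hd0, hD⟩, hZ, hW1, hW2, hW3, hB⟩ := hS
    exact ⟨hR.of_work x5 hlW, hC.of_work x5 hlW, ⟨e0, he0, hE.of_same x5 (by simp)⟩, ⟨d0, hd0, hD.of_same x5 (by simp)⟩,
      ZisNot hZ x5 hlW, by rw [x5.head (by simp)]; exact hW1, by rw [x5.head (by simp)]; exact hW2, x3,
      fun t y => by rw [x5.tape (by simp)]; exact hB t y⟩
  obtain ⟨c2, r2, hS2, s2, a1, ha1, hf1⟩ := stage1_spec hA c1 hr1 hNL hu1 hu2 hu3 hv1 hv2 hv3 hS1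
  obtain ⟨c3, r3, hS3, s3, a2, ha2, hf2⟩ := stage2_spec hA c2 hr1 hNL hu1 hu2 hu3 hv1 hv2 hv3 hS2
  obtain ⟨c4, r4, hS4, s4, ha3⟩ := chirp3_spec c3 hr1 hu1 hu2 hu3 hv1 hv2 hv3 hS3
  have s14 : Same (Work0 A) c c4 := (x5.trans (s2.trans (s3.trans s4))).mono (by
    intro x hx
    simp only [List.mem_append] at hx
    rcases hx with hx | hx | hx | hx
    · exact hlW0 x hx
    · exact hx
    · exact hx
    · exact hx)
  have hvals := direct_math (p := p) (q := q) hr hr1 hκ hPQ hp hq hpQ hqP hu1 hu2 hu3 hv1 hv2 hv3 hv1' hv2' hv3' hz1 hz2 hz3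
    (a1 := a1) (a2 := a2) (a3 := fun l => vl (c4.tape (o .W1)) ((l * (4 * (r + r)) : ℕ) : ℤ) (4 * (r + r)))
    (f0 := fun k => vl (c1.tape (o .W3)) (((2 ^ κ - 1 + k) * (4 * (r + r)) : ℕ) : ℤ) (4 * (r + r)))
    (f1 := fun k => vl (c2.tape (o .W3)) (((2 ^ κ - 1 + k) * (4 * (r + r)) : ℕ) : ℤ) (4 * (r + r)))
    (f2 := fun k => vl (c3.tape (o .W3)) (((2 ^ κ - 1 + k) * (4 * (r + r)) : ℕ) : ℤ) (4 * (r + r)))
    (fun k hk => (ha1 k hk).2) hf1 (fun k hk => (ha2 k hk).2) hf2 (fun k hk => (ha3 k hk).2)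
  have hout : ∀ i j, i < p → j < q → vl (c4.tape (o .W1)) (((j * P + i) * (4 * (r + r)) : ℕ) : ℤ) (r + r) ≡
      2 ^ κ * vl (c4.tape (o .D)) (c4.head (o .D) + ((i * q + j) * e : ℕ)) e [MOD 2 ^ r + 1] := by
    intro i j hi hj
    obtain ⟨hl, hm⟩ := hvals i j hi hj
    rw [vl_narrow _ _ (ha3 _ hl).1, s14.tape nD0, s14.head nD0, ← exX_cell (c.tape (o .D)) _ hi hj hq]
    have hn : i * Q + j < P * Q := by
      have h6 : (i + 1) * Q ≤ p * Q := Nat.mul_le_mul_right _ hi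
      rw [add_mul, one_mul] at h6
      rw [hPQ]
      omega
    rw [← x4 _ hn]
    exact hm
  obtain ⟨hR4, hC4, ⟨e4, he4, hE4⟩, ⟨d4, hd4, hD4⟩, hZ4, hW14, hW24, hW34, hB4⟩ := hS4
  obtain ⟨c5, r5, y1, y2, y3, y4, y5⟩ := output_spec c4 (NB := 2 ^ κ * (4 * (r + r))) hp hq hke
    (by rw [hPQ]; ring) hout hW14 hR4.rP hR4.rQ hR4.rp hR4.rq hR4.rr hR4.rk hR4.re hR4.rBL hR4.rB hR4.rNB hZ4
  have hl5 : ∀ x ∈ [(o Own.D : BT A), o .W1, o .Acc, o .Cy], x ∈ Work A := by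
    intro x hx
    unfold Work Work0
    simp only [List.mem_append, List.mem_cons, List.not_mem_nil, or_false] at hx ⊢
    rcases hx with hx | hx | hx | hx <;> simp only [hx, true_or, or_true]
  refine ⟨c5, ?_, ?_, ?_, ⟨hR4.of_work y5 hl5, hC4.of_work y5 hl5, ⟨e4, he4, hE4.of_same y5 (by simp)⟩,
    ⟨d4, hd4, hD4.of_same y5 (by simp)⟩, ZisNot hZ4 y5 hl5, y3, ?_, ?_, ?_⟩, ?_⟩
  · unfold directCost
    exact r1.seq (r2.seq (r3.seq (r4.seq r5)))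
  · rw [y1, s14.head nD0]
  · rw [s14.tape nD0, s14.head nD0] at y2
    exact y2
  · rw [y5.head (by simp)]
    exact hW24
  · rw [y5.head (by simp)]
    exact hW34
  · intro t x
    rw [y5.tape (by simp)]
    exact hB4 t x
  · refine (s14.trans y5).mono ?_
    intro x hx
    simp only [List.mem_append] at hx
    rcases hx with hx | hx
    · exact work0_sub x hx
    · exact hl5 x hx

end

end Vale.Agent.Lib.P338
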