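import Vale.Agent.Lib.P338.Cyc

/-!
Operations on elements: copying and building cyclic runs, folding a block modulo `2 ^ L - 1`,
rotation, single-bit blocks.
-/

namespace Vale.Agent.Lib.P338

open Prog

section
variable {T G : Type} [DecidableEq T]

/-- Copy a cyclic run. -/
def ccopy (X Y : T) : Prog T (Sym G) :=
  .seq (sc1' X Y) (rewM X Y .L)
where
  /-- The forward scan. -/
  sc1' (X Y : T) : Prog T (Sym G) := sc1 Sym.nonBlank X .R Y .R fun x _ => x

theorem ccopy_spec (X Y : T) (hXY : X ≠ Y) (c : TS T (Sym G)) {L a b : ℕ} (ha : a ≤ L) (hb : b ≤ L)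
    (hX : Cyc c X L a) (hY : Cyc c Y L b) :
    ∃ c', Run (ccopy X Y) c c' (4 * L + 4) ∧ Cyc c' X L a ∧ Cyc c' Y L a ∧ Same [Y] c c' := by
  obtain ⟨c1, r1, e1, t1, e2, hit, miss, s1⟩ := sc1_spec Sym.nonBlank X .R Y .R (fun x _ => x) hXY
    (by simp) (by simp) c L
    (by
      intro i hi
      rw [hX.1, hX.2]
      simp only [Dir.toInt, mul_one, zero_add]
      exact crun_nonBlank ha hi)
    (by
      rw [hX.1, hX.2]
      simp only [Dir.toInt, mul_one, zero_add]
      rw [crun_blank ha (by right; exact le_rfl)]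
      rfl)
  obtain ⟨c2, r2, e3, e4, e5, e6, s2⟩ := rewM_spec X Y .L hXY (by simp) c1 L
    (by rw [e1, hX.2]; simp [Dir.toInt])
    (by
      intro i hi
      rw [t1, hX.1]
      exact crun_nonBlank ha hi)
    (by
      rw [t1, hX.1]
      exact crun_blank ha (by left; omega))
  refine ⟨c2, (r1.seq r2).mono (by omega), ⟨by rw [e4, t1, hX.1], e3⟩, ⟨?_, ?_⟩, ?_⟩
  · rw [e6]
    funext x
    by_cases hx : 0 ≤ x ∧ x < L
    · have := hit (x.toNat) (by omega)
      rw [hY.2, hX.2] at this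
      simp only [Dir.toInt, mul_one, zero_add] at this
      have e : ((x.toNat : ℕ) : ℤ) = x := by omega
      rw [e, hX.1] at this
      exact this
    · rw [miss x, hY.1, crun_blank hb (by omega), crun_blank ha (by omega)]
      rw [hY.2]
      intro j hj he
      simp only [Dir.toInt, mul_one, zero_add] at he
      omega
  · rw [e5, e2, hY.2]
    simp [Dir.toInt]
  · refine Same.erase (R := X) ((s1.trans s2).mono (by simp)) ?_ ?_
    · rw [e4, t1]
    · rw [e3, hX.2]

/-- Reset a cyclic run to zero. -/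
def czero (X : T) : Prog T (Sym G) :=
  .seq (sc0 Sym.nonBlank X .R fun _ => .zero) (rew X)

theorem czero_spec (X : T) (c : TS T (Sym G)) {L a : ℕ} (ha : a ≤ L) (hX : Cyc c X L a) :
    ∃ c', Run (czero X) c c' (4 * L + 4) ∧ Cyc c' X L 0 ∧ Same [X] c c' := by
  obtain ⟨c1, r1, e1, hit, miss, s1⟩ := sc0_spec Sym.nonBlank X .R (fun _ => .zero) (by simp) c L
    (by
      intro i hi
      rw [hX.1, hX.2]
      simp only [Dir.toInt, mul_one, zero_add]
      exact crun_nonBlank ha hi)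
    (by
      rw [hX.1, hX.2]
      simp only [Dir.toInt, mul_one, zero_add]
      rw [crun_blank ha (by right; exact le_rfl)]
      rfl)
  have t1 : c1.tape X = crun L 0 := by
    funext x
    by_cases hx : 0 ≤ x ∧ x < L
    · have := hit (x.toNat) (by omega)
      rw [hX.2] at this
      simp only [Dir.toInt, mul_one, zero_add] at this
      have e : ((x.toNat : ℕ) : ℤ) = x := by omega
      rw [e] at this
      rw [this]
      simp [crun, hx.1, hx.2]
    · rw [miss x, hX.1, crun_blank ha (by omega), crun_blank (by omega) (by omega)]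
      rw [hX.2]
      intro j hj he
      simp only [Dir.toInt, mul_one, zero_add] at he
      omega
  obtain ⟨c2, r2, e3, e4, s2⟩ := rew_spec X c1 L
    (by rw [e1, hX.2]; simp [Dir.toInt])
    (by
      intro i hi
      rw [t1]
      exact crun_nonBlank (by omega) hi)
    (by rw [t1]; exact crun_blank (by omega) (by left; omega))
  exact ⟨c2, (r1.seq r2).mono (by omega), ⟨by rw [e4, t1], e3⟩, (s1.trans s2).mono (by simp)⟩

/-- Build a cyclic run of value `v` on an empty tape, from rulers of lengths `v` and `L`. -/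
def mkCrun (Rv RL X : T) : Prog T (Sym G) :=
  .seq (fillBy RL X .zero) (.seq (mvBy RL X .L) (.seq (fillBy Rv X .one) (mvBy Rv X .L)))

theorem mkCrun_spec (Rv RL X : T) (h1 : Rv ≠ X) (h2 : RL ≠ X) (c : TS T (Sym G)) {L v : ℕ} (hv : v ≤ L)
    (hRv : Ruler c Rv v) (hRL : Ruler c RL L) (hX : Ruler c X 0) :
    ∃ c', Run (mkCrun Rv RL X) c c' (16 * L + 16) ∧ Cyc c' X L v ∧ Same [X] c c' := by
  have n1 : RL ∉ [X] := by simpa using h2
  have n2 : Rv ∉ [X] := by simpa using h1
  obtain ⟨c1, r1, e1, t1, s1⟩ := fillBy_spec RL X .zero h2 c hRL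
  obtain ⟨c2, r2, e2, t2, s2⟩ := mvBy_spec RL X .L h2 (by simp) c1 (hRL.of_same s1 n1)
  have hR2 : Ruler c2 Rv v := (hRv.of_same s1 n2).of_same s2 n2
  obtain ⟨c3, r3, e3, t3, s3⟩ := fillBy_spec Rv X .one h1 c2 hR2
  obtain ⟨c4, r4, e4, t4, s4⟩ := mvBy_spec Rv X .L h1 (by simp) c3 (hR2.of_same s3 n2)
  have hh2 : c2.head X = 0 := by
    rw [e2, e1, hX.2]
    simp [Dir.toInt]
  refine ⟨c4, (r1.seq (r2.seq (r3.seq r4))).mono (by omega), ⟨?_, ?_⟩,
    (s1.trans (s2.trans (s3.trans s4))).mono (by simp)⟩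
  · rw [t4]
    funext x
    rw [t3, hh2, t2, t1, hX.1, hX.2]
    simp only [zero_add, crun]
    by_cases hx : 0 ≤ x ∧ x < v
    · rw [if_pos hx, if_pos hx]
    · rw [if_neg hx, if_neg hx]
      by_cases hx2 : 0 ≤ x ∧ x < L
      · rw [if_pos hx2, if_pos hx2]
      · rw [if_neg hx2, if_neg hx2, runT_out (by push_cast; omega)]
  · rw [e4, e3, hh2]
    simp [Dir.toInt]

/-- The purely arithmetical core of folding. -/
theorem fold_arith {P A1 A2 A3 A4 A5 A6 k1 k2 k3 k4 k5 k6 c0 c1 c2 c3 : ℕ} (hP : 2 ≤ P)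
    (hA4 : A4 < P) (hA5 : A5 < P)
    (hk4 : k4 ≤ 1) (hk5 : k5 ≤ 1) (hk6 : k6 ≤ 1)
    (e1 : A1 + P * k1 = c0) (e2 : A2 + P * k2 = A1 + (c1 + k1)) (e3 : A3 + P * k3 = A2 + (c2 + k2))
    (e4 : A4 + P * k4 = A3 + (c3 + k3)) (e5 : A5 + P * k5 = A4 + (0 + k4)) (e6 : A6 + P * k6 = A5 + (0 + k5)) :
    k6 = 0 ∧ A6 ≡ c0 + P * c1 + P ^ 2 * c2 + P ^ 3 * c3 [MOD P - 1] := by
  have k60 : k6 = 0 := by
    rcases Nat.eq_zero_or_pos k5 with h | h
    · rw [h] at e6
      by_contra hk
      have : 1 ≤ k6 := by omega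
      have : P * 1 ≤ P * k6 := Nat.mul_le_mul_left _ this
      omega
    · have hk5' : k5 = 1 := by omega
      rw [hk5'] at e5 e6
      have : k4 ≤ 1 := hk4
      have hA5' : A5 = 0 := by
        have h1 : A5 + P = A4 + k4 := by simpa using e5
        omega
      by_contra hk
      have h1 : 1 ≤ k6 := by omega
      have h2 : P * 1 ≤ P * k6 := Nat.mul_le_mul_left _ h1
      omega
  refine ⟨k60, ?_⟩
  rw [k60] at e6
  rw [Nat.modEq_iff_dvd]
  have hP1 : ((P - 1 : ℕ) : ℤ) = (P : ℤ) - 1 := by omega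
  rw [hP1]
  refine ⟨(c1 : ℤ) + (P + 1) * c2 + (P ^ 2 + P + 1) * c3 + k1 + k2 + k3 + k4 + k5, ?_⟩
  have f1 : (A1 : ℤ) + P * k1 = c0 := by exact_mod_cast e1
  have f2 : (A2 : ℤ) + P * k2 = A1 + (c1 + k1) := by exact_mod_cast e2
  have f3 : (A3 : ℤ) + P * k3 = A2 + (c2 + k2) := by exact_mod_cast e3
  have f4 : (A4 : ℤ) + P * k4 = A3 + (c3 + k3) := by exact_mod_cast e4
  have f5 : (A5 : ℤ) + P * k5 = A4 + (0 + k4) := by exact_mod_cast e5
  have f6 : (A6 : ℤ) + P * 0 = A5 + (0 + k5) := by exact_mod_cast e6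
  push_cast
  linear_combination -f1 - f2 - f3 - f4 - f5 - f6

/-- Decomposition of a block of width `4 L` in four chunks. -/
theorem vl_four (τ : ℤ → Sym G) (a : ℤ) (L : ℕ) :
    vl τ a (4 * L) = vl τ a L + 2 ^ L * vl τ (a + L) L + (2 ^ L) ^ 2 * vl τ (a + L + L) L +
      (2 ^ L) ^ 3 * vl τ (a + L + L + L) L := by
  have e : 4 * L = L + (L + (L + L)) := by ring
  rw [e, vl_add, vl_add τ (a + L), vl_add τ (a + L + L)]
  ring

/-- Fold a block of width `4 L` of `W` into the accumulator (of width `L`). -/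
def foldB (RL Acc W Cy Z : T) : Prog T (Sym G) :=
  .seq (fillBy RL Acc .zero) (.seq (mvBy RL Acc .L) (.seq (act1 Cy (fun _ => .zero) .S)
    (.seq (faPass addOp RL Acc W .R Cy) (.seq (faPass addOp RL Acc W .R Cy)
    (.seq (faPass addOp RL Acc W .R Cy) (.seq (faPass addOp RL Acc W .R Cy)
    (.seq (faPass addOp RL Acc Z .S Cy) (faPass addOp RL Acc Z .S Cy))))))))

/-- One addition pass in natural numbers, with the source moving right. -/
theorem addW_spec (R Acc src Cy : T)
    (h1 : R ≠ Acc) (h2 : R ≠ src) (h3 : R ≠ Cy) (h4 : Acc ≠ src) (h5 : Acc ≠ Cy) (h6 : src ≠ Cy)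
    (c : TS T (Sym G)) {n : ℕ} (hR : Ruler c R n) :
    ∃ c', Run (faPass addOp R Acc src .R Cy) c c' (4 * n + 4) ∧
      c'.head Acc = c.head Acc ∧
      (∀ x, ¬ (c.head Acc ≤ x ∧ x < c.head Acc + n) → c'.tape Acc x = c.tape Acc x) ∧
      c'.head src = c.head src + n ∧ c'.tape src = c.tape src ∧
      c'.head Cy = c.head Cy ∧ (∀ x, x ≠ c.head Cy → c'.tape Cy x = c.tape Cy x) ∧
      vl (c'.tape Acc) (c.head Acc) n + 2 ^ n * (c'.read Cy).isOne.toNat =
        vl (c.tape Acc) (c.head Acc) n + (vl (c.tape src) (c.head src) n + (c.read Cy).isOne.toNat) ∧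
      Same [Acc, src, Cy] c c' := by
  obtain ⟨c', r, a1, a2, a3, a4, a5, a6, a7, a8⟩ :=
    faPass_spec addOp 1 addOp_eq R Acc src .R Cy h1 h2 h3 h4 h5 h6 c hR
  refine ⟨c', r, a1, a2, by rw [a3]; simp [Dir.toInt], a4, a5, a6, ?_, a8⟩
  rw [srcBit_R_sum] at a7
  have : ((vl (c'.tape Acc) (c.head Acc) n + 2 ^ n * (c'.read Cy).isOne.toNat : ℕ) : ℤ) =
      ((vl (c.tape Acc) (c.head Acc) n + (vl (c.tape src) (c.head src) n + (c.read Cy).isOne.toNat) : ℕ) : ℤ) := by
    push_cast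
    push_cast at a7
    linarith
  exact_mod_cast this

/-- One addition pass in natural numbers, with a stationary source reading no `one`. -/
theorem addZ_spec (R Acc src Cy : T)
    (h1 : R ≠ Acc) (h2 : R ≠ src) (h3 : R ≠ Cy) (h4 : Acc ≠ src) (h5 : Acc ≠ Cy) (h6 : src ≠ Cy)
    (c : TS T (Sym G)) {n : ℕ} (hR : Ruler c R n) (hz : (c.read src).isOne = false) :
    ∃ c', Run (faPass addOp R Acc src .S Cy) c c' (4 * n + 4) ∧
      c'.head Acc = c.head Acc ∧
      (∀ x, ¬ (c.head Acc ≤ x ∧ x < c.head Acc + n) → c'.tape Acc x = c.tape Acc x) ∧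
      c'.head Cy = c.head Cy ∧ (∀ x, x ≠ c.head Cy → c'.tape Cy x = c.tape Cy x) ∧
      vl (c'.tape Acc) (c.head Acc) n + 2 ^ n * (c'.read Cy).isOne.toNat =
        vl (c.tape Acc) (c.head Acc) n + (0 + (c.read Cy).isOne.toNat) ∧
      Same [Acc, Cy] c c' := by
  obtain ⟨c', r, a1, a2, a3, a4, a5, a6, a7, a8⟩ :=
    faPass_spec addOp 1 addOp_eq R Acc src .S Cy h1 h2 h3 h4 h5 h6 c hR
  refine ⟨c', r, a1, a2, a5, a6, ?_, ?_⟩
  · rw [srcBit_S_sum c src n hz] at a7
    have : ((vl (c'.tape Acc) (c.head Acc) n + 2 ^ n * (c'.read Cy).isOne.toNat : ℕ) : ℤ) =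
        ((vl (c.tape Acc) (c.head Acc) n + (0 + (c.read Cy).isOne.toNat) : ℕ) : ℤ) := by
      push_cast
      push_cast at a7
      linarith
    exact_mod_cast this
  · refine Same.erase (R := src) (a8.mono (by simp)) a4 ?_
    rw [a3]
    simp [Dir.toInt]

theorem foldB_spec (RL Acc W Cy Z : T)
    (h1 : RL ≠ Acc) (h2 : RL ≠ W) (h3 : RL ≠ Cy) (h4 : RL ≠ Z) (h5 : Acc ≠ W) (h6 : Acc ≠ Cy)
    (h7 : Acc ≠ Z) (h8 : W ≠ Cy) (h9 : W ≠ Z) (h10 : Cy ≠ Z)
    (c : TS T (Sym G)) {L : ℕ} (hL : 1 ≤ L) (hR : Ruler c RL L) (hz : (c.read Z).isOne = false) :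
    ∃ c', Run (foldB RL Acc W Cy Z) c c' (33 * L + 33) ∧
      c'.head Acc = c.head Acc ∧
      (∀ x, ¬ (c.head Acc ≤ x ∧ x < c.head Acc + L) → c'.tape Acc x = c.tape Acc x) ∧
      c'.head W = c.head W + 4 * L ∧ c'.tape W = c.tape W ∧
      c'.head Cy = c.head Cy ∧ (∀ x, x ≠ c.head Cy → c'.tape Cy x = c.tape Cy x) ∧
      (c'.read Cy).isOne = false ∧
      vl (c'.tape Acc) (c.head Acc) L ≡ vl (c.tape W) (c.head W) (4 * L) [MOD 2 ^ L - 1] ∧
      Same [Acc, W, Cy] c c' := by
  have nRA : RL ∉ [Acc] := by simpa using h1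
  have nRAWC : RL ∉ [Acc, W, Cy] := by simp [h1, h2, h3]
  have nRAC : RL ∉ [Acc, Cy] := by simp [h1, h3]
  have nRC : RL ∉ [Cy] := by simpa using h3
  have nZAWC : Z ∉ [Acc, W, Cy] := by simp [h7.symm, h9.symm, h10.symm]
  have nZAC : Z ∉ [Acc, Cy] := by simp [h7.symm, h10.symm]
  have nWAC : W ∉ [Acc, Cy] := by simp [h5.symm, h8]
  have nWA : W ∉ [Acc] := by simpa using h5.symm
  have nWC : W ∉ [Cy] := by simpa using h8
  have nCA : Cy ∉ [Acc] := by simpa using h6.symm
  have nAC : Acc ∉ [Cy] := by simpa using h6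
  have nZA : Z ∉ [Acc] := by simpa using h7.symm
  have nZC : Z ∉ [Cy] := by simpa using h10.symm
  -- initialise the accumulator and the carry
  obtain ⟨c1, r1, e1, t1, s1⟩ := fillBy_spec RL Acc .zero h1 c hR
  obtain ⟨c2, r2, e2, t2, s2⟩ := mvBy_spec RL Acc .L h1 (by simp) c1 (hR.of_same s1 nRA)
  obtain ⟨c3, r3, e3, t3, s3⟩ := act1_spec Cy (fun _ => .zero) .S c2
  have hR3 : Ruler c3 RL L := ((hR.of_same s1 nRA).of_same s2 nRA).of_same s3 nRC
  have eha : c3.head Acc = c.head Acc := by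
    rw [s3.head nAC, e2, e1]
    simp [Dir.toInt]
  have ehW : c3.head W = c.head W := by rw [s3.head nWC, s2.head nWA, s1.head nWA]
  have etW : c3.tape W = c.tape W := by rw [s3.tape nWC, s2.tape nWA, s1.tape nWA]
  have ehC3 : c3.head Cy = c.head Cy := by
    rw [e3, s2.head nCA, s1.head nCA]
    simp [Dir.toInt]
  have hread3 : (c3.read Cy).isOne = false := by
    simp only [TS.read]
    rw [t3, e3]
    simp [Dir.toInt]
  have hz3 : (c3.read Z).isOne = false := by
    simp only [TS.read] at hz ⊢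
    rw [s3.tape nZC, s3.head nZC, s2.tape nZA, s2.head nZA, s1.tape nZA, s1.head nZA]
    exact hz
  have hA3 : vl (c3.tape Acc) (c.head Acc) L = 0 := by
    apply vl_eq_zero
    intro i hi
    rw [s3.tape nAC, t2, t1 _, if_pos (by omega)]
    rfl
  have oA3 : ∀ x, ¬ (c.head Acc ≤ x ∧ x < c.head Acc + L) → c3.tape Acc x = c.tape Acc x := by
    intro x hx
    rw [s3.tape nAC, t2, t1 _, if_neg hx]
  have oC3 : ∀ x, x ≠ c.head Cy → c3.tape Cy x = c.tape Cy x := by
    intro x hx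
    rw [t3, if_neg (by rw [s2.head nCA, s1.head nCA]; exact hx), s2.tape nCA, s1.tape nCA]
  -- the passes
  obtain ⟨c4, r4, a1, a2, a3, a4, a5, a6, a7, a8⟩ := addW_spec RL Acc W Cy h1 h2 h3 h5 h6 h8 c3 hR3
  have hR4 := hR3.of_same a8 nRAWC
  obtain ⟨c5, r5, b1, b2, b3, b4, b5, b6, b7, b8⟩ := addW_spec RL Acc W Cy h1 h2 h3 h5 h6 h8 c4 hR4
  have hR5 := hR4.of_same b8 nRAWC
  obtain ⟨c6, r6, d1, d2, d3, d4, d5, d6, d7, d8⟩ := addW_spec RL Acc W Cy h1 h2 h3 h5 h6 h8 c5 hR5
  have hR6 := hR5.of_same d8 nRAWC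
  obtain ⟨c7, r7, f1, f2, f3, f4, f5, f6, f7, f8⟩ := addW_spec RL Acc W Cy h1 h2 h3 h5 h6 h8 c6 hR6
  have hR7 := hR6.of_same f8 nRAWC
  have hz7 : (c7.read Z).isOne = false := by
    have : c7.read Z = c3.read Z := by
      simp only [TS.read]
      rw [f8.tape nZAWC, f8.head nZAWC, d8.tape nZAWC, d8.head nZAWC, b8.tape nZAWC, b8.head nZAWC,
        a8.tape nZAWC, a8.head nZAWC]
    rw [this]; exact hz3
  obtain ⟨c8, r8, g1, g2, g3, g4, g5, g6⟩ := addZ_spec RL Acc Z Cy h1 h4 h3 h7 h6 h10.symm c7 hR7 hz7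
  have hR8 := hR7.of_same g6 nRAC
  have hz8 : (c8.read Z).isOne = false := by
    have : c8.read Z = c7.read Z := by
      simp only [TS.read]
      rw [g6.tape nZAC, g6.head nZAC]
    rw [this]; exact hz7
  obtain ⟨c9, r9, i1, i2, i3, i4, i5, i6⟩ := addZ_spec RL Acc Z Cy h1 h4 h3 h7 h6 h10.symm c8 hR8 hz8
  -- heads of the accumulator
  have hA4 : c4.head Acc = c.head Acc := a1.trans eha
  have hA5 : c5.head Acc = c.head Acc := b1.trans hA4
  have hA6 : c6.head Acc = c.head Acc := d1.trans hA5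
  have hA7 : c7.head Acc = c.head Acc := f1.trans hA6
  have hA8 : c8.head Acc = c.head Acc := g1.trans hA7
  have hA9 : c9.head Acc = c.head Acc := i1.trans hA8
  rw [eha] at a2 a7
  rw [hA4] at b2 b7
  rw [hA5] at d2 d7
  rw [hA6] at f2 f7
  rw [hA7] at g2 g5
  rw [hA8] at i2 i5
  -- heads and contents of the data tape
  have hW4 : c4.head W = c.head W + L := by rw [a3, ehW]
  have hW5 : c5.head W = c.head W + L + L := by rw [b3, hW4]
  have hW6 : c6.head W = c.head W + L + L + L := by rw [d3, hW5]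
  have hW7 : c7.head W = c.head W + L + L + L + L := by rw [f3, hW6]
  have tW4 : c4.tape W = c.tape W := a4.trans etW
  have tW5 : c5.tape W = c.tape W := b4.trans tW4
  have tW6 : c6.tape W = c.tape W := d4.trans tW5
  have tW7 : c7.tape W = c.tape W := f4.trans tW6
  rw [etW, ehW] at a7
  rw [tW4, hW4] at b7
  rw [tW5, hW5] at d7
  rw [tW6, hW6] at f7
  -- the carry cell
  have hC4 : c4.head Cy = c.head Cy := a5.trans ehC3
  have hC5 : c5.head Cy = c.head Cy := b5.trans hC4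
  have hC6 : c6.head Cy = c.head Cy := d5.trans hC5
  have hC7 : c7.head Cy = c.head Cy := f5.trans hC6
  have hC8 : c8.head Cy = c.head Cy := g3.trans hC7
  have hC9 : c9.head Cy = c.head Cy := i3.trans hC8
  have nCAWC : ∀ b : Bool, b.toNat ≤ 1 := fun b => Bool.toNat_le b
  have hPow : 2 ≤ 2 ^ L := by
    calc 2 = 2 ^ 1 := by norm_num
      _ ≤ 2 ^ L := Nat.pow_le_pow_right (by norm_num) hL
  rw [hread3, hA3] at a7
  simp only [Bool.toNat_false, add_zero, zero_add] at a7
  have hfold := fold_arith (P := 2 ^ L) hPow (vl_lt (c7.tape Acc) _ L) (vl_lt (c8.tape Acc) _ L)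
    (nCAWC _) (nCAWC _) (nCAWC _) a7 b7 d7 f7 g5 i5
  have e4 : vl (c.tape W) (c.head W) (4 * L) = _ := vl_four (c.tape W) (c.head W) L
  refine ⟨c9, ?_, hA9, ?_, ?_, ?_, hC9, ?_, ?_, ?_, ?_⟩
  · refine (r1.seq (r2.seq (r3.seq (r4.seq (r5.seq (r6.seq (r7.seq (r8.seq r9)))))))).mono ?_
    omega
  · intro x hx
    rw [i2 x hx, g2 x hx, f2 x hx, d2 x hx, b2 x hx, a2 x hx, oA3 x hx]
  · rw [i6.head (by simpa using ⟨h5.symm, h8⟩), g6.head (by simpa using ⟨h5.symm, h8⟩), hW7]
    push_cast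
    ring
  · rw [i6.tape (by simpa using ⟨h5.symm, h8⟩), g6.tape (by simpa using ⟨h5.symm, h8⟩), tW7]
  · intro x hx
    rw [i4 x (by rw [hC8]; exact hx), g4 x (by rw [hC7]; exact hx), f6 x (by rw [hC6]; exact hx),
      d6 x (by rw [hC5]; exact hx), b6 x (by rw [hC4]; exact hx), a6 x (by rw [ehC3]; exact hx), oC3 x hx]
  · have := hfold.1
    cases hb : (c9.read Cy).isOne
    · rfl
    · rw [hb] at this
      simp at this
  · rw [e4]
    exact hfold.2
  · exact (s1.trans (s2.trans (s3.trans (a8.trans (b8.trans (d8.trans (f8.trans (g6.trans i6)))))))).mono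
      (by simp)

/-- Rotation: the block of `Y` gets the block of `Acc` rotated to the right by `L - E`, that is,
`Y * 2 ^ E ≡ Acc` modulo `2 ^ L - 1`. -/
def rotL (TE Acc Y : T) : Prog T (Sym G) :=
  .seq (sc1 Sym.isOne TE .R Acc .R fun _ x => x)
    (.seq (sc2 Sym.isZero TE .R Acc .R Y .R fun x => Sym.ofBit x.isOne)
    (.seq (rewM TE Acc .L)
    (.seq (sc2 Sym.isOne TE .R Acc .R Y .R fun x => Sym.ofBit x.isOne)
    (rewM TE Acc .L))))

theorem rot_arith (L E lo hi : ℕ) (hE : E ≤ L) :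
    (hi + 2 ^ (L - E) * lo) * 2 ^ E ≡ lo + 2 ^ E * hi [MOD 2 ^ L - 1] := by
  have hP : 1 ≤ 2 ^ L := Nat.one_le_two_pow
  have e : (hi + 2 ^ (L - E) * lo) * 2 ^ E = 2 ^ E * hi + 2 ^ L * lo := by
    have : 2 ^ L = 2 ^ (L - E) * 2 ^ E := by rw [← pow_add]; congr 1; omega
    rw [this]; ring
  rw [e]
  have h1 : 2 ^ L ≡ 1 [MOD 2 ^ L - 1] := by
    rw [Nat.modEq_iff_dvd]
    refine ⟨-1, ?_⟩
    push_cast [Nat.cast_sub hP]
    ring
  have h2 : 2 ^ L * lo ≡ 1 * lo [MOD 2 ^ L - 1] := h1.mul_right lo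
  rw [one_mul] at h2
  have h3 := (Nat.ModEq.refl (n := 2 ^ L - 1) (2 ^ E * hi)).add h2
  rw [add_comm lo]
  exact h3

theorem rotL_spec (TE Acc Y : T) (h1 : TE ≠ Acc) (h2 : TE ≠ Y) (h3 : Acc ≠ Y)
    (c : TS T (Sym G)) {L E : ℕ} (hE : E ≤ L) (hTE : Cyc c TE L E) :
    ∃ c', Run (rotL TE Acc Y) c c' (8 * L + 12) ∧ c'.tape Acc = c.tape Acc ∧
      c'.head Acc = c.head Acc ∧ c'.head Y = c.head Y + L ∧
      (∀ x, ¬ (c.head Y ≤ x ∧ x < c.head Y + L) → c'.tape Y x = c.tape Y x) ∧
      vl (c'.tape Y) (c.head Y) L * 2 ^ E ≡ vl (c.tape Acc) (c.head Acc) L [MOD 2 ^ L - 1] ∧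
      Same [Acc, Y] c c' := by
  obtain ⟨hT, hH⟩ := hTE
  have nTY : TE ∉ [Y] := by simpa using h2
  -- step 1: the accumulator moves to offset E
  obtain ⟨c1, r1, e1, t1, e2, hit1, miss1, s1⟩ := sc1_spec Sym.isOne TE .R Acc .R (fun _ x => x) h1
    (by simp) (by simp) c E
    (by
      intro i hi
      rw [hT, hH]
      simp only [Dir.toInt, mul_one, zero_add]
      rw [crun_one hi]
      rfl)
    (by
      rw [hT, hH]
      simp only [Dir.toInt, mul_one, zero_add]
      by_cases hh : E < L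
      · rw [crun_zero le_rfl hh]; rfl
      · rw [crun_blank hE (by right; omega)]; rfl)
  have tA1 : c1.tape Acc = c.tape Acc := same_of_hit_miss hit1 miss1
  have hT1 : c1.tape TE = crun L E := t1.trans hT
  have hH1 : c1.head TE = E := by rw [e1, hH]; simp [Dir.toInt]
  have hA1 : c1.head Acc = c.head Acc + E := by rw [e2]; simp [Dir.toInt]
  have hY1 : c1.head Y = c.head Y := s1.head (by simp [h2.symm, h3.symm])
  have tY1 : c1.tape Y = c.tape Y := s1.tape (by simp [h2.symm, h3.symm])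
  -- step 2: copy the high part
  obtain ⟨c2, r2, e3, t2, e4, t3, e5, hit2, miss2, s2⟩ := sc2_spec Sym.isZero TE .R Acc .R Y .R
    (fun x => Sym.ofBit x.isOne) h1 h2 h3 (by simp) (by simp) (by simp) c1 (L - E)
    (by
      intro i hi
      rw [hT1, hH1]
      simp only [Dir.toInt, mul_one]
      have : (E : ℤ) + (i : ℤ) = ((E + i : ℕ) : ℤ) := by push_cast; ring
      rw [this, crun_zero (by omega) (by omega)]
      rfl)
    (by
      rw [hT1, hH1]
      simp only [Dir.toInt, mul_one]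
      have : (E : ℤ) + ((L - E : ℕ) : ℤ) = (L : ℤ) := by omega
      rw [this, crun_blank hE (by right; exact le_rfl)]
      rfl)
  have hH2 : c2.head TE = L := by
    rw [e3, hH1]
    simp only [Dir.toInt, mul_one]
    omega
  have hT2 : c2.tape TE = crun L E := t2.trans hT1
  -- step 3: back
  obtain ⟨c3, r3, e6, e7, e8, t4, s3⟩ := rewM_spec TE Acc .L h1 (by simp) c2 L hH2
    (by
      intro i hi
      rw [hT2]
      exact crun_nonBlank hE hi)
    (by rw [hT2]; exact crun_blank hE (by left; omega))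
  have hT3 : c3.tape TE = crun L E := e7.trans hT2
  have hA3 : c3.head Acc = c.head Acc := by
    rw [e8, e4, hA1]
    simp only [Dir.toInt]
    push_cast [Nat.cast_sub hE]
    ring
  have tA3 : c3.tape Acc = c.tape Acc := by rw [t4, t3, tA1]
  have hY3 : c3.head Y = c.head Y + (L - E : ℕ) := by
    rw [s3.head (by simp [h2.symm, h3.symm]), e5, hY1]
    simp [Dir.toInt]
  have tY3 : c3.tape Y = c2.tape Y := s3.tape (by simp [h2.symm, h3.symm])
  -- step 4: copy the low part
  obtain ⟨c4, r4, e9, t5, e10, t6, e11, hit4, miss4, s4⟩ := sc2_spec Sym.isOne TE .R Acc .R Y .R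
    (fun x => Sym.ofBit x.isOne) h1 h2 h3 (by simp) (by simp) (by simp) c3 E
    (by
      intro i hi
      rw [hT3, e6]
      simp only [Dir.toInt, mul_one, zero_add]
      rw [crun_one hi]
      rfl)
    (by
      rw [hT3, e6]
      simp only [Dir.toInt, mul_one, zero_add]
      by_cases hh : E < L
      · rw [crun_zero le_rfl hh]; rfl
      · rw [crun_blank hE (by right; omega)]; rfl)
  have hH4 : c4.head TE = E := by rw [e9, e6]; simp [Dir.toInt]
  have hT4 : c4.tape TE = crun L E := t5.trans hT3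
  -- step 5: back
  obtain ⟨c5, r5, e12, e13, e14, t7, s5⟩ := rewM_spec TE Acc .L h1 (by simp) c4 E hH4
    (by
      intro i hi
      rw [hT4]
      exact crun_nonBlank hE (by omega))
    (by rw [hT4]; exact crun_blank hE (by left; omega))
  have tY5 : c5.tape Y = c4.tape Y := s5.tape (by simp [h2.symm, h3.symm])
  have hY5 : c5.head Y = c.head Y + L := by
    rw [s5.head (by simp [h2.symm, h3.symm]), e11, hY3]
    simp only [Dir.toInt]
    push_cast [Nat.cast_sub hE]
    ring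
  have hA5 : c5.head Acc = c.head Acc := by
    rw [e14, e10, hA3]
    simp [Dir.toInt]
  refine ⟨c5, (r1.seq (r2.seq (r3.seq (r4.seq r5)))).mono (by omega), ?_, hA5, hY5, ?_, ?_, ?_⟩
  · rw [t7, t6, tA3]
  · intro x hx
    rw [tY5, miss4, tY3, miss2, tY1]
    · rw [hY1]
      intro j hj he
      simp only [Dir.toInt, mul_one] at he
      apply hx
      omega
    · rw [hY3]
      intro j hj he
      simp only [Dir.toInt, mul_one] at he
      apply hx
      omega
  · -- the value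
    have e15 : L = (L - E) + E := by omega
    have vY : vl (c5.tape Y) (c.head Y) L =
        vl (c.tape Acc) (c.head Acc + E) (L - E) + 2 ^ (L - E) * vl (c.tape Acc) (c.head Acc) E := by
      conv_lhs => rw [e15, vl_add]
      congr 1
      · apply vl_congr
        intro i hi
        have hx : c.head Y + (i : ℤ) = c1.head Y + (i : ℤ) * Dir.R.toInt := by
          rw [hY1]; simp [Dir.toInt]
        rw [tY5, hx, miss4, tY3, hit2 i hi, hA1, tA1]
        · simp [Dir.toInt]
        · rw [hY3]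
          intro j hj he
          simp only [Dir.toInt, mul_one] at he
          rw [hY1] at he
          omega
      · congr 1
        apply vl_congr
        intro i hi
        have hx : c.head Y + ((L - E : ℕ) : ℤ) + (i : ℤ) = c3.head Y + (i : ℤ) * Dir.R.toInt := by
          rw [hY3]; simp [Dir.toInt]
        rw [tY5, hx, hit4 i hi, hA3, tA3]
        simp [Dir.toInt]
    have vA : vl (c.tape Acc) (c.head Acc) L =
        vl (c.tape Acc) (c.head Acc) E + 2 ^ E * vl (c.tape Acc) (c.head Acc + E) (L - E) := by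
      have e16 : L = E + (L - E) := by omega
      conv_lhs => rw [e16, vl_add]
    rw [vY, vA]
    exact rot_arith L E _ _ hE
  · refine Same.erase (R := TE) ((s1.trans (s2.trans (s3.trans (s4.trans s5)))).mono (by simp)) ?_ ?_
    · rw [e13, hT4, hT]
    · rw [e12, hH]

/-- A single-bit block: `E` zeros, a one, `L - E` zeros. The head of `TE` returns. -/
def kBlock (TE Y : T) : Prog T (Sym G) :=
  .seq (sc1 Sym.isOne TE .R Y .R fun _ _ => .zero) (.seq (act1 Y (fun _ => .one) .R)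
    (.seq (sc1 Sym.isZero TE .R Y .R fun _ _ => .zero) (rew TE)))

theorem vl_single {τ : ℤ → Sym G} {a : ℤ} {w E : ℕ} (hE : E < w) (h1 : τ (a + E) = .one)
    (h0 : ∀ i : ℕ, i < w → i ≠ E → (τ (a + i)).isOne = false) : vl τ a w = 2 ^ E := by
  unfold vl
  have : ∀ i ∈ Finset.range w, (τ (a + i)).isOne.toNat * 2 ^ i = if i = E then 2 ^ i else 0 := by
    intro i hi
    by_cases hiE : i = E
    · rw [if_pos hiE, hiE, h1]
      simp
    · rw [if_neg hiE, h0 i (Finset.mem_range.1 hi) hiE]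
      simp
  rw [Finset.sum_congr rfl this, Finset.sum_ite_eq']
  simp [hE]

theorem kBlock_spec (TE Y : T) (h1 : TE ≠ Y) (c : TS T (Sym G)) {L E : ℕ} (hE : E ≤ L)
    (hTE : Cyc c TE L E) :
    ∃ c', Run (kBlock TE Y) c c' (4 * L + 6) ∧ c'.head Y = c.head Y + L + 1 ∧
      (∀ x, c'.tape Y x = if c.head Y ≤ x ∧ x < c.head Y + L + 1 then
          (if x = c.head Y + E then .one else .zero) else c.tape Y x) ∧
      Same [Y] c c' := by
  obtain ⟨hT, hH⟩ := hTE
  obtain ⟨c1, r1, e1, t1, e2, hit1, miss1, s1⟩ := sc1_spec Sym.isOne TE .R Y .R (fun _ _ => .zero) h1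
    (by simp) (by simp) c E
    (by
      intro i hi
      rw [hT, hH]
      simp only [Dir.toInt, mul_one, zero_add]
      rw [crun_one hi]
      rfl)
    (by
      rw [hT, hH]
      simp only [Dir.toInt, mul_one, zero_add]
      by_cases hh : E < L
      · rw [crun_zero le_rfl hh]; rfl
      · rw [crun_blank hE (by right; omega)]; rfl)
  have nTY : TE ∉ [Y] := by simpa using h1
  obtain ⟨c2, r2, e3, t2, s2⟩ := act1_spec Y (fun _ => .one) .R c1
  have hT2 : c2.tape TE = crun L E := by rw [s2.tape nTY, t1, hT]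
  have hH2 : c2.head TE = E := by rw [s2.head nTY, e1, hH]; simp [Dir.toInt]
  have hY1 : c1.head Y = c.head Y + E := by rw [e2]; simp [Dir.toInt]
  have hY2 : c2.head Y = c.head Y + E + 1 := by rw [e3, hY1]; simp [Dir.toInt]
  obtain ⟨c3, r3, e4, t3, e5, hit3, miss3, s3⟩ := sc1_spec Sym.isZero TE .R Y .R (fun _ _ => .zero) h1
    (by simp) (by simp) c2 (L - E)
    (by
      intro i hi
      rw [hT2, hH2]
      simp only [Dir.toInt, mul_one]
      have : (E : ℤ) + (i : ℤ) = ((E + i : ℕ) : ℤ) := by push_cast; ring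
      rw [this, crun_zero (by omega) (by omega)]
      rfl)
    (by
      rw [hT2, hH2]
      simp only [Dir.toInt, mul_one]
      have : (E : ℤ) + ((L - E : ℕ) : ℤ) = (L : ℤ) := by omega
      rw [this, crun_blank hE (by right; exact le_rfl)]
      rfl)
  have hH3 : c3.head TE = (L : ℕ) := by
    rw [e4, hH2]
    simp only [Dir.toInt, mul_one]
    omega
  have hT3 : c3.tape TE = crun L E := t3.trans hT2
  obtain ⟨c4, r4, e6, t4, s4⟩ := rew_spec TE c3 L hH3
    (by
      intro i hi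
      rw [hT3]
      exact crun_nonBlank hE hi)
    (by rw [hT3]; exact crun_blank hE (by left; omega))
  have tY4 : c4.tape Y = c3.tape Y := s4.tape (by simpa using h1.symm)
  refine ⟨c4, (r1.seq (r2.seq (r3.seq r4))).mono (by omega), ?_, ?_, ?_⟩
  · rw [s4.head (by simpa using h1.symm), e5, hY2]
    simp only [Dir.toInt, mul_one]
    omega
  · intro x
    rw [tY4]
    by_cases hx3 : c.head Y + E + 1 ≤ x ∧ x < c.head Y + L + 1
    · -- last part
      have := hit3 (x - (c.head Y + E + 1)).toNat (by omega)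
      rw [hY2] at this
      simp only [Dir.toInt, mul_one] at this
      have e7 : c.head Y + E + 1 + ((x - (c.head Y + E + 1)).toNat : ℤ) = x := by omega
      rw [e7] at this
      rw [this, if_pos (by omega), if_neg (by omega)]
    · rw [miss3 x (by
        rw [hY2]
        intro j hj he
        simp only [Dir.toInt, mul_one] at he
        apply hx3
        omega), t2, hY1]
      by_cases hx2 : x = c.head Y + E
      · rw [if_pos hx2, if_pos (by omega), if_pos hx2]
      · rw [if_neg hx2]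
        by_cases hx1 : c.head Y ≤ x ∧ x < c.head Y + E
        · have := hit1 (x - c.head Y).toNat (by omega)
          simp only [Dir.toInt, mul_one] at this
          have e7 : c.head Y + ((x - c.head Y).toNat : ℤ) = x := by omega
          rw [e7] at this
          rw [this, if_pos (by omega), if_neg hx2]
        · rw [miss1 x (by
            intro j hj he
            simp only [Dir.toInt, mul_one] at he
            apply hx1
            omega), if_neg (by omega)]
  · refine Same.erase (R := TE) ((s1.trans (s2.trans (s3.trans s4))).mono (by simp)) ?_ ?_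
    · rw [t4, hT3, hT]
    · rw [e6, hH]

end

end Vale.Agent.Lib.P338
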