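import Vale.Agent.Lib.P338.Kernel

/-!
The expansion stage: the data of one segment is spread over the blocks of `W3`.
-/

namespace Vale.Agent.Lib.P338

open Prog

section stage
variable {X G : Type} [DecidableEq X]

/-- Read `e` bits of the segment, or write zeros outside the grid; then pad the block. -/
def expandInner : Prog (Own ⊕ X) (Sym G) :=
  .seq (.ite (fun s => (s (o .Rp)).isOne && (s (o .Rq)).isOne)
      (copyD (o .Re) (o .D) .R (o .W3) .R fun x => Sym.ofBit x.isOne) (fillBy (o .Re) (o .W3) .zero))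
    (.seq (.ite (fun s => (s (o .Rq)).isOne) (mv (o .Rq) .R) skip) (fillBy (o .RBe) (o .W3) .zero))

/-- One row of the grid. -/
def expandOuter : Prog (Own ⊕ X) (Sym G) :=
  .seq (forR (o .RQ) expandInner)
    (.seq (rew (o .Rq)) (.ite (fun s => (s (o .Rp)).isOne) (mv (o .Rp) .R) skip))

/-- The expansion stage. -/
def expand : Prog (Own ⊕ X) (Sym G) :=
  .seq (mvBy (o .RN1B) (o .W3) .R) (.seq (forR (o .RP) expandOuter) (.seq (rew (o .Rp))
    (.seq (mvBy (o .R2NB) (o .W3) .L) (mvBy (o .RS) (o .D) .L))))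

/-- The number of data elements read before position `(i, j)` of the grid. -/
def cntX (p q i j : ℕ) : ℕ := min i p * q + if i < p then min j q else 0

/-- The value of block `n` after expansion. -/
def exX (τ : ℤ → Sym G) (h : ℤ) (p q e Q n : ℕ) : ℕ :=
  if n / Q < p ∧ n % Q < q then vl τ (h + ((n / Q * q + n % Q) * e : ℕ)) e else 0

theorem exX_lt (τ : ℤ → Sym G) (h : ℤ) (p q e Q n : ℕ) : exX τ h p q e Q n < 2 ^ e := by
  unfold exX
  split_ifs
  · exact vl_lt _ _ _
  · exact Nat.two_pow_pos e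

theorem expandInner_spec (c : TS (Own ⊕ X) (Sym G)) {p q e B Q i j N1 : ℕ} {h : ℤ} {τ : ℤ → Sym G}
    (hj : j < Q) (heB : e ≤ B) (hq : q ≤ Q)
    (hD : c.head (o .D) = h + (cntX p q i j * e : ℕ)) (tD : c.tape (o .D) = τ)
    (hW : c.head (o .W3) = ((N1 + i * Q + j) * B : ℕ))
    (tRq : c.tape (o .Rq) = runT q) (hRq : c.head (o .Rq) = (min j q : ℕ))
    (tRp : c.tape (o .Rp) = runT p) (hRp : c.head (o .Rp) = (min i p : ℕ))
    (hRe : Ruler c (o .Re) e) (hRBe : Ruler c (o .RBe) (B - e)) :
    ∃ c', Run (expandInner : Prog (Own ⊕ X) (Sym G)) c c' (4 * B + 11) ∧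
      c'.head (o .D) = h + (cntX p q i (j + 1) * e : ℕ) ∧ c'.tape (o .D) = τ ∧
      c'.head (o .W3) = ((N1 + i * Q + (j + 1)) * B : ℕ) ∧
      c'.tape (o .Rq) = runT q ∧ c'.head (o .Rq) = (min (j + 1) q : ℕ) ∧
      (∀ x, ¬ (c.head (o .W3) ≤ x ∧ x < c.head (o .W3) + B) → c'.tape (o .W3) x = c.tape (o .W3) x) ∧
      vl (c'.tape (o .W3)) (c.head (o .W3)) B = exX τ h p q e Q (i * Q + j) ∧
      Same [o .D, o .W3, o .Rq] c c' := by
  have hQpos : 0 < Q := by omega
  have hdiv : (i * Q + j) / Q = i := by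
    rw [Nat.add_comm, Nat.add_mul_div_right _ _ hQpos, Nat.div_eq_of_lt hj, zero_add]
  have hmod : (i * Q + j) % Q = j := by
    rw [Nat.add_comm, Nat.add_mul_mod_self_right, Nat.mod_eq_of_lt hj]
  have ehW : (((N1 + i * Q + (j + 1)) * B : ℕ) : ℤ) = ((N1 + i * Q + j) * B : ℕ) + (B : ℤ) := by
    push_cast
    ring
  by_cases hg : i < p ∧ j < q
  · -- inside the grid
    obtain ⟨hi, hjq⟩ := hg
    have eP : min i p = i := by omega
    have eQ : min j q = j := by omega
    have rd1 : (c.read (o .Rp)).isOne = true := by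
      simp only [TS.read, tRp, hRp, eP]
      rw [cast_runT_in hi]
      rfl
    have rd2 : (c.read (o .Rq)).isOne = true := by
      simp only [TS.read, tRq, hRq, eQ]
      rw [cast_runT_in hjq]
      rfl
    obtain ⟨c1, r1, a1, a2, a3, a4, a5, a6⟩ := copyD_spec (o .Re) (o .D) .R (o .W3) .R
      (fun x => Sym.ofBit x.isOne) (by simp) (by simp) (by simp) (by simp) (by simp) c hRe
    have r1' := Run.iteT (b := fillBy (o .Re) (o .W3) .zero)
      (g := fun s => (s (o .Rp)).isOne && (s (o .Rq)).isOne) (by simp [rd1, rd2]) r1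
    have rd3 : (c1.read (o .Rq)).isOne = true := by
      simp only [TS.read] at rd2 ⊢
      rw [a6.tape (by simp), a6.head (by simp)]
      exact rd2
    obtain ⟨c2, r2, b1, b2, b3⟩ := mv_spec (o .Rq) .R c1
    have r2' := Run.iteT (b := skip) (g := fun s => (s (o .Rq)).isOne) rd3 r2
    obtain ⟨c3, r3, d1, d2, d3⟩ := fillBy_spec (o .RBe) (o .W3) .zero (by simp) c2
      ((hRBe.of_same a6 (by simp)).of_same b3 (by simp))
    have h2W : c2.head (o .W3) = c.head (o .W3) + e := by
      rw [b3.head (by simp), a3]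
      simp [Dir.toInt]
    have t3 : ∀ x, c3.tape (o .W3) x = if c.head (o .W3) + e ≤ x ∧ x < c.head (o .W3) + B then .zero
        else if c.head (o .W3) ≤ x ∧ x < c.head (o .W3) + e then
          Sym.ofBit (c.tape (o .D) (c.head (o .D) + (x - c.head (o .W3)))).isOne
        else c.tape (o .W3) x := by
      intro x
      rw [d2, h2W, b3.tape (by simp)]
      have hBe : ((B - e : ℕ) : ℤ) = (B : ℤ) - e := by omega
      rw [hBe]
      by_cases hx : c.head (o .W3) + e ≤ x ∧ x < c.head (o .W3) + B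
      · rw [if_pos (by omega), if_pos hx]
      · rw [if_neg (by omega), if_neg hx]
        by_cases hx2 : c.head (o .W3) ≤ x ∧ x < c.head (o .W3) + e
        · rw [if_pos hx2]
          have := a4 (x - c.head (o .W3)).toNat (by omega)
          simp only [Dir.toInt, mul_one] at this
          have e1 : c.head (o .W3) + ((x - c.head (o .W3)).toNat : ℤ) = x := by omega
          have e2 : ((x - c.head (o .W3)).toNat : ℤ) = x - c.head (o .W3) := by omega
          rw [e1, e2] at this
          exact this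
        · rw [if_neg hx2]
          apply a5
          intro j' hj' he
          simp only [Dir.toInt, mul_one] at he
          apply hx2
          omega
    refine ⟨c3, ?_, ?_, ?_, ?_, ?_, ?_, ?_, ?_, (a6.trans (b3.trans d3)).mono (by simp)⟩
    · refine (r1'.seq (r2'.seq r3)).mono ?_
      omega
    · rw [d3.head (by simp), b3.head (by simp), a1, hD]
      simp only [cntX, if_pos hi, Dir.toInt, eP, eQ]
      have : min (j + 1) q = j + 1 := by omega
      rw [this]
      push_cast
      ring
    · rw [d3.tape (by simp), b3.tape (by simp), a2, tD]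
    · rw [d1, h2W, hW, ehW]
      have hBe : ((B - e : ℕ) : ℤ) = (B : ℤ) - e := by omega
      rw [hBe]
      ring
    · rw [d3.tape (by simp), b2, a6.tape (by simp), tRq]
    · rw [d3.head (by simp), b1, a6.head (by simp), hRq, eQ]
      have : min (j + 1) q = j + 1 := by omega
      rw [this]
      simp [Dir.toInt]
    · intro x hx
      rw [t3, if_neg (by omega), if_neg (by omega)]
    · -- the value
      have e1 : B = e + (B - e) := by omega
      rw [show vl (c3.tape (o .W3)) (c.head (o .W3)) B =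
          vl (c3.tape (o .W3)) (c.head (o .W3)) (e + (B - e)) from by rw [← e1], vl_add]
      have z : vl (c3.tape (o .W3)) (c.head (o .W3) + e) (B - e) = 0 := by
        apply vl_eq_zero
        intro i' hi'
        rw [t3, if_pos (by omega)]
        rfl
      rw [z, mul_zero, add_zero]
      unfold exX
      rw [hdiv, hmod, if_pos ⟨hi, hjq⟩]
      apply vl_congr
      intro i' hi'
      rw [t3, if_neg (by omega), if_pos (by omega)]
      have e3 : c.head (o .W3) + (i' : ℤ) - c.head (o .W3) = i' := by ring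
      rw [e3, Sym.isOne_ofBit, tD, hD]
      simp only [cntX, if_pos hi, eP, eQ]
  · -- outside the grid
    have rdg : ((c.read (o .Rp)).isOne && (c.read (o .Rq)).isOne) = false := by
      by_cases hi : i < p
      · have hjq : ¬ j < q := fun h => hg ⟨hi, h⟩
        have : (c.read (o .Rq)).isOne = false := by
          simp only [TS.read, tRq, hRq]
          have eQ : min j q = q := by omega
          rw [eQ, runT_out (by right; exact le_rfl)]
          rfl
        simp [this]
      · have : (c.read (o .Rp)).isOne = false := by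
          simp only [TS.read, tRp, hRp]
          have eP : min i p = p := by omega
          rw [eP, runT_out (by right; exact le_rfl)]
          rfl
        simp [this]
    obtain ⟨c1, r1, a1, a2, a3⟩ := fillBy_spec (o .Re) (o .W3) .zero (by simp) c hRe
    have r1' := Run.iteF (a := copyD (o .Re) (o .D) .R (o .W3) .R fun x => Sym.ofBit x.isOne)
      (g := fun s => (s (o .Rp)).isOne && (s (o .Rq)).isOne) rdg r1
    -- the pointer of the row
    have hrdq : c1.read (o .Rq) = c.read (o .Rq) := by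
      simp only [TS.read]
      rw [a3.tape (by simp), a3.head (by simp)]
    obtain ⟨c2, r2, b1, b2, b3, b4⟩ : ∃ c2, Run (.ite (fun s => (s (o .Rq)).isOne) (mv (o .Rq) .R) skip) c1 c2 2 ∧
        c2.tape (o .Rq) = runT q ∧ c2.head (o .Rq) = (min (j + 1) q : ℕ) ∧
        (c2.head (o .W3) = c1.head (o .W3) ∧ c2.tape (o .W3) = c1.tape (o .W3)) ∧ Same [o .Rq] c1 c2 := by
      by_cases hjq : j < q
      · have rd3 : (c1.read (o .Rq)).isOne = true := by
          rw [hrdq]
          simp only [TS.read, tRq, hRq]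
          have eQ : min j q = j := by omega
          rw [eQ, cast_runT_in hjq]
          rfl
        obtain ⟨c2, r2, b1, b2, b3⟩ := mv_spec (o .Rq) .R c1
        refine ⟨c2, Run.iteT rd3 r2, ?_, ?_, ⟨b3.head (by simp), b3.tape (by simp)⟩, b3⟩
        · rw [b2, a3.tape (by simp), tRq]
        · rw [b1, a3.head (by simp), hRq]
          have eQ : min j q = j := by omega
          have eQ2 : min (j + 1) q = j + 1 := by omega
          rw [eQ, eQ2]
          simp [Dir.toInt]
      · have rd3 : (c1.read (o .Rq)).isOne = false := by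
          rw [hrdq]
          simp only [TS.read, tRq, hRq]
          have eQ : min j q = q := by omega
          rw [eQ, runT_out (by right; exact le_rfl)]
          rfl
        refine ⟨c1, Run.iteF rd3 (skip_spec c1), ?_, ?_, ⟨rfl, rfl⟩, Same.refl _ _⟩
        · rw [a3.tape (by simp), tRq]
        · rw [a3.head (by simp), hRq]
          have eQ : min j q = q := by omega
          have eQ2 : min (j + 1) q = q := by omega
          rw [eQ, eQ2]
    obtain ⟨c3, r3, d1, d2, d3⟩ := fillBy_spec (o .RBe) (o .W3) .zero (by simp) c2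
      ((hRBe.of_same a3 (by simp)).of_same b4 (by simp))
    have h2W : c2.head (o .W3) = c.head (o .W3) + e := by rw [b3.1, a1]
    have t3 : ∀ x, c3.tape (o .W3) x = if c.head (o .W3) ≤ x ∧ x < c.head (o .W3) + B then .zero
        else c.tape (o .W3) x := by
      intro x
      rw [d2, h2W, b3.2, a2]
      have hBe : ((B - e : ℕ) : ℤ) = (B : ℤ) - e := by omega
      rw [hBe]
      by_cases hx : c.head (o .W3) + e ≤ x ∧ x < c.head (o .W3) + B
      · rw [if_pos (by omega), if_pos (by omega)]
      · rw [if_neg (by omega)]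
        by_cases hx2 : c.head (o .W3) ≤ x ∧ x < c.head (o .W3) + e
        · rw [if_pos hx2, if_pos (by omega)]
        · rw [if_neg hx2, if_neg (by omega)]
    refine ⟨c3, ?_, ?_, ?_, ?_, ?_, ?_, ?_, ?_, (a3.trans (b4.trans d3)).mono (by simp)⟩
    · refine (r1'.seq (r2.seq r3)).mono ?_
      omega
    · rw [d3.head (by simp), b4.head (by simp), a3.head (by simp), hD]
      simp only [cntX]
      by_cases hi : i < p
      · have hjq : ¬ j < q := fun h => hg ⟨hi, h⟩
        have e1 : min j q = q := by omega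
        have e2 : min (j + 1) q = q := by omega
        rw [if_pos hi, if_pos hi, e1, e2]
      · rw [if_neg hi, if_neg hi]
    · rw [d3.tape (by simp), b4.tape (by simp), a3.tape (by simp), tD]
    · rw [d1, h2W, hW, ehW]
      have hBe : ((B - e : ℕ) : ℤ) = (B : ℤ) - e := by omega
      rw [hBe]
      ring
    · rw [d3.tape (by simp)]; exact b1
    · rw [d3.head (by simp)]; exact b2
    · intro x hx
      rw [t3, if_neg hx]
    · unfold exX
      rw [hdiv, hmod, if_neg hg]
      apply vl_eq_zero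
      intro i' hi'
      rw [t3, if_pos (by omega)]
      rfl

theorem block_keep {τ τ' : ℤ → Sym G} {j k B : ℕ} (hjk : j < k)
    (h : ∀ x, ¬ (((k * B : ℕ) : ℤ) ≤ x ∧ x < ((k * B : ℕ) : ℤ) + B) → τ' x = τ x) :
    vl τ' ((j * B : ℕ) : ℤ) B = vl τ ((j * B : ℕ) : ℤ) B := by
  apply vl_congr
  intro i hi
  rw [h]
  rintro ⟨h1, _⟩
  have : (j + 1) * B ≤ k * B := Nat.mul_le_mul_right _ hjk
  have e : (j + 1) * B = j * B + B := by ring
  rw [e] at this
  have h2 : (((j * B + B) : ℕ) : ℤ) ≤ ((k * B : ℕ) : ℤ) := by exact_mod_cast this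
  push_cast at h1 h2 hi ⊢
  have hi' : (i : ℤ) < B := by exact_mod_cast hi
  linarith

theorem expandOuter_spec (c : TS (Own ⊕ X) (Sym G)) {p q e B P Q i N1 : ℕ} {h : ℤ} {τ : ℤ → Sym G}
    (heB : e ≤ B) (hq : q ≤ Q) (hp : p ≤ P) (hi : i < P)
    (hD : c.head (o .D) = h + (cntX p q i 0 * e : ℕ)) (tD : c.tape (o .D) = τ)
    (hW : c.head (o .W3) = ((N1 + i * Q) * B : ℕ))
    (hRQ : Ruler c (o .RQ) Q) (hRq : Ruler c (o .Rq) q)
    (tRp : c.tape (o .Rp) = runT p) (hRp : c.head (o .Rp) = (min i p : ℕ))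
    (hRe : Ruler c (o .Re) e) (hRBe : Ruler c (o .RBe) (B - e)) :
    ∃ c', Run (expandOuter : Prog (Own ⊕ X) (Sym G)) c c' (Q * (4 * B + 13) + 2 * Q + 2 * q + 9) ∧
      c'.head (o .D) = h + (cntX p q (i + 1) 0 * e : ℕ) ∧ c'.tape (o .D) = τ ∧
      c'.head (o .W3) = ((N1 + (i + 1) * Q) * B : ℕ) ∧
      Ruler c' (o .Rq) q ∧
      c'.tape (o .Rp) = runT p ∧ c'.head (o .Rp) = (min (i + 1) p : ℕ) ∧
      (∀ x, x < c.head (o .W3) → c'.tape (o .W3) x = c.tape (o .W3) x) ∧
      (∀ n, i * Q ≤ n → n < (i + 1) * Q →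
        vl (c'.tape (o .W3)) (((N1 + n) * B : ℕ) : ℤ) B = exX τ h p q e Q n) ∧
      Same [o .D, o .W3, o .Rq, o .Rp] c c' := by
  have hh : ∀ j, ((N1 + i * Q + j) * B : ℕ) = (N1 + i * Q + j) * B := fun _ => rfl
  obtain ⟨c1, ⟨f1, f2, f3, f4, f5, f6, f7, f8, f9, f10⟩, hRQ1, r1⟩ :=
    forR_spec (R := o .RQ) (n := Q) (body := (expandInner : Prog (Own ⊕ X) (Sym G)))
    (fun j c' => c'.head (o .D) = h + (cntX p q i j * e : ℕ) ∧ c'.tape (o .D) = τ ∧
      c'.head (o .W3) = ((N1 + i * Q + j) * B : ℕ) ∧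
      c'.tape (o .Rq) = runT q ∧ c'.head (o .Rq) = (min j q : ℕ) ∧
      (∀ x, x < c.head (o .W3) → c'.tape (o .W3) x = c.tape (o .W3) x) ∧
      (∀ k, k < j → vl (c'.tape (o .W3)) (((N1 + i * Q + k) * B : ℕ) : ℤ) B = exX τ h p q e Q (i * Q + k)) ∧
      Ruler c' (o .Re) e ∧ Ruler c' (o .RBe) (B - e) ∧
      Same [o .RQ, o .D, o .W3, o .Rq] c c')
    (fun _ => 4 * B + 11) (c := c)
    hRQ
    (by simp [expandInner])
    (by
      refine ⟨hD, tD, by simpa using hW, hRq.1, by simpa using hRq.2, fun _ _ => rfl, ?_, hRe, hRBe,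
        Same.refl _ _⟩
      intro k hk; omega)
    (by
      rintro k c1 c2 ⟨a1, a2, a3, a4, a5, a6, a7, a8, a9, a10⟩ hs _
      refine ⟨?_, ?_, ?_, ?_, ?_, ?_, ?_, a8.of_same hs (by simp), a9.of_same hs (by simp),
        (a10.trans hs).mono (by simp)⟩
      · rw [hs.head (by simp)]; exact a1
      · rw [hs.tape (by simp)]; exact a2
      · rw [hs.head (by simp)]; exact a3
      · rw [hs.tape (by simp)]; exact a4
      · rw [hs.head (by simp)]; exact a5
      · rw [hs.tape (by simp)]; exact a6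
      · rw [hs.tape (by simp)]; exact a7)
    (by
      rintro j hj c1 _ _ ⟨a1, a2, a3, a4, a5, a6, a7, a8, a9, a10⟩
      obtain ⟨c2, r, b1, b2, b3, b4, b5, b6, b7, b8⟩ := expandInner_spec c1 hj heB hq a1 a2 a3 a4 a5
        (by rw [a10.tape (by simp), tRp]) (by rw [a10.head (by simp), hRp]) a8 a9
      refine ⟨c2, r, b1, b2, b3, b4, b5, ?_, ?_, a8.of_same b8 (by simp), a9.of_same b8 (by simp),
        (a10.trans b8).mono (by simp)⟩
      · intro x hx
        rw [b6, a6 x hx]
        have : c.head (o .W3) ≤ c1.head (o .W3) := by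
          rw [a3, hW]
          have : (N1 + i * Q) * B ≤ (N1 + i * Q + j) * B := Nat.mul_le_mul_right _ (by omega)
          exact_mod_cast this
        omega
      · intro k hk
        by_cases hkj : k < j
        · have e1 : ∀ m, ((N1 + i * Q + m) * B : ℕ) = ((N1 + i * Q + m) * B : ℕ) := fun _ => rfl
          have := block_keep (τ := c1.tape (o .W3)) (τ' := c2.tape (o .W3))
            (j := N1 + i * Q + k) (k := N1 + i * Q + j) (B := B) (by omega)
            (by
              intro x hx
              rw [a3] at b6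
              exact b6 x hx)
          rw [this]
          exact a7 k hkj
        · have : k = j := by omega
          subst this
          rw [a3] at b7
          exact b7)
  have hqQ : min Q q = q := by omega
  rw [hqQ] at f5
  obtain ⟨c2, r2, g1, g2⟩ := rew_ruler (o .Rq) c1 f4 f5 le_rfl
  -- the pointer of the column
  have tp1 : c2.tape (o .Rp) = runT p := by
    rw [g2.tape (by simp), f10.tape (by simp), tRp]
  have hp1 : c2.head (o .Rp) = (min i p : ℕ) := by
    rw [g2.head (by simp), f10.head (by simp), hRp]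
  obtain ⟨c3, r3, j2, j3, j4, _⟩ : ∃ c3, Run (.ite (fun s => (s (o .Rp)).isOne) (mv (o .Rp) .R) skip) c2 c3 2 ∧
      c3.tape (o .Rp) = runT p ∧ c3.head (o .Rp) = (min (i + 1) p : ℕ) ∧
      Same [o .Rp] c2 c3 ∧ True := by
    by_cases hip : i < p
    · have rd3 : (c2.read (o .Rp)).isOne = true := by
        simp only [TS.read, tp1, hp1]
        have eQ : min i p = i := by omega
        rw [eQ, cast_runT_in hip]
        rfl
      obtain ⟨c3, r2, b1, b2, b3⟩ := mv_spec (o .Rp) .R c2
      refine ⟨c3, Run.iteT rd3 r2, ?_, ?_, b3, trivial⟩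
      · rw [b2, tp1]
      · rw [b1, hp1]
        have eQ : min i p = i := by omega
        have eQ2 : min (i + 1) p = i + 1 := by omega
        rw [eQ, eQ2]
        simp [Dir.toInt]
    · have rd3 : (c2.read (o .Rp)).isOne = false := by
        simp only [TS.read, tp1, hp1]
        have eQ : min i p = p := by omega
        rw [eQ, runT_out (by right; exact le_rfl)]
        rfl
      refine ⟨c2, Run.iteF rd3 (skip_spec c2), tp1, ?_, Same.refl _ _, trivial⟩
      rw [hp1]
      have eQ : min i p = p := by omega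
      have eQ2 : min (i + 1) p = p := by omega
      rw [eQ, eQ2]
  refine ⟨c3, ?_, ?_, ?_, ?_, g1.of_same j4 (by simp), j2, j3, ?_, ?_, ?_⟩
  · refine (r1.seq (r2.seq r3)).mono ?_
    simp only [Finset.sum_const, Finset.card_range, smul_eq_mul]
    have : Q * (4 * B + 11 + 2) = Q * (4 * B + 13) := rfl
    omega
  · rw [j4.head (by simp), g2.head (by simp), f1]
    have e0 : cntX p q (i + 1) 0 = cntX p q i Q := by
      simp only [cntX]
      by_cases hip : i < p
      · have e1 : min i p = i := by omega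
        have e2 : min (i + 1) p = i + 1 := by omega
        have e3 : min Q q = q := by omega
        rw [if_pos hip, e1, e2, e3]
        have e4 : (if i + 1 < p then min 0 q else 0) = 0 := by
          split_ifs <;> simp
        rw [e4, add_mul, one_mul, add_zero]
      · have e2 : min (i + 1) p = p := by omega
        have e3 : min i p = p := by omega
        rw [if_neg hip, if_neg (by omega), e2, e3]
    rw [e0]
  · rw [j4.tape (by simp), g2.tape (by simp), f2]
  · rw [j4.head (by simp), g2.head (by simp), f3]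
    have : N1 + (i + 1) * Q = N1 + i * Q + Q := by ring
    rw [this]
  · intro x hx
    rw [j4.tape (by simp), g2.tape (by simp), f6 x hx]
  · intro n hn1 hn2
    rw [j4.tape (by simp), g2.tape (by simp)]
    have e1 : (i + 1) * Q = i * Q + Q := by ring
    have := f7 (n - i * Q) (by omega)
    have e2 : i * Q + (n - i * Q) = n := by omega
    rw [e2] at this
    have e3 : N1 + i * Q + (n - i * Q) = N1 + n := by omega
    rw [e3] at this
    exact this
  · refine Same.erase (R := o .RQ) ((f10.trans (g2.trans j4)).mono (by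
      intro t ht
      simp only [List.mem_append, List.mem_cons, List.not_mem_nil, or_false] at ht ⊢
      tauto)) ?_ ?_
    · rw [j4.tape (by simp), g2.tape (by simp), hRQ1.1, hRQ.1]
    · rw [j4.head (by simp), g2.head (by simp), hRQ1.2, hRQ.2]

/-- The cost bound of the expansion stage. -/
def expandCost (P Q N1 M B S : ℕ) : ℕ :=
  P * Q * (4 * B + 17) + 15 * P + 4 * (N1 * B) + 4 * (M * B) + 4 * S + 30

theorem expand_spec (c : TS (Own ⊕ X) (Sym G)) {p q e B P Q N1 M : ℕ}
    (heB : e ≤ B) (hq : q ≤ Q) (hp : p ≤ P)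
    (hW : c.head (o .W3) = 0) (hMN : M = N1 + P * Q)
    (hRP : Ruler c (o .RP) P) (hRQ : Ruler c (o .RQ) Q) (hRq : Ruler c (o .Rq) q) (hRp : Ruler c (o .Rp) p)
    (hRe : Ruler c (o .Re) e) (hRBe : Ruler c (o .RBe) (B - e)) (hN1 : Ruler c (o .RN1B) (N1 * B))
    (hNM : Ruler c (o .R2NB) (M * B)) (hRS : Ruler c (o .RS) (p * q * e)) :
    ∃ c', Run (expand : Prog (Own ⊕ X) (Sym G)) c c' (expandCost P Q N1 M B (p * q * e)) ∧
      c'.head (o .D) = c.head (o .D) ∧ c'.tape (o .D) = c.tape (o .D) ∧ c'.head (o .W3) = 0 ∧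
      (∀ n, n < P * Q →
        vl (c'.tape (o .W3)) (((N1 + n) * B : ℕ) : ℤ) B = exX (c.tape (o .D)) (c.head (o .D)) p q e Q n) ∧
      Same [o .W3] c c' := by
  obtain ⟨c1, r1, a1, a2, a3⟩ := mvBy_spec (o .RN1B) (o .W3) .R (by simp) (by simp) c hN1
  obtain ⟨c2, ⟨f1, f2, f3, f4, f5, f6, f7, f8, f9, f10, f11, f12⟩, hRP2, r2⟩ :=
    forR_spec (R := o .RP) (n := P) (body := (expandOuter : Prog (Own ⊕ X) (Sym G)))
    (fun i c' => c'.head (o .D) = c.head (o .D) + (cntX p q i 0 * e : ℕ) ∧ c'.tape (o .D) = c.tape (o .D) ∧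
      c'.head (o .W3) = ((N1 + i * Q) * B : ℕ) ∧ Ruler c' (o .Rq) q ∧
      c'.tape (o .Rp) = runT p ∧ c'.head (o .Rp) = (min i p : ℕ) ∧
      (∀ n, n < i * Q → vl (c'.tape (o .W3)) (((N1 + n) * B : ℕ) : ℤ) B =
        exX (c.tape (o .D)) (c.head (o .D)) p q e Q n) ∧
      Ruler c' (o .RQ) Q ∧ Ruler c' (o .Re) e ∧ Ruler c' (o .RBe) (B - e) ∧
      Ruler c' (o .RS) (p * q * e) ∧ Same [o .RP, o .D, o .W3, o .Rq, o .Rp, o .RQ] c c')
    (fun _ => Q * (4 * B + 13) + 2 * Q + 2 * q + 9) (c := c1)
    (hRP.of_same a3 (by simp))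
    (by simp [expandOuter, expandInner])
    (by
      refine ⟨?_, ?_, ?_, hRq.of_same a3 (by simp), ?_, ?_, ?_, hRQ.of_same a3 (by simp),
        hRe.of_same a3 (by simp), hRBe.of_same a3 (by simp), hRS.of_same a3 (by simp), a3.mono (by simp)⟩
      · rw [a3.head (by simp)]
        simp [cntX]
      · rw [a3.tape (by simp)]
      · rw [a1, hW]
        simp [Dir.toInt]
      · rw [a3.tape (by simp), hRp.1]
      · rw [a3.head (by simp), hRp.2]
        simp
      · intro n hn; omega)
    (by
      rintro i c1 c2 ⟨b1, b2, b3, b4, b5, b6, b7, b8, b9, b10, b11, b12⟩ hs _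
      refine ⟨?_, ?_, ?_, b4.of_same hs (by simp), ?_, ?_, ?_, b8.of_same hs (by simp),
        b9.of_same hs (by simp), b10.of_same hs (by simp), b11.of_same hs (by simp),
        (b12.trans hs).mono (by simp)⟩
      · rw [hs.head (by simp)]; exact b1
      · rw [hs.tape (by simp)]; exact b2
      · rw [hs.head (by simp)]; exact b3
      · rw [hs.tape (by simp)]; exact b5
      · rw [hs.head (by simp)]; exact b6
      · rw [hs.tape (by simp)]; exact b7)
    (by
      rintro i hi c3 _ _ ⟨b1, b2, b3, b4, b5, b6, b7, b8, b9, b10, b11, b12⟩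
      obtain ⟨c4, r, d1, d2, d3, d4, d5, d6, d7, d8, d9⟩ := expandOuter_spec c3 heB hq hp hi b1 b2 b3 b8 b4 b5 b6 b9 b10
      refine ⟨c4, r, d1, d2, d3, d4, d5, d6, ?_, b8.of_same d9 (by simp), b9.of_same d9 (by simp),
        b10.of_same d9 (by simp), b11.of_same d9 (by simp), (b12.trans d9).mono (by simp)⟩
      intro n hn
      by_cases hn1 : n < i * Q
      · have := b7 n hn1
        rw [← this]
        apply vl_congr
        intro k hk
        have hx : (((N1 + n) * B : ℕ) : ℤ) + k < c3.head (o .W3) := by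
          rw [b3]
          have h1 : (N1 + n + 1) * B ≤ (N1 + i * Q) * B := Nat.mul_le_mul_right _ (by omega)
          have e1 : (N1 + n + 1) * B = (N1 + n) * B + B := by ring
          rw [e1] at h1
          have h2 : (((N1 + n) * B + B : ℕ) : ℤ) ≤ (((N1 + i * Q) * B : ℕ) : ℤ) := by exact_mod_cast h1
          push_cast at h2 ⊢
          have hk' : (k : ℤ) < B := by exact_mod_cast hk
          linarith
        rw [d7 _ hx]
      · exact d8 n (by omega) hn)
  have hpp : min P p = p := by omega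
  rw [hpp] at f6
  obtain ⟨c3, r3, g1, g2⟩ := rew_ruler (o .Rp) c2 f5 f6 le_rfl
  obtain ⟨c4, r4, j1, j2, j3⟩ := mvBy_spec (o .R2NB) (o .W3) .L (by simp) (by simp) c3
    ((hNM.of_same f12 (by simp)).of_same g2 (by simp))
  obtain ⟨c5, r5, k1, k2, k3⟩ := mvBy_spec (o .RS) (o .D) .L (by simp) (by simp) c4
    ((f11.of_same g2 (by simp)).of_same j3 (by simp))
  have hcnt : cntX p q P 0 = p * q := by
    simp only [cntX, hpp]
    rw [if_neg (by omega), add_zero]
  have fr : ∀ t, t ∉ ([o .Rp, o .W3, o .D] : List (Own ⊕ X)) →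
      c5.tape t = c2.tape t ∧ c5.head t = c2.head t := by
    intro t ht
    exact ((g2.trans (j3.trans k3)).mono (by simp)) t ht
  have hh3 : c3.head (o .W3) = (((N1 + P * Q) * B : ℕ) : ℤ) := by
    rw [g2.head (by simp), f3]
  have hD2 : c5.head (o .D) = c.head (o .D) := by
    rw [k1, j3.head (by simp), g2.head (by simp), f1, hcnt]
    simp only [Dir.toInt]
    push_cast
    ring
  have tD2 : c5.tape (o .D) = c.tape (o .D) := by
    rw [k2, j3.tape (by simp), g2.tape (by simp), f2]
  have sAll : Same [o .RP, o .D, o .Rq, o .Rp, o .RQ, o .W3] c c5 :=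
    (f12.trans (g2.trans (j3.trans k3))).mono (by
      intro t ht
      simp only [List.mem_append, List.mem_cons, List.not_mem_nil, or_false] at ht ⊢
      tauto)
  refine ⟨c5, ?_, hD2, tD2, ?_, ?_, ?_⟩
  · refine (r1.seq (r2.seq (r3.seq (r4.seq r5)))).mono ?_
    simp only [Finset.sum_const, Finset.card_range, smul_eq_mul, expandCost]
    have h1 : P * (Q * (4 * B + 13) + 2 * Q + 2 * q + 9 + 2) ≤ P * Q * (4 * B + 17) + 11 * P := by
      have : P * (2 * q) ≤ P * (2 * Q) := Nat.mul_le_mul_left _ (by omega)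
      calc P * (Q * (4 * B + 13) + 2 * Q + 2 * q + 9 + 2)
          = P * Q * (4 * B + 13) + P * (2 * Q) + P * (2 * q) + 11 * P := by ring
        _ ≤ P * Q * (4 * B + 13) + P * (2 * Q) + P * (2 * Q) + 11 * P := by omega
        _ = P * Q * (4 * B + 17) + 11 * P := by ring
    rw [hMN]
    omega
  · rw [k3.head (by simp), j1, hh3, hMN]
    simp [Dir.toInt]
  · intro n hn
    rw [k3.tape (by simp), j2, g2.tape (by simp)]
    exact f7 n hn
  · refine ((((sAll.erase ?_ ?_).erase tD2 hD2).erase ?_ ?_).erase ?_ ?_).erase ?_ ?_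
    · rw [(fr _ (by simp)).1, hRP2.1, hRP.1]
    · rw [(fr _ (by simp)).2, hRP2.2, hRP.2]
    · rw [(fr _ (by simp)).1, f4.1, hRq.1]
    · rw [(fr _ (by simp)).2, f4.2, hRq.2]
    · rw [k3.tape (by simp), j3.tape (by simp), g1.1, hRp.1]
    · rw [k3.head (by simp), j3.head (by simp), g1.2, hRp.2]
    · rw [(fr _ (by simp)).1, f8.1, hRQ.1]
    · rw [(fr _ (by simp)).2, f8.2, hRQ.2]

end stage

end Vale.Agent.Lib.P338
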