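import Vale.Agent.Lib.P338.Chirp

/-!
The kernel stage and the expansion stage.
-/

namespace Vale.Agent.Lib.P338

open Prog

section stage
variable {X G : Type} [DecidableEq X]

/-- The body of the kernel loop. -/
def kernelBody (V : Own ⊕ X) : Prog (Own ⊕ X) (Sym G) :=
  .seq (kBlock (o .TE) (o .W2)) (.seq (fillBy (o .RBL1) (o .W2) .zero)
    (.seq (addCyc (o .TD) (o .TE)) (addCyc V (o .TD))))

/-- The kernel stage: block `d` of `W2` gets the single bit `2 ^ E (d + 1)`. -/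
def kernel (U V : Own ⊕ X) : Prog (Own ⊕ X) (Sym G) :=
  .seq (czero (o .TE)) (.seq (ccopy U (o .TD)) (.seq (.seq (addCyc (o .TD) (o .TE)) (addCyc V (o .TD)))
    (.seq (forR (o .R2N) (kernelBody V)) (mvBy (o .R2NB) (o .W2) .L))))

/-- The cost bound of the kernel stage. -/
def kernelCost (M L : ℕ) : ℕ := 100 * (M * L) + 100 * M + 100 * L + 100

theorem kernelBody_spec (V : Own ⊕ X) (hV : V ≠ o .TD) (hVE : V ≠ o .TE) (hV2 : V ≠ o .W2)
    (c : TS (Own ⊕ X) (Sym G)) {L e d v : ℕ} (hL : 1 ≤ L)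
    (he : e ≤ L) (hd : d ≤ L) (hv : v ≤ L) (h1 : Cyc c (o .TE) L e) (h2 : Cyc c (o .TD) L d)
    (h3 : Cyc c V L v) (hRB : Ruler c (o .RBL1) (3 * L - 1)) :
    ∃ c', Run (kernelBody V) c c' (50 * L + 50) ∧
      c'.head (o .W2) = c.head (o .W2) + ((4 * L : ℕ) : ℤ) ∧
      (∀ x, ¬ (c.head (o .W2) ≤ x ∧ x < c.head (o .W2) + ((4 * L : ℕ) : ℤ)) →
        c'.tape (o .W2) x = c.tape (o .W2) x) ∧
      vl (c'.tape (o .W2)) (c.head (o .W2)) (4 * L) = 2 ^ e ∧
      Cyc c' (o .TE) L (cycAdd L e d) ∧ Cyc c' (o .TD) L (cycAdd L d v) ∧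
      Same [o .W2, o .TE, o .TD] c c' := by
  obtain ⟨c1, r1, a1, a2, a3⟩ := kBlock_spec (o .TE) (o .W2) (by simp) c he h1
  obtain ⟨c2, r2, b1, b2, b3⟩ := fillBy_spec (o .RBL1) (o .W2) .zero (by simp) c1 (hRB.of_same a3 (by simp))
  obtain ⟨c3, r3, d1, d2, d3⟩ := gen_step V hV hVE c2 hL he hd hv
    ((h1.of_same a3 (by simp)).of_same b3 (by simp))
    ((h2.of_same a3 (by simp)).of_same b3 (by simp))
    ((h3.of_same a3 (by simpa using hV2)).of_same b3 (by simpa using hV2))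
  have h3W : c3.head (o .W2) = c.head (o .W2) + ((4 * L : ℕ) : ℤ) := by
    rw [d3.head (by simp), b1, a1]
    have : ((3 * L - 1 : ℕ) : ℤ) = 3 * L - 1 := by omega
    rw [this]
    push_cast
    ring
  have t3 : ∀ x, c3.tape (o .W2) x =
      if c.head (o .W2) + L + 1 ≤ x ∧ x < c.head (o .W2) + ((4 * L : ℕ) : ℤ) then .zero else
      (if c.head (o .W2) ≤ x ∧ x < c.head (o .W2) + L + 1 then
          (if x = c.head (o .W2) + e then .one else .zero) else c.tape (o .W2) x) := by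
    intro x
    rw [d3.tape (by simp), b2, a1, a2]
    have : ((3 * L - 1 : ℕ) : ℤ) = 3 * L - 1 := by omega
    rw [this]
    by_cases hx : c.head (o .W2) + L + 1 ≤ x ∧ x < c.head (o .W2) + ((4 * L : ℕ) : ℤ)
    · rw [if_pos hx, if_pos (by push_cast at hx; omega)]
    · rw [if_neg hx, if_neg (by push_cast at hx; omega)]
  refine ⟨c3, (r1.seq (r2.seq r3)).mono ?_, h3W, ?_, ?_, d1, d2, (a3.trans (b3.trans d3)).mono (by simp)⟩
  · omega
  · intro x hx
    rw [t3, if_neg (by omega), if_neg (by push_cast at hx ⊢; omega)]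
  · apply vl_single (E := e) (by omega)
    · rw [t3, if_neg (by omega), if_pos (by omega), if_pos rfl]
    · intro i hi hie
      rw [t3]
      by_cases hx : c.head (o .W2) + L + 1 ≤ c.head (o .W2) + i
      · rw [if_pos (by push_cast; omega)]
        rfl
      · rw [if_neg (by omega), if_pos (by omega), if_neg (by omega)]
        rfl

theorem kernel_spec (U V : Own ⊕ X) (hU : U ≠ o .TD) (hUE : U ≠ o .TE)
    (hV : V ≠ o .TD) (hVE : V ≠ o .TE) (hV2 : V ≠ o .W2) (hVN : V ≠ o .R2N)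
    (c : TS (Own ⊕ X) (Sym G)) {L M u v e0 d0 : ℕ} (hL : 1 ≤ L)
    (hu : u ≤ L) (hv : v ≤ L) (he0 : e0 ≤ L) (hd0 : d0 ≤ L)
    (hTE : Cyc c (o .TE) L e0) (hTD : Cyc c (o .TD) L d0) (hUc : Cyc c U L u) (hVc : Cyc c V L v)
    (hRN : Ruler c (o .R2N) M) (hRB : Ruler c (o .RBL1) (3 * L - 1))
    (hNB : Ruler c (o .R2NB) (M * (4 * L))) (hW2 : c.head (o .W2) = 0) :
    ∃ c', Run (kernel U V) c c' (kernelCost M L) ∧ c'.head (o .W2) = 0 ∧
      (∀ d, d < M → vl (c'.tape (o .W2)) ((d * (4 * L) : ℕ) : ℤ) (4 * L) = 2 ^ (genE L u v (d + 1)).1) ∧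
      (∃ e', e' ≤ L ∧ Cyc c' (o .TE) L e') ∧ (∃ d', d' ≤ L ∧ Cyc c' (o .TD) L d') ∧
      Same [o .W2, o .TE, o .TD] c c' := by
  obtain ⟨c1, r1, a1, s1⟩ := czero_spec (o .TE) c he0 hTE
  obtain ⟨c2, r2, b1, b2, s2⟩ := ccopy_spec U (o .TD) hU c1 hu hd0
    (hUc.of_same s1 (by simpa using hUE)) (hTD.of_same s1 (by simp))
  obtain ⟨c3, r3, d1, d2, d3⟩ := gen_step V hV hVE c2 hL (by omega) hu hv
    (a1.of_same s2 (by simp)) b2
    ((hVc.of_same s1 (by simpa using hVE)).of_same s2 (by simpa using hV))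
  have s3' : Same [o .TE, o .TD] c c3 := (s1.trans (s2.trans d3)).mono (by simp)
  have hle := fun k => genE_le (L := L) (u := u) (v := v) hu hv k
  have hg1 : genE L u v 1 = (cycAdd L 0 u, cycAdd L u v) := rfl
  obtain ⟨c4, ⟨i1, i2, i3, i4, i5, i6, i7⟩, hRN4, r4⟩ :=
    forR_spec (R := o .R2N) (n := M) (body := kernelBody V)
    (fun k c' => c'.head (o .W2) = ((k * (4 * L) : ℕ) : ℤ) ∧
      (∀ j, j < k → vl (c'.tape (o .W2)) ((j * (4 * L) : ℕ) : ℤ) (4 * L) = 2 ^ (genE L u v (j + 1)).1) ∧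
      Cyc c' (o .TE) L (genE L u v (k + 1)).1 ∧ Cyc c' (o .TD) L (genE L u v (k + 1)).2 ∧
      Cyc c' V L v ∧ Ruler c' (o .RBL1) (3 * L - 1) ∧
      Same [o .R2N, o .W2, o .TE, o .TD] c c')
    (fun _ => 50 * L + 50) (c := c3)
    (hRN.of_same s3' (by simp))
    (by
      simp only [kernelBody, touch_seq, touch_kBlock, touch_fillBy, touch_addCyc]
      simp [hVN.symm])
    (by
      refine ⟨?_, ?_, ?_, ?_, ?_, ?_, ?_⟩
      · rw [s3'.head (by simp), hW2]; simp
      · intro j hj; omega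
      · rw [hg1]; exact d1
      · rw [hg1]; exact d2
      · exact hVc.of_same s3' (by simp [hV, hVE])
      · exact hRB.of_same s3' (by simp)
      · exact s3'.mono (by simp))
    (by
      rintro k c1 c2 ⟨f1, f2, f3, f4, f5, f6, f7⟩ hs _
      refine ⟨?_, ?_, f3.of_same hs (by simp), f4.of_same hs (by simp),
        f5.of_same hs (by simpa using hVN), f6.of_same hs (by simp), (f7.trans hs).mono (by simp)⟩
      · rw [hs.head (by simp)]; exact f1
      · rw [hs.tape (by simp)]; exact f2)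
    (by
      rintro k hk c1 _ _ ⟨f1, f2, f3, f4, f5, f6, f7⟩
      obtain ⟨c2, r, g1, g2, g3, g4, g5, g6⟩ := kernelBody_spec V hV hVE hV2 c1 hL
        (hle _).1 (hle _).2 hv f3 f4 f5 f6
      refine ⟨c2, r, ?_, ?_, g4, g5, f5.of_same g6 (by simp [hV, hVE, hV2]), f6.of_same g6 (by simp),
        (f7.trans g6).mono (by simp)⟩
      · rw [g1, f1]
        push_cast
        ring
      · intro j hj
        by_cases hjk : j < k
        · have hblock : vl (c2.tape (o .W2)) ((j * (4 * L) : ℕ) : ℤ) (4 * L) =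
              vl (c1.tape (o .W2)) ((j * (4 * L) : ℕ) : ℤ) (4 * L) := by
            apply vl_congr
            intro i hi
            rw [g2]
            rw [f1]
            rintro ⟨h1, _⟩
            have : (j + 1) * (4 * L) ≤ k * (4 * L) := Nat.mul_le_mul_right _ hjk
            have e : (j + 1) * (4 * L) = j * (4 * L) + 4 * L := by ring
            rw [e] at this
            have h2 : (((j * (4 * L) + 4 * L) : ℕ) : ℤ) ≤ ((k * (4 * L) : ℕ) : ℤ) := by exact_mod_cast this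
            push_cast at h1 h2 hi ⊢
            have hi' : (i : ℤ) < 4 * L := by exact_mod_cast hi
            linarith
          rw [hblock]
          exact f2 j hjk
        · have hjk' : j = k := by omega
          subst hjk'
          rw [f1] at g3
          exact g3)
  obtain ⟨c5, r5, j1, j2, j3⟩ := mvBy_spec (o .R2NB) (o .W2) .L (by simp) (by simp) c4
    (hNB.of_same i7 (by simp))
  have hcost2 : M * (4 * L) = 4 * (M * L) := by ring
  refine ⟨c5, ?_, ?_, ?_, ⟨_, (hle _).1, i3.of_same j3 (by simp)⟩, ⟨_, (hle _).2, i4.of_same j3 (by simp)⟩, ?_⟩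
  · refine (r1.seq (r2.seq (r3.seq (r4.seq r5)))).mono ?_
    simp only [Finset.sum_const, Finset.card_range, smul_eq_mul, kernelCost]
    have : M * (50 * L + 50 + 2) = 50 * (M * L) + 52 * M := by ring
    rw [this]
    omega
  · rw [j1, i1]
    simp [Dir.toInt]
  · intro d hd
    rw [j2]
    exact i2 d hd
  · refine Same.erase (R := o .R2N) ((i7.trans j3).mono (by
      intro t ht
      simp only [List.mem_append, List.mem_cons, List.not_mem_nil, or_false] at ht ⊢
      tauto)) ?_ ?_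
    · rw [j3.tape (by simp), hRN4.1, hRN.1]
    · rw [j3.head (by simp), hRN4.2, hRN.2]

end stage

end Vale.Agent.Lib.P338
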