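import Vale.Agent.Lib.P338.Round

/-!
The levels of the recursion: stack, forward and backward steps.
-/

namespace Vale.Agent.Lib.P338

open Prog

/-- The value of the digit tapes of a level. -/
def dv (a : ℕ) : Own → ℕ
  | .A1 => (a + 2) / 3
  | .A2 => (a + 1) / 3
  | .A3 => a / 3
  | _ => 0

/-- The parameter `k` of a level. -/
def kv (a : ℕ) : ℕ := 1 + (a + 5) / 6

/-- The next level. -/
def nxt (a : ℕ) : ℕ := (a + 1) / 3 + a / 3

/-- The exponent of the entry size of a round. -/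
def zv (a : ℕ) (Z : List Own) : ℕ := (Z.map (dv a)).sum

/-- The numerical conditions for a round of a level. -/
structure Good (a : ℕ) (Sx Sy : Own) (Z : List Own) : Prop where
  hx : dv a Sx ≤ 2 * kv a - 1
  hy : dv a Sy ≤ 2 * kv a - 1
  hk : 4 * kv a + 2 ≤ zv a Z + 12
  hs : dv a Sx + dv a Sy + zv a Z ≤ 2 * a
  hr : 4 * kv a + 18 ≤ dv a Sx + dv a Sy + 26
  hl : Z.length ≤ 4
  hd : ∀ S ∈ Z, S = .A1 ∨ S = .A2 ∨ S = .A3
  hsx : Sx = .A1 ∨ Sx = .A2 ∨ Sx = .A3
  hsy : Sy = .A1 ∨ Sy = .A2 ∨ Sy = .A3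

theorem good1 (a : ℕ) : Good a .A3 .A1 [.A2, .A3] := by
  refine ⟨?_, ?_, ?_, ?_, ?_, by simp, by simp, by simp, by simp⟩ <;>
    (simp only [dv, kv, zv, List.map_cons, List.map_nil, List.sum_cons, List.sum_nil]; omega)

theorem good2 (a : ℕ) : Good a .A2 .A1 [.A3, .A3, .A2] := by
  refine ⟨?_, ?_, ?_, ?_, ?_, by simp, by simp, by simp, by simp⟩ <;>
    (simp only [dv, kv, zv, List.map_cons, List.map_nil, List.sum_cons, List.sum_nil]; omega)

theorem good3 (a : ℕ) : Good a .A1 .A1 [.A2, .A2, .A3, .A3] := by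
  refine ⟨?_, ?_, ?_, ?_, ?_, by simp, by simp, by simp, by simp⟩ <;>
    (simp only [dv, kv, zv, List.map_cons, List.map_nil, List.sum_cons, List.sum_nil]; omega)

theorem good4 (a : ℕ) : Good a .A1 .A2 [.A3, .A3, .A2] := by
  refine ⟨?_, ?_, ?_, ?_, ?_, by simp, by simp, by simp, by simp⟩ <;>
    (simp only [dv, kv, zv, List.map_cons, List.map_nil, List.sum_cons, List.sum_nil]; omega)

theorem good5 (a : ℕ) : Good a .A1 .A3 [.A2, .A3] := by
  refine ⟨?_, ?_, ?_, ?_, ?_, by simp, by simp, by simp, by simp⟩ <;>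
    (simp only [dv, kv, zv, List.map_cons, List.map_nil, List.sum_cons, List.sum_nil]; omega)

/-- A data transformation by a pass. -/
def rd (a : ℕ) (Sx Sy : Own) (Z : List Own) (f : ℕ → Bool) : ℕ → Bool :=
  fun i => f (srcIdx (2 ^ dv a Sx) (2 ^ dv a Sy) (2 ^ zv a Z) i)

/-- The forward rounds of a level. -/
def Af (a : ℕ) (f : ℕ → Bool) : ℕ → Bool :=
  rd a .A1 .A1 [.A2, .A2, .A3, .A3] (rd a .A2 .A1 [.A3, .A3, .A2] (rd a .A3 .A1 [.A2, .A3] f))

/-- The backward rounds of a level. -/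
def Bf (a : ℕ) (h : ℕ → Bool) : ℕ → Bool :=
  rd a .A1 .A3 [.A2, .A3] (rd a .A1 .A2 [.A3, .A3, .A2] h)

theorem sum_digits (a : ℕ) : (a + 2) / 3 + ((a + 1) / 3 + a / 3) = a := by omega

theorem level_step {a : ℕ} {f h : ℕ → Bool} (hT : IsT (nxt a) (Af a f) h) : IsT a f (Bf a h) := by
  have ha : (a + 2) / 3 + (a + 1) / 3 + a / 3 = a := by omega
  have := level_ident (α1 := (a + 2) / 3) (α2 := (a + 1) / 3) (α3 := a / 3)
    (f0 := f) (f1 := rd a .A3 .A1 [.A2, .A3] f)
    (f2 := rd a .A2 .A1 [.A3, .A3, .A2] (rd a .A3 .A1 [.A2, .A3] f)) (f3 := Af a f)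
    (g3 := h) (g2 := rd a .A1 .A2 [.A3, .A3, .A2] h) (g1 := Bf a h)
    (A := 2 ^ ((a + 2) / 3)) (B := 2 ^ ((a + 1) / 3)) (C := 2 ^ (a / 3))
    (e1 := 2 ^ zv a [.A2, .A3]) (e2 := 2 ^ zv a [.A3, .A3, .A2]) (e3 := 2 ^ zv a [.A2, .A2, .A3, .A3])
    rfl rfl rfl
    (by simp only [dv, zv, List.map_cons, List.map_nil, List.sum_cons, List.sum_nil, add_zero, pow_add])
    (by simp only [dv, zv, List.map_cons, List.map_nil, List.sum_cons, List.sum_nil, add_zero, pow_add]; ring)
    (by simp only [dv, zv, List.map_cons, List.map_nil, List.sum_cons, List.sum_nil, add_zero, pow_add]; ring)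
    (fun _ => rfl) (fun _ => rfl) (fun _ => rfl) hT (fun _ => rfl) (fun _ => rfl)
  rwa [ha] at this

/-- The list of levels. -/
def levels (a : ℕ) : List ℕ :=
  if h : a = 0 then [] else a :: levels (nxt a)
termination_by a
decreasing_by
  unfold nxt
  omega

theorem levels_zero : levels 0 = [] := by
  rw [levels]
  simp

theorem levels_pos {a : ℕ} (h : a ≠ 0) : levels a = a :: levels (nxt a) := by
  rw [levels]
  simp [h]

/-- The forward rounds of all levels. -/
def Afull (a : ℕ) (f : ℕ → Bool) : ℕ → Bool :=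
  if h : a = 0 then f else Afull (nxt a) (Af a f)
termination_by a
decreasing_by
  unfold nxt
  omega

/-- The backward rounds of all levels of a stack. -/
def Bfold : List ℕ → (ℕ → Bool) → ℕ → Bool
  | [], h => h
  | a :: l, h => Bfold l (Bf a h)

theorem Bfold_append (l l' : List ℕ) (h : ℕ → Bool) : Bfold (l ++ l') h = Bfold l' (Bfold l h) := by
  induction l generalizing h with
  | nil => rfl
  | cons a l ih => exact ih _

theorem IsT_zero (f : ℕ → Bool) : IsT 0 f f := by
  intro s r c hr hc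
  have h1 : r = 0 := by simpa using hr
  have h2 : c = 0 := by simpa using hc
  subst h1 h2
  rfl

theorem full_isT (a : ℕ) (f : ℕ → Bool) : IsT a f (Bfold (levels a).reverse (Afull a f)) := by
  induction a using Nat.strong_induction_on generalizing f with
  | _ a ih =>
    by_cases h : a = 0
    · subst h
      rw [levels_zero, Afull]
      exact IsT_zero f
    · rw [levels_pos h, Afull, dif_neg h, List.reverse_cons, Bfold_append]
      apply level_step
      exact ih (nxt a) (by unfold nxt; omega) _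

end Vale.Agent.Lib.P338
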