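import Vale.Agent.Lib.P338.Top

/-!
The complete machine for transposition built from a multiplication machine.
-/

namespace Vale.Agent.Lib.P338

open Prog

section
variable (A : MTM)

/-- One step of the computation of the side length. -/
noncomputable def caBody : Prog (BT A) (BG A) :=
  .seq (radd (o .Rp) (o .Tmp)) (.seq (mvBy (o .Tmp) (o .D) .R) (.seq (mvBy (o .Tmp) (o .D) .R) (.seq (mvBy (o .Tmp) (o .D) .R)
    (.seq (radd (o .Tmp) (o .Rp)) (.seq (radd (o .Tmp) (o .Rp)) (.seq (radd (o .Tmp) (o .Rp)) (.seq (rclr (o .Tmp)) (rinc (o .Ta)))))))))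

/-- The computation of the side length. -/
noncomputable def computeA : Prog (BT A) (BG A) :=
  .seq (mv (o .D) .R) (.seq (rinc (o .Rp)) (.seq (.loop (fun s => (s (o .D)).nonBlank) (caBody A)) (.seq (rclr (o .Rp)) (rewD A))))

/-- The complete program. -/
noncomputable def top : Prog (BT A) (BG A) :=
  .seq (mv (o .Stk) .L) (.seq (computeA A) (.seq (fwdLoop A) (bwdLoop A)))

variable {A}

theorem caBody_spec (c : TS (BT A) (BG A)) {i R : ℕ} (hR : Ruler c (o .Rp) R) (hT : Ruler c (o .Tmp) 0)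
    (hTa : Ruler c (o .Ta) i) :
    ∃ c', Run (caBody A) c c' (68 * R + 4 * i + 60) ∧ Ruler c' (o .Rp) (4 * R) ∧ Ruler c' (o .Tmp) 0 ∧ Ruler c' (o .Ta) (i + 1) ∧
      c'.head (o .D) = c.head (o .D) + (3 * R : ℕ) ∧ c'.tape (o .D) = c.tape (o .D) ∧
      Same [o .Rp, o .Tmp, o .D, o .Ta] c c' := by
  obtain ⟨c1, r1, a1, s1⟩ := radd_spec (o .Rp) (o .Tmp) (by simp) c hR hT
  rw [zero_add] at a1
  have hR1 := hR.of_same s1 (by simp)
  obtain ⟨c2, r2, b1, b2, s2⟩ := mvBy_spec (o .Tmp) (o .D) .R (by simp) (by simp) c1 a1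
  have a2 := a1.of_same s2 (by simp)
  obtain ⟨c3, r3, d1, d2, s3⟩ := mvBy_spec (o .Tmp) (o .D) .R (by simp) (by simp) c2 a2
  have a3 := a2.of_same s3 (by simp)
  obtain ⟨c4, r4, e1, e2, s4⟩ := mvBy_spec (o .Tmp) (o .D) .R (by simp) (by simp) c3 a3
  have a4 := a3.of_same s4 (by simp)
  have s24 : Same [o .D] c1 c4 := (s2.trans (s3.trans s4)).mono (by simp)
  obtain ⟨c5, r5, f1, s5⟩ := radd_spec (o .Tmp) (o .Rp) (by simp) c4 a4 (hR1.of_same s24 (by simp))
  have a5 := a4.of_same s5 (by simp)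
  obtain ⟨c6, r6, g1, s6⟩ := radd_spec (o .Tmp) (o .Rp) (by simp) c5 a5 f1
  have a6 := a5.of_same s6 (by simp)
  obtain ⟨c7, r7, h1, s7⟩ := radd_spec (o .Tmp) (o .Rp) (by simp) c6 a6 g1
  have a7 := a6.of_same s7 (by simp)
  obtain ⟨c8, r8, i1, s8⟩ := rclr_spec (o .Tmp) c7 a7
  have s58 : Same [o .Rp, o .Tmp] c4 c8 := (s5.trans (s6.trans (s7.trans s8))).mono (by simp)
  have s18 : Same [o .D, o .Rp, o .Tmp] c1 c8 := (s24.trans s58).mono (by simp)
  have s08 : Same [o .D, o .Rp, o .Tmp] c c8 := (s1.trans s18).mono (by simp)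
  obtain ⟨c9, r9, j1, s9⟩ := rinc_spec (o .Ta) c8 (hTa.of_same s08 (by simp))
  refine ⟨c9, ?_, ?_, i1.of_same s9 (by simp), j1, ?_, ?_, ?_⟩
  · refine (r1.seq (r2.seq (r3.seq (r4.seq (r5.seq (r6.seq (r7.seq (r8.seq r9)))))))).mono ?_
    omega
  · have e : R + R + R + R = 4 * R := by ring
    have h1' : Ruler c7 (o .Rp) (R + R + R + R) := h1
    rw [e] at h1'
    exact (h1'.of_same s8 (by simp)).of_same s9 (by simp)
  · have nD : (o .D : BT A) ∉ [(o .Rp : BT A), o .Tmp] := by simp
    rw [s9.head (by simp), s58.head nD, e1, d1, b1, s1.head (by simp)]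
    simp only [Dir.toInt]
    push_cast
    ring
  · have nD : (o .D : BT A) ∉ [(o .Rp : BT A), o .Tmp] := by simp
    rw [s9.tape (by simp), s58.tape nD, e2, d2, b2, s1.tape (by simp)]
  · exact (s08.trans s9).mono (by simp)

theorem sum_four_le (K m : ℕ) : ∑ i ∈ Finset.range m, K * 4 ^ i ≤ K * 4 ^ m := by
  induction m with
  | zero => simp
  | succ m ih =>
    rw [Finset.sum_range_succ, pow_succ]
    nlinarith [Nat.zero_le (K * 4 ^ m)]

/-- The cost bound of the computation of the side length. -/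
def caCost (a0 : ℕ) : ℕ := 140 * 4 ^ a0 + 20

theorem computeA_spec (c : TS (BT A) (BG A)) {a0 : ℕ} {f : ℕ → Bool} (hD : c.tape (o .D) = dataT (4 ^ a0) f)
    (hh : c.head (o .D) = 0) (hR : Ruler c (o .Rp) 0) (hT : Ruler c (o .Tmp) 0) (hTa : Ruler c (o .Ta) 0) :
    ∃ c', Run (computeA A) c c' (caCost a0) ∧ Ruler c' (o .Rp) 0 ∧ Ruler c' (o .Tmp) 0 ∧ Ruler c' (o .Ta) a0 ∧
      c'.head (o .D) = 0 ∧ c'.tape (o .D) = c.tape (o .D) ∧ Same [o .Rp, o .Tmp, o .D, o .Ta] c c' := by
  obtain ⟨c1, r1, a1, a2, s1⟩ := mv_spec (o .D) .R c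
  obtain ⟨c2, r2, b1, s2⟩ := rinc_spec (o .Rp) c1 (hR.of_same s1 (by simp))
  have s12 : Same [o .D, o .Rp] c c2 := (s1.trans s2).mono (by simp)
  obtain ⟨c3, ⟨i1, i2, i3, i4, i5, i6⟩, r3⟩ := Run.loop (g := fun s => (s (o .D)).nonBlank) (b := caBody A)
    (fun i c' => Ruler c' (o .Rp) (4 ^ i) ∧ Ruler c' (o .Tmp) 0 ∧ Ruler c' (o .Ta) i ∧
      c'.head (o .D) = ((4 ^ i : ℕ) : ℤ) ∧ c'.tape (o .D) = c.tape (o .D) ∧ Same [o .Rp, o .Tmp, o .D, o .Ta] c2 c') a0
    (fun i => 68 * 4 ^ i + 4 * i + 60) (c := c2)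
    ⟨by simpa using b1, hT.of_same s12 (by simp), hTa.of_same s12 (by simp),
      by rw [s2.head (by simp), a1, hh]; simp [Dir.toInt], by rw [s2.tape (by simp), a2], Same.refl _ _⟩
    (by
      rintro i hi c' ⟨g1, g2, g3, g4, g5, g6⟩
      constructor
      · simp only [TS.read]
        rw [g5, hD, g4, dataT_in (Nat.pow_lt_pow_right (by norm_num) hi)]
        simp
      · obtain ⟨c'', r, h1, h2, h3, h4, h5, h6⟩ := caBody_spec c' g1 g2 g3
        refine ⟨c'', r, by rw [pow_succ, mul_comm]; exact h1, h2, h3, ?_, by rw [h5, g5], (g6.trans h6).mono (by simp)⟩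
        rw [h4, g4, pow_succ]
        push_cast
        ring)
    (by
      rintro c' ⟨_, _, _, g4, g5, _⟩
      simp only [TS.read]
      rw [g5, hD, g4, dataT_out (by right; exact le_refl _)]
      rfl)
  obtain ⟨c4, r4, d1, s4⟩ := rclr_spec (o .Rp) c3 i1
  obtain ⟨c5, r5, e1, e2, s5⟩ := rewD_spec c4 (n := 4 ^ a0) (f := f)
    (by rw [s4.tape (by simp), i5, hD]) (by rw [s4.head (by simp), i4])
  have hsum : ∑ i ∈ Finset.range a0, (68 * 4 ^ i + 4 * i + 60 + 1) ≤ 133 * 4 ^ a0 := by
    have h : ∀ i ∈ Finset.range a0, 68 * 4 ^ i + 4 * i + 60 + 1 ≤ 133 * 4 ^ i := by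
      intro i _
      have h1 : i + 1 ≤ 4 ^ i := by
        have h2 : i < 2 ^ i := Nat.lt_two_pow_self
        have h3 : 2 ^ i ≤ 4 ^ i := Nat.pow_le_pow_left (by norm_num) i
        omega
      omega
    exact (Finset.sum_le_sum h).trans (sum_four_le 133 a0)
  refine ⟨c5, ?_, d1.of_same s5 (by simp), i2.of_same (s4.trans s5) (by simp), i3.of_same (s4.trans s5) (by simp), e1, ?_, ?_⟩
  · refine (r1.seq (r2.seq (r3.seq (r4.seq r5)))).mono ?_
    unfold caCost
    omega
  · rw [e2, s4.tape (by simp), i5]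
  · exact (s12.trans (i6.trans (s4.trans s5))).mono (by simp)

/-- The cost bound of the complete program. -/
noncomputable def topCost (card a0 : ℕ) (τ : ℕ → ℕ) : ℕ :=
  1 + (caCost a0 + ((((levels a0).map fun b => levelF card a0 τ b + 1).sum + 1) +
    (((levels a0).reverse.map fun b => levelB card a0 τ b + 1).sum + 1)))

/-- The result of the complete program. -/
noncomputable def topF (a0 : ℕ) (f : ℕ → Bool) : ℕ → Bool := Bfold (levels a0).reverse (Afull a0 f)

theorem levels_le (a : ℕ) : ∀ b ∈ levels a, b ≤ a := by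
  induction a using Nat.strong_induction_on with
  | _ a ih =>
    intro b hb
    by_cases h : a = 0
    · subst h
      rw [levels_zero] at hb
      simp at hb
    · rw [levels_pos h] at hb
      simp only [List.mem_cons] at hb
      rcases hb with rfl | hb
      · exact le_refl _
      · have hlt : nxt a < a := by unfold nxt; omega
        exact (ih _ hlt b hb).trans hlt.le

theorem top_spec {τ : ℕ → ℕ} (hA : Multiplies A τ) (a0 : ℕ) (f : ℕ → Bool) (c : TS (BT A) (BG A))
    (h0 : ∀ a : Own, a ≠ .D → c.tape (o a) = fun _ => .blank) (hD : c.tape (o .D) = dataT (4 ^ a0) f)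
    (hB : ∀ t x, c.tape (Sum.inr t) x = .blank) (hh : ∀ t, c.head t = 0) :
    ∃ c', Run (top A) c c' (topCost (@Finset.univ A.T A.fT).card a0 τ) ∧ c'.tape (o .D) = dataT (4 ^ a0) (topF a0 f) := by
  have hRz : ∀ a : Own, a ≠ .D → Ruler c (o a) 0 := by
    intro a ha
    refine ⟨?_, hh _⟩
    rw [h0 a ha]
    funext x
    rw [runT_out (by simp; omega)]
  obtain ⟨c1, r1, a1, a2, s1⟩ := mv_spec (o .Stk) .L c
  have nS : ∀ a : Own, a ≠ .Stk → (o a : BT A) ∉ [(o .Stk : BT A)] := fun a ha => by simp [o, ha]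
  obtain ⟨c2, r2, b1, b2, b3, b4, b5, s2⟩ := computeA_spec c1 (a0 := a0) (f := f) (by rw [s1.tape (nS _ (by decide))]; exact hD)
    (by rw [s1.head (nS _ (by decide))]; exact hh _)
    ((hRz .Rp (by decide)).of_same s1 (nS _ (by decide))) ((hRz .Tmp (by decide)).of_same s1 (nS _ (by decide)))
    ((hRz .Ta (by decide)).of_same s1 (nS _ (by decide)))
  have s02 : Same [o .Stk, o .Rp, o .Tmp, o .D, o .Ta] c c2 := (s1.trans s2).mono (by simp)
  have nL : ∀ a : Own, a ≠ .Stk → a ≠ .Rp → a ≠ .Tmp → a ≠ .D → a ≠ .Ta → (o a : BT A) ∉ [(o .Stk : BT A), o .Rp, o .Tmp, o .D, o .Ta] :=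
    fun a h1 h2 h3 h4 h5 => by simp [o, h1, h2, h3, h4, h5]
  have hT0 : TopS c2 a0 [] (4 ^ a0) f := by
    refine ⟨?_, ?_, ?_, b4, b3, ?_, ?_, ?_, ?_, ?_⟩
    · intro a ha
      by_cases e1 : a = .Rp
      · subst e1
        exact b1
      by_cases e2 : a = .Tmp
      · subst e2
        exact b2
      have e0 : f0 0 0 0 0 a = 0 := by
        cases a <;> rfl
      rw [e0]
      refine (hRz a ?_).of_same s02 (nL a ?_ e1 e2 ?_ ?_)
      · rintro rfl
        exact absurd ha (by decide)
      · rintro rfl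
        exact absurd ha (by decide)
      · rintro rfl
        exact absurd ha (by decide)
      · rintro rfl
        exact absurd ha (by decide)
    · have nA' : ∀ a : Own, a ≠ .Stk → a ≠ .Rp → a ≠ .Tmp → a ≠ .D → a ≠ .Ta → Ruler c2 (o a) 0 :=
        fun a h1 h2 h3 h4 h5 => (hRz a h4).of_same s02 (nL a h1 h2 h3 h4 h5)
      refine ⟨nA' _ (by decide) (by decide) (by decide) (by decide) (by decide), nA' _ (by decide) (by decide) (by decide) (by decide) (by decide),
        nA' _ (by decide) (by decide) (by decide) (by decide) (by decide), nA' _ (by decide) (by decide) (by decide) (by decide) (by decide),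
        nA' _ (by decide) (by decide) (by decide) (by decide) (by decide), nA' _ (by decide) (by decide) (by decide) (by decide) (by decide),
        nA' _ (by decide) (by decide) (by decide) (by decide) (by decide), nA' _ (by decide) (by decide) (by decide) (by decide) (by decide),
        nA' _ (by decide) (by decide) (by decide) (by decide) (by decide), ?_,
        (nA' _ (by decide) (by decide) (by decide) (by decide) (by decide)).2, (nA' _ (by decide) (by decide) (by decide) (by decide) (by decide)).2,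
        (nA' _ (by decide) (by decide) (by decide) (by decide) (by decide)).2, ?_⟩
      · simp only [TS.read]
        rw [(nA' .Z (by decide) (by decide) (by decide) (by decide) (by decide)).1, runT_out (by simp; omega)]
        rfl
      · intro t x
        have : (Sum.inr t : BT A) ∉ [(o .Stk : BT A), o .Rp, o .Tmp, o .D, o .Ta] := by simp [o]
        rw [s02.tape this]
        exact hB t x
    · rw [b5, s1.tape (nS _ (by decide))]
      exact hD
    · exact (hRz _ (by decide)).of_same s02 (nL _ (by decide) (by decide) (by decide) (by decide) (by decide))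
    · exact (hRz _ (by decide)).of_same s02 (nL _ (by decide) (by decide) (by decide) (by decide) (by decide))
    · exact (hRz _ (by decide)).of_same s02 (nL _ (by decide) (by decide) (by decide) (by decide) (by decide))
    · exact (hRz _ (by decide)).of_same s02 (nL _ (by decide) (by decide) (by decide) (by decide) (by decide))
    · rw [StkOK]
      have n2 : (o .Stk : BT A) ∉ [(o .Rp : BT A), o .Tmp, o .D, o .Ta] := by simp [o]
      rw [s2.tape n2, s2.head n2, a2, a1, h0 _ (by decide)]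
  obtain ⟨c3, r3, h3⟩ := fwd_spec hA a0 a0 c2 [] f (le_refl _) hT0
  rw [List.append_nil] at h3
  obtain ⟨c4, r4, h4⟩ := bwd_spec hA a0 (levels a0).reverse c3 _ (fun b hb => levels_le a0 b (by simpa using hb)) h3
  exact ⟨c4, r1.seq (r2.seq (r3.seq r4)), h4.hD⟩

end

/-- The finite set of own tapes. -/
noncomputable def finOwn : Fintype Own := by
  refine Fintype.ofList [.D, .W1, .W2, .W3, .Acc, .Cy, .Z, .TE, .TD, .U1, .U2, .U3, .V1, .V2, .V3, .Tt, .Tmp, .Tmp2,
    .Rp, .Rq, .Re, .RP, .RQ, .RN, .R2N, .RL, .Rr, .RB, .RBe, .RBL, .RBL1, .Rk, .RN1B, .RNB, .R2NB, .R4NB, .RS,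
    .Rt, .RLt, .Ex, .Ey, .Ez, .Ek, .Er, .Ekap, .Et, .ERes, .Ta, .A1, .A2, .A3, .K0, .Stk, .Fl, .R2k, .Rk1, .Rone] ?_
  intro x
  cases x <;> simp

/-- The alphabet of the machine is finite. -/
noncomputable def finSym (G : Type) (h : Fintype G) : Fintype (Sym G) :=
  letI := h
  Fintype.ofInjective
    (fun s : Sym G => match s with
      | .blank => (Sum.inl 0 : Fin 4 ⊕ (G × Bool))
      | .zero => Sum.inl 1
      | .one => Sum.inl 2
      | .mark => Sum.inl 3
      | .a g b => Sum.inr (g, b))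
    (by
      intro s t hst
      cases s <;> cases t <;> simp_all)

/-- The transposition machine built from a multiplication machine. -/
noncomputable def machine (A : MTM) : MTM :=
  compile (@instFintypeSum _ _ finOwn A.fT) (finSym A.Γ A.fΓ) (top A) (o .D) (o .D) Sym.blank Sym.zero Sym.one Sym.mark
    (by simp) (by simp) (by simp) (by simp) (by simp) (by simp)

theorem machine_bitSym (A : MTM) (b : Bool) : (machine A).bitSym b = (Sym.ofBit b : Sym A.Γ) := by
  cases b <;> rfl

theorem init_word (M : MTM) (b : ℕ → Bool) (n : ℕ) (t : M.T) (x : ℤ) :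
    (M.init ((List.range n).map fun i => M.bitSym (b i))).tape t x =
      if t = M.inp ∧ 0 ≤ x ∧ x < n then M.bitSym (b x.toNat) else M.blank := by
  change (if t = M.inp ∧ 0 ≤ x then ((List.range n).map fun i => M.bitSym (b i)).getD x.toNat M.blank else M.blank) = _
  by_cases h1 : t = M.inp
  · by_cases h2 : 0 ≤ x
    · rw [if_pos ⟨h1, h2⟩]
      by_cases h3 : x < n
      · rw [if_pos ⟨h1, h2, h3⟩, List.getD_eq_getElem _ _ (by simp; omega)]
        simp only [List.getElem_map, List.getElem_range]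
      · rw [if_neg (by tauto), List.getD_eq_default]
        simp only [List.length_map, List.length_range]
        omega
    · rw [if_neg (by tauto), if_neg (by tauto)]
  · rw [if_neg (by tauto), if_neg (by tauto)]

theorem machine_transposes {A : MTM} {τ : ℕ → ℕ} (hA : Multiplies A τ) :
    Transposes (machine A) (fun a => topCost (@Finset.univ A.T A.fT).card a τ) := by
  intro a f
  set f0 : ℕ → Bool := fun i => f (i / 2 ^ a) (i % 2 ^ a) with hf0
  set I := (machine A).init ((List.range (4 ^ a)).map fun i => (machine A).bitSym (f0 i)) with hI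
  let c : TS (BT A) (BG A) := ⟨I.tape, I.head⟩
  have hcT : ∀ t x, c.tape t x = if t = o .D ∧ 0 ≤ x ∧ x < ((4 ^ a : ℕ) : ℤ) then Sym.ofBit (f0 x.toNat) else Sym.blank := by
    intro t x
    have := init_word (machine A) f0 (4 ^ a) t x
    by_cases h : t = o .D ∧ 0 ≤ x ∧ x < ((4 ^ a : ℕ) : ℤ)
    · rw [if_pos h]
      exact this.trans ((if_pos h).trans (machine_bitSym A _))
    · rw [if_neg h]
      exact this.trans (if_neg h)
  have h0 : ∀ a' : Own, a' ≠ .D → c.tape (o a') = fun _ => .blank := by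
    intro a' ha'
    funext x
    rw [hcT, if_neg]
    rintro ⟨h1, _⟩
    exact ha' (Sum.inl_injective h1)
  have hD : c.tape (o .D) = dataT (4 ^ a) f0 := by
    funext x
    rw [hcT]
    by_cases hx : 0 ≤ x ∧ x < ((4 ^ a : ℕ) : ℤ)
    · rw [if_pos ⟨rfl, hx⟩]
      unfold dataT
      rw [if_pos hx]
    · rw [if_neg (by tauto), dataT_out (by omega)]
  have hB : ∀ t x, c.tape (Sum.inr t) x = .blank := by
    intro t x
    rw [hcT, if_neg]
    rintro ⟨h1, _⟩
    simp [o] at h1
  obtain ⟨c', r, hc'⟩ := top_spec hA a f0 c h0 hD hB (fun _ => rfl)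
  obtain ⟨t, ht, hrun, hstop⟩ := compile_halts (@instFintypeSum _ _ finOwn A.fT) (finSym A.Γ A.fΓ) (top A) (o .D) (o .D)
    Sym.blank Sym.zero Sym.one Sym.mark (by simp) (by simp) (by simp) (by simp) (by simp) (by simp) r
  refine ⟨t, ht, ⟨none, c'.tape, c'.head⟩, hrun, hstop, ?_, ?_⟩
  · intro r' k hr' hk
    change c'.tape (o .D) _ = _
    rw [hc', machine_bitSym]
    have hlt : k * 2 ^ a + r' < 4 ^ a := by
      have e : (4 : ℕ) ^ a = 2 ^ a * 2 ^ a := by
        rw [← mul_pow]
        norm_num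
      have : (k + 1) * 2 ^ a ≤ 2 ^ a * 2 ^ a := Nat.mul_le_mul_right _ hk
      rw [add_mul, one_mul] at this
      omega
    rw [dataT_in hlt]
    congr 1
    have h1 := full_isT a f0 0 r' k hr' hk
    simp only [zero_mul, zero_add] at h1
    have h2 : topF a f0 (k * 2 ^ a + r') = f0 (r' * 2 ^ a + k) := h1
    rw [h2]
    have hp : 0 < 2 ^ a := by positivity
    simp only [hf0]
    rw [add_comm (r' * 2 ^ a) k, Nat.add_mul_div_right _ _ hp, Nat.div_eq_of_lt hk, zero_add,
      Nat.add_mul_mod_self_right, Nat.mod_eq_of_lt hk]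
  · intro i hi
    change c'.tape (o .D) _ = _
    rw [hc', dataT_out (by push_cast; exact hi)]
    rfl

end Vale.Agent.Lib.P338
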