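import Vale.Agent.Lib.P338.MulIn

/-!
The multiplication stage: run the simulated multiplier, read its output, clean its tapes.
-/

namespace Vale.Agent.Lib.P338

open Prog

section
variable (A : MTM)

/-- Make the cell under the head a visited cell. -/
noncomputable def touchC (X : BT A) : Prog (BT A) (BG A) :=
  act1 X (fun s => .a (dec A (s X)) (flagOf (s X))) .S

/-- Find the origin of a simulated tape. -/
noncomputable def goOrigin (X : BT A) : Prog (BT A) (BG A) :=
  .seq (touchC A X) (.seq (sc0 (fun s => s.nonBlank && !flagOf s) X .L fun x => x)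
    (.ite (fun s => !(s X).nonBlank) (.seq (mv X .R) (sc0 (fun s => !flagOf s) X .R fun x => x)) skip))

/-- Erase the visited part of a simulated tape. -/
noncomputable def cleanT (X : BT A) : Prog (BT A) (BG A) :=
  .seq (touchC A X) (.seq (sc0 Sym.nonBlank X .L fun x => x) (.seq (mv X .R) (sc0 Sym.nonBlank X .R fun _ => .blank)))

/-- Erase several simulated tapes. -/
noncomputable def cleanAll : List A.T → Prog (BT A) (BG A)
  | [] => skip
  | t :: l => .seq (cleanT A (Sum.inr t)) (cleanAll l)

/-- A cell of the output of the simulated machine as a bit. -/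
noncomputable def rdBit (s : Sym A.Γ) : Sym A.Γ := Sym.ofBit (decide (dec A s = A.b1))

/-- Copy the output of the simulated machine to `W3`, most significant bit first. -/
noncomputable def mulOut : Prog (BT A) (BG A) :=
  .seq (mvBy (o .R4NB) (o .W3) .R) (.seq (mv (o .W3) .L)
    (.seq (copyD (o .R4NB) (outT A) .R (o .W3) .L (rdBit A)) (mv (o .W3) .R)))

/-- The multiplication stage. -/
noncomputable def mul : Prog (BT A) (BG A) :=
  .seq (mulIn A) (.seq (runA A) (.seq (goOrigin A (outT A)) (.seq (mulOut A)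
    (cleanAll A (@Finset.univ A.T A.fT).toList))))

variable {A}

/-- The visited part of a tape is an interval. -/
def Itv (τ : ℤ → Sym A.Γ) (lo hi : ℤ) : Prop :=
  (∀ x, lo ≤ x → x < hi → (τ x).nonBlank = true) ∧ (∀ x, (x < lo ∨ hi ≤ x) → τ x = .blank)

theorem touchC_spec (X : BT A) (c : TS (BT A) (BG A)) {lo hi : ℤ} (hI : Itv (c.tape X) lo hi)
    (h1 : lo - 1 ≤ c.head X) (h2 : c.head X ≤ hi) :
    ∃ c', Run (touchC A X) c c' 1 ∧ c'.head X = c.head X ∧
      Itv (c'.tape X) (min lo (c.head X)) (max hi (c.head X + 1)) ∧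
      (∀ x, dec A (c'.tape X x) = dec A (c.tape X x)) ∧
      (∀ x, flagOf (c'.tape X x) = flagOf (c.tape X x)) ∧
      Same [X] c c' := by
  obtain ⟨c', r, a1, a2, a3⟩ := act1_spec X (fun s => .a (dec A (s X)) (flagOf (s X))) .S c
  refine ⟨c', r, by rw [a1]; simp [Dir.toInt], ⟨?_, ?_⟩, ?_, ?_, a3⟩
  · intro x hx1 hx2
    rw [a2]
    by_cases hx : x = c.head X
    · rw [if_pos hx]; rfl
    · rw [if_neg hx]
      exact hI.1 x (by omega) (by omega)
  · intro x hx
    rw [a2, if_neg (by omega)]
    exact hI.2 x (by omega)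
  · intro x
    rw [a2]
    by_cases hx : x = c.head X
    · rw [if_pos hx, hx]; rfl
    · rw [if_neg hx]
  · intro x
    rw [a2]
    by_cases hx : x = c.head X
    · rw [if_pos hx, hx]; rfl
    · rw [if_neg hx]

theorem cleanT_spec (X : BT A) (c : TS (BT A) (BG A)) {lo hi : ℤ} {Λ : ℕ} (hI : Itv (c.tape X) lo hi)
    (h1 : lo - 1 ≤ c.head X) (h2 : c.head X ≤ hi) (h3 : lo ≤ hi) (hΛ : hi - lo ≤ Λ) :
    ∃ c', Run (cleanT A X) c c' (4 * Λ + 12) ∧ (∀ x, c'.tape X x = .blank) ∧ Same [X] c c' := by
  obtain ⟨c1, r1, a1, a2, _, _, a5⟩ := touchC_spec X c hI h1 h2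
  set lo' := min lo (c.head X) with hlo'
  set hi' := max hi (c.head X + 1) with hhi'
  have hlo1 : lo' ≤ c.head X := by omega
  have hhi1 : c.head X < hi' := by omega
  -- scan to the left end
  obtain ⟨c2, r2, b1, b2, b3, b4⟩ := sc0_spec Sym.nonBlank X .L (fun x => x) (by simp) c1
    (c.head X - lo' + 1).toNat
    (by
      intro i hi0
      rw [a1]
      simp only [Dir.toInt]
      apply a2.1 <;> omega)
    (by
      rw [a1]
      simp only [Dir.toInt]
      rw [a2.2 _ (by left; omega)]
      rfl)
  have t2 : c2.tape X = c1.tape X := same_of_hit_miss b2 b3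
  have hh2 : c2.head X = lo' - 1 := by
    rw [b1, a1]
    simp only [Dir.toInt]
    omega
  obtain ⟨c3, r3, d1, d2, d3⟩ := mv_spec X .R c2
  have hh3 : c3.head X = lo' := by
    rw [d1, hh2]
    simp only [Dir.toInt]
    ring
  have t3 : c3.tape X = c1.tape X := by rw [d2, t2]
  -- erase
  obtain ⟨c4, r4, f1, f2, f3, f4⟩ := sc0_spec Sym.nonBlank X .R (fun _ => .blank) (by simp) c3
    (hi' - lo').toNat
    (by
      intro i hi0
      rw [t3, hh3]
      simp only [Dir.toInt, mul_one]
      apply a2.1 <;> omega)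
    (by
      rw [t3, hh3]
      simp only [Dir.toInt, mul_one]
      rw [a2.2 _ (by right; omega)]
      rfl)
  refine ⟨c4, (r1.seq (r2.seq (r3.seq r4))).mono (by omega), ?_, (a5.trans (b4.trans (d3.trans f4))).mono (by simp)⟩
  intro x
  by_cases hx : lo' ≤ x ∧ x < hi'
  · have := f2 (x - lo').toNat (by omega)
    rw [hh3] at this
    simp only [Dir.toInt, mul_one] at this
    have e : lo' + ((x - lo').toNat : ℤ) = x := by omega
    rw [e] at this
    exact this
  · rw [f3 x (by
      rw [hh3]
      intro j hj he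
      simp only [Dir.toInt, mul_one] at he
      omega), t3]
    exact a2.2 x (by omega)

theorem cleanAll_spec (l : List A.T) (hl : l.Nodup) (c : TS (BT A) (BG A)) {Λ : ℕ}
    (h : ∀ t ∈ l, ∃ lo hi, Itv (c.tape (Sum.inr t)) lo hi ∧ lo - 1 ≤ c.head (Sum.inr t) ∧
      c.head (Sum.inr t) ≤ hi ∧ lo ≤ hi ∧ hi - lo ≤ Λ) :
    ∃ c', Run (cleanAll A l) c c' (l.length * (4 * Λ + 12) + 1) ∧
      (∀ t ∈ l, ∀ x, c'.tape (Sum.inr t) x = .blank) ∧
      (∀ t, (∀ u ∈ l, t ≠ Sum.inr u) → c'.tape t = c.tape t ∧ c'.head t = c.head t) := by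
  induction l generalizing c with
  | nil =>
    refine ⟨c, skip_spec c |>.mono (by simp), by simp, fun _ _ => ⟨rfl, rfl⟩⟩
  | cons t l ih =>
    simp only [List.nodup_cons] at hl
    obtain ⟨lo, hi, h1, h2, h3, h4, h5⟩ := h t (by simp)
    obtain ⟨c1, r1, a1, a2⟩ := cleanT_spec (Sum.inr t) c h1 h2 h3 h4 h5
    obtain ⟨c2, r2, b1, b2⟩ := ih hl.2 c1 (by
      intro u hu
      have hne : (Sum.inr u : BT A) ∉ [(Sum.inr t : BT A)] := by
        simp only [List.mem_singleton, Sum.inr.injEq]
        intro he
        subst he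
        exact hl.1 hu
      rw [a2.tape hne, a2.head hne]
      exact h u (by simp [hu]))
    refine ⟨c2, (r1.seq r2).mono ?_, ?_, ?_⟩
    · simp only [List.length_cons]
      rw [add_mul]
      omega
    · intro u hu x
      simp only [List.mem_cons] at hu
      rcases hu with rfl | hu
      · rw [(b2 _ (by
          intro v hv he
          simp only [Sum.inr.injEq] at he
          subst he
          exact hl.1 hv)).1]
        exact a1 x
      · exact b1 u hu x
    · intro t' ht'
      have e1 := b2 t' (fun u hu => ht' u (by simp [hu]))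
      have e2 := a2 t' (by
        simp only [List.mem_singleton]
        exact ht' t (by simp))
      exact ⟨e1.1.trans e2.1, e1.2.trans e2.2⟩

theorem goOrigin_spec (X : BT A) (c : TS (BT A) (BG A)) {lo hi base : ℤ} (hI : Itv (c.tape X) lo hi)
    (h1 : lo - 1 ≤ c.head X) (h2 : c.head X ≤ hi) (h3 : lo ≤ base) (h4 : base < hi)
    (hf : ∀ x, flagOf (c.tape X x) = true ↔ x = base) :
    ∃ c', Run (goOrigin A X) c c' (4 * (hi - lo).toNat + 12) ∧ c'.head X = base ∧
      Itv (c'.tape X) (min lo (c.head X)) (max hi (c.head X + 1)) ∧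
      (∀ x, dec A (c'.tape X x) = dec A (c.tape X x)) ∧ Same [X] c c' := by
  obtain ⟨c1, r1, a1, a2, a3, a4, a5⟩ := touchC_spec X c hI h1 h2
  set lo' := min lo (c.head X) with hlo'
  set hi' := max hi (c.head X + 1) with hhi'
  have hf1 : ∀ x, flagOf (c1.tape X x) = true ↔ x = base := fun x => by rw [a4]; exact hf x
  have hbase : lo' ≤ base ∧ base < hi' := by omega
  by_cases hcase : base ≤ c.head X
  · -- the origin is to the left
    obtain ⟨c2, r2, b1, b2, b3, b4⟩ := sc0_spec (fun s => s.nonBlank && !flagOf s) X .L (fun x => x) (by simp) c1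
      (c.head X - base).toNat
      (by
        intro i hi0
        rw [a1]
        simp only [Dir.toInt, Bool.and_eq_true, Bool.not_eq_true']
        constructor
        · apply a2.1 <;> omega
        · cases hb : flagOf (c1.tape X (c.head X + (i : ℤ) * -1))
          · rfl
          · have := (hf1 _).1 hb
            omega)
      (by
        rw [a1]
        simp only [Dir.toInt]
        have e : c.head X + ((c.head X - base).toNat : ℤ) * -1 = base := by omega
        rw [e, (hf1 base).2 rfl]
        simp)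
    have t2 : c2.tape X = c1.tape X := same_of_hit_miss b2 b3
    have hh2 : c2.head X = base := by
      rw [b1, a1]
      simp only [Dir.toInt]
      omega
    have hrd : (!(c2.read X).nonBlank) = false := by
      simp only [TS.read, t2, hh2]
      rw [a2.1 _ hbase.1 hbase.2]
      rfl
    have r3 := Run.iteF (a := .seq (mv X .R) (sc0 (fun s => !flagOf s) X .R fun x => x)) (g := fun s => !(s X).nonBlank) hrd (skip_spec c2)
    refine ⟨c2, (r1.seq (r2.seq r3)).mono ?_, hh2, by rw [t2]; exact a2, by intro x; rw [t2]; exact a3 x,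
      (a5.trans b4).mono (by simp)⟩
    omega
  · -- the origin is to the right
    obtain ⟨c2, r2, b1, b2, b3, b4⟩ := sc0_spec (fun s => s.nonBlank && !flagOf s) X .L (fun x => x) (by simp) c1
      (c.head X - lo' + 1).toNat
      (by
        intro i hi0
        rw [a1]
        simp only [Dir.toInt, Bool.and_eq_true, Bool.not_eq_true']
        constructor
        · apply a2.1 <;> omega
        · cases hb : flagOf (c1.tape X (c.head X + (i : ℤ) * -1))
          · rfl
          · have := (hf1 _).1 hb
            omega)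
      (by
        rw [a1]
        simp only [Dir.toInt]
        rw [a2.2 _ (by left; omega)]
        rfl)
    have t2 : c2.tape X = c1.tape X := same_of_hit_miss b2 b3
    have hh2 : c2.head X = lo' - 1 := by
      rw [b1, a1]
      simp only [Dir.toInt]
      omega
    have hrd : (!(c2.read X).nonBlank) = true := by
      simp only [TS.read, t2, hh2]
      rw [a2.2 _ (by left; omega)]
      rfl
    obtain ⟨c3, r3, d1, d2, d3⟩ := mv_spec X .R c2
    have hh3 : c3.head X = lo' := by
      rw [d1, hh2]
      simp only [Dir.toInt]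
      ring
    have t3 : c3.tape X = c1.tape X := by rw [d2, t2]
    obtain ⟨c4, r4, f1, f2, f3, f4⟩ := sc0_spec (fun s => !flagOf s) X .R (fun x => x) (by simp) c3
      (base - lo').toNat
      (by
        intro i hi0
        rw [t3, hh3]
        simp only [Dir.toInt, mul_one, Bool.not_eq_true']
        cases hb : flagOf (c1.tape X (lo' + (i : ℤ)))
        · rfl
        · have := (hf1 _).1 hb
          omega)
      (by
        rw [t3, hh3]
        simp only [Dir.toInt, mul_one]
        have e : lo' + ((base - lo').toNat : ℤ) = base := by omega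
        rw [e, (hf1 base).2 rfl]
        rfl)
    have t4 : c4.tape X = c3.tape X := same_of_hit_miss f2 f3
    have hh4 : c4.head X = base := by
      rw [f1, hh3]
      simp only [Dir.toInt, mul_one]
      omega
    have r5 := Run.iteT (b := skip) (g := fun s => !(s X).nonBlank) hrd (r3.seq r4)
    refine ⟨c4, (r1.seq (r2.seq r5)).mono ?_, hh4, by rw [t4, t3]; exact a2, by intro x; rw [t4, t3]; exact a3 x,
      (a5.trans (b4.trans (d3.trans f4))).mono (by simp)⟩
    omega

/-- The cost bound of the multiplication stage. -/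
def mulCost (k n T : ℕ) : ℕ := 64 * n + 64 + T + (k + 1) * (4 * (2 * n + 2 + T) + 12)

theorem sim_base {c : TS (BT A) (BG A)} {a : A.Cfg} {base lo hi : A.T → ℤ} (h : SimT c a base lo hi) (t : A.T) :
    lo t ≤ base t ∧ base t < hi t := by
  obtain ⟨_, _, _, _, _, h8, h9⟩ := h t
  have h10 : ¬ (base t < lo t ∨ hi t ≤ base t) := by
    intro hh
    have e1 := h8 _ hh
    have e2 := (h9 (base t)).2 rfl
    rw [e1] at e2
    simp at e2
  omega

theorem rdBit_bitSym (b : Bool) : Sym.isOne (rdBit A (.a (A.bitSym b) false)) = b := by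
  cases b
  · simp [rdBit, MTM.bitSym, A.b0_ne_b1]
  · simp [rdBit, MTM.bitSym]

theorem mul_spec {τ : ℕ → ℕ} (hA : Multiplies A τ) (c : TS (BT A) (BG A)) {n : ℕ} (hn : 1 ≤ n)
    (hR : Ruler c (o .R2NB) n) (hR4 : Ruler c (o .R4NB) (2 * n))
    (h1 : c.head (o .W1) = 0) (h2 : c.head (o .W2) = 0) (h3 : c.head (o .W3) = 0)
    (hB : ∀ t x, c.tape (Sum.inr t) x = .blank) :
    ∃ c', Run (mul A) c c' (mulCost (@Finset.univ A.T A.fT).card n (τ n)) ∧
      (∀ t x, c'.tape (Sum.inr t) x = .blank) ∧ c'.head (o .W3) = 0 ∧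
      vl (c'.tape (o .W3)) 0 (2 * n) = vl (c.tape (o .W1)) 0 n * vl (c.tape (o .W2)) 0 n ∧
      Same (o .W3 :: allA A) c c' := by
  have nA : ∀ a : Own, (Sum.inl a : BT A) ∉ allA A := not_mem_allA A
  obtain ⟨c1, r1, sim1, s1⟩ := mulIn_spec c hn hR hR4 h1 h2 hB
  obtain ⟨t, ht, a', hrun, hstop, hpost⟩ := hA n hn _ _ (length_bigE (c.tape (o .W1)) n) (length_bigE (c.tape (o .W2)) n)
  obtain ⟨c2, lo2, hi2, sub, sim2, hb⟩ := sim_run t sim1 hrun hstop
  have r2 : Run (runA A) c1 c2 (τ n + 1) := ⟨t + 1, by omega, Exec.call sub⟩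
  have s2 : Same (allA A) c1 c2 := by
    intro u hu
    cases u with
    | inl a => exact sub.frame rfl
    | inr u => exact absurd (mem_allA A u) hu
  -- find the origin of the output tape
  obtain ⟨f1, f2, f3, f4, f5, f6, f7⟩ := sim2 A.out
  obtain ⟨g1, g2⟩ := sim_base sim2 A.out
  have hIout : Itv (c2.tape (outT A)) (lo2 A.out) (hi2 A.out) := ⟨f5, f6⟩
  obtain ⟨c3, r3, i1, i2, i3, i4⟩ := goOrigin_spec (outT A) c2 hIout f3 f4 g1 g2 f7
  set base := c.head (Sum.inr A.out) with hbase
  have nO : ∀ a : Own, (Sum.inl a : BT A) ∉ [outT A] := by simp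
  have s12 : Same (allA A) c c2 := (s1.trans s2).mono (by simp)
  have hR4c3 : Ruler c3 (o .R4NB) (2 * n) := (hR4.of_same s12 (nA _)).of_same i4 (nO _)
  -- copy the output to W3
  obtain ⟨c4, r4, j1, j2, j3⟩ := mvBy_spec (o .R4NB) (o .W3) .R (by simp) (by simp) c3 hR4c3
  obtain ⟨c5, r5, k1, k2, k3⟩ := mv_spec (o .W3) .L c4
  have hR4c5 : Ruler c5 (o .R4NB) (2 * n) := (hR4c3.of_same j3 (by simp)).of_same k3 (by simp)
  obtain ⟨c6, r6, l1, l2, l3, l4, l5, l6⟩ := copyD_spec (o .R4NB) (outT A) .R (o .W3) .L (rdBit A)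
    (by simp) (by simp) (by simp) (by simp) (by simp) c5 hR4c5
  obtain ⟨c7, r7, m1, m2, m3⟩ := mv_spec (o .W3) .R c6
  have hW5 : c5.head (o .W3) = 2 * (n : ℤ) - 1 := by
    rw [k1, j1, i4.head (nO _), s12.head (nA _), h3]
    simp only [Dir.toInt]
    push_cast
    ring
  have hout5 : c5.head (outT A) = base := by
    rw [k3.head (by simp), j3.head (by simp), i1]
  have tout5 : c5.tape (outT A) = c3.tape (outT A) := by
    rw [k3.tape (by simp), j3.tape (by simp)]
  -- the value
  have hZ : val (bigE (c.tape (o .W1)) n) * val (bigE (c.tape (o .W2)) n) =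
      vl (c.tape (o .W1)) 0 n * vl (c.tape (o .W2)) 0 n := by
    rw [val_bigE, val_bigE]
  set Z := val (bigE (c.tape (o .W1)) n) * val (bigE (c.tape (o .W2)) n) with hZdef
  have hZlt : Z < 2 ^ (2 * n) := by
    rw [hZ, two_mul, pow_add]
    exact Nat.mul_lt_mul'' (vl_lt _ _ _) (vl_lt _ _ _)
  have hcell : ∀ j : ℕ, j < 2 * n → dec A (c3.tape (outT A) (base + j)) =
      A.bitSym (Nat.testBit Z (2 * n - 1 - j)) := by
    intro j hj
    rw [i3, f1]
    exact hpost j hj
  have hval : vl (c7.tape (o .W3)) 0 (2 * n) = Z := by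
    have : vl (c7.tape (o .W3)) 0 (2 * n) = Z % 2 ^ (2 * n) := by
      apply vl_of_testBit
      intro i hi
      have hj : 2 * n - 1 - i < 2 * n := by omega
      have := l4 (2 * n - 1 - i) hj
      rw [hW5, hout5, tout5] at this
      simp only [Dir.toInt, mul_one] at this
      have e : 2 * (n : ℤ) - 1 + ((2 * n - 1 - i : ℕ) : ℤ) * -1 = 0 + (i : ℤ) := by
        omega
      rw [e] at this
      rw [m2, this]
      have e2 : rdBit A (c3.tape (outT A) (base + ((2 * n - 1 - i : ℕ) : ℤ))) =
          Sym.ofBit (decide (A.bitSym (Nat.testBit Z (2 * n - 1 - (2 * n - 1 - i))) = A.b1)) := by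
        unfold rdBit
        rw [hcell _ hj]
      rw [e2, Sym.isOne_ofBit]
      have e3 : 2 * n - 1 - (2 * n - 1 - i) = i := by omega
      rw [e3]
      cases hb' : Nat.testBit Z i
      · simp [MTM.bitSym, A.b0_ne_b1]
      · simp [MTM.bitSym]
    rw [this, Nat.mod_eq_of_lt hZlt]
  -- erase the simulated tapes
  have hinc := hb
  have hRunHi : ∀ u, (fun t => if t = A.inp then c.head (Sum.inr t) + 2 * (n : ℤ) + 1 else c.head (Sum.inr t) + 1) u -
      c.head (Sum.inr u) ≤ 2 * n + 1 := by
    intro u
    by_cases hu : u = A.inp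
    · simp only [if_pos hu]; omega
    · simp only [if_neg hu]; omega
  have hw : ∀ u, hi2 u - lo2 u ≤ 2 * n + 1 + τ n := by
    intro u
    have e1 := hb u
    have e2 := hRunHi u
    beta_reduce at e1 e2
    have : (t : ℤ) ≤ τ n := by exact_mod_cast ht
    omega
  have hOutKeep : c7.tape (outT A) = c3.tape (outT A) := by
    rw [m3.tape (by simp), l2, tout5]
  have hOutHead : c7.head (outT A) = base + 2 * n := by
    rw [m3.head (by simp), l1, hout5]
    simp only [Dir.toInt]
    push_cast
    ring
  have hOther : ∀ u, u ≠ A.out → c7.tape (Sum.inr u) = c2.tape (Sum.inr u) ∧ c7.head (Sum.inr u) = c2.head (Sum.inr u) := by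
    intro u hu
    have hne : (Sum.inr u : BT A) ≠ outT A := by
      simp only [outT, ne_eq, Sum.inr.injEq]
      exact hu
    have s37 : Same [outT A, o .W3] c2 c7 := by
      have := (i4.trans (j3.trans (k3.trans (l6.trans m3))))
      exact this.mono (by
        intro x hx
        simp only [List.mem_append, List.mem_cons, List.not_mem_nil, or_false] at hx ⊢
        tauto)
    have hnm : (Sum.inr u : BT A) ∉ [outT A, o .W3] := by
      simp only [List.mem_cons, List.not_mem_nil, or_false, not_or]
      exact ⟨hne, by simp⟩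
    exact ⟨s37.tape hnm, s37.head hnm⟩
  obtain ⟨c8, r8, n1, n2⟩ := cleanAll_spec (@Finset.univ A.T A.fT).toList (Finset.nodup_toList _) c7
    (Λ := 2 * n + 2 + τ n) (by
      intro u _
      by_cases hu : u = A.out
      · subst hu
        have hlast : base + 2 * (n : ℤ) - 1 < max (hi2 A.out) (c2.head (outT A) + 1) := by
          by_contra hcon
          have e := i2.2 (base + ((2 * n - 1 : ℕ) : ℤ)) (by
            right
            push_cast [Nat.cast_sub (show 1 ≤ 2 * n by omega)]
            omega)
          have e2 := hcell (2 * n - 1) (by omega)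
          rw [e] at e2
          simp only [dec_blank] at e2
          cases hx : Nat.testBit Z (2 * n - 1 - (2 * n - 1)) <;> simp only [hx, MTM.bitSym, if_true, Bool.false_eq_true, if_false] at e2
          · exact A.blank_ne_b0 e2
          · exact A.blank_ne_b1 e2
        have hlow : min (lo2 A.out) (c2.head (outT A)) ≤ base := by omega
        refine ⟨min (lo2 A.out) (c2.head (outT A)), max (hi2 A.out) (c2.head (outT A) + 1), ?_, ?_, ?_, ?_, ?_⟩
        · change Itv (c7.tape (outT A)) _ _
          rw [hOutKeep]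
          exact i2
        · change _ ≤ c7.head (outT A)
          rw [hOutHead]
          omega
        · change c7.head (outT A) ≤ _
          rw [hOutHead]
          omega
        · omega
        · have := hw A.out
          have e3 : (outT A) = (Sum.inr A.out : BT A) := rfl
          rw [e3] at hlast ⊢
          omega
      · obtain ⟨o1, o2⟩ := hOther u hu
        obtain ⟨_, _, p3, p4, p5, p6, _⟩ := sim2 u
        obtain ⟨p7, p8⟩ := sim_base sim2 u
        refine ⟨lo2 u, hi2 u, ?_, ?_, ?_, ?_, ?_⟩
        · rw [o1]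
          exact ⟨p5, p6⟩
        · rw [o2]; exact p3
        · rw [o2]; exact p4
        · omega
        · have := hw u
          omega)
  have hW8 : ∀ u : BT A, (∀ v ∈ (@Finset.univ A.T A.fT).toList, u ≠ Sum.inr v) →
      c8.tape u = c7.tape u ∧ c8.head u = c7.head u := n2
  have hW3 := hW8 (o .W3) (by simp)
  have s78 : Same (allA A) c7 c8 := by
    intro u hu
    cases u with
    | inl a =>
      exact hW8 _ (by simp)
    | inr u => exact absurd (mem_allA A u) hu
  refine ⟨c8, ?_, ?_, ?_, ?_, ?_⟩
  · have hgo : 4 * (hi2 A.out - lo2 A.out).toNat + 12 ≤ 4 * (2 * n + 1 + τ n) + 12 := by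
      have := hw A.out
      omega
    have hcard : (@Finset.univ A.T A.fT).toList.length = (@Finset.univ A.T A.fT).card := Finset.length_toList _
    rw [hcard] at r8
    refine (r1.seq (r2.seq (r3.seq ((r4.seq (r5.seq (r6.seq r7))).seq r8)))).mono ?_
    unfold mulCost
    generalize (@Finset.univ A.T A.fT).card = k at *
    have e : (k + 1) * (4 * (2 * n + 2 + τ n) + 12) = k * (4 * (2 * n + 2 + τ n) + 12) + (4 * (2 * n + 2 + τ n) + 12) := by ring
    rw [e]
    have hN : 1 ≤ 1 := le_refl 1
    omega
  · intro u x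
    exact n1 u (Finset.mem_toList.2 (@Finset.mem_univ _ A.fT u)) x
  · rw [hW3.2, m1, l3, k1, j1, i4.head (nO _), s12.head (nA _), h3]
    simp only [Dir.toInt]
    push_cast
    ring
  · rw [hW3.1, hval, hZ]
  · have := (s12.trans (i4.trans (j3.trans (k3.trans (l6.trans (m3.trans s78))))))
    exact this.mono (by
      intro x hx
      have hO : outT A ∈ allA A := mem_allA A A.out
      by_cases hxA : x ∈ allA A
      · exact List.mem_cons_of_mem _ hxA
      · have hne : x ≠ outT A := fun e => hxA (e ▸ hO)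
        simp only [List.mem_append, List.mem_cons, List.not_mem_nil, or_false] at hx ⊢
        tauto)

end

end Vale.Agent.Lib.P338
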