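import Vale.Agent.Lib.P338.Sim

/-!
Preparing the input of the multiplier on the tapes that simulate it.
-/

namespace Vale.Agent.Lib.P338

open Prog

section
variable (A : MTM)

/-- The list of all simulated tapes. -/
noncomputable def allA : List (BT A) := (@Finset.univ A.T A.fT).toList.map Sum.inr

theorem mem_allA (t : A.T) : (Sum.inr t : BT A) ∈ allA A := by
  simp only [allA, List.mem_map, Finset.mem_toList]
  exact ⟨t, @Finset.mem_univ _ A.fT t, rfl⟩

theorem not_mem_allA (a : Own) : (Sum.inl a : BT A) ∉ allA A := by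
  simp [allA]

/-- The simulated input tape. -/
abbrev inpT : BT A := Sum.inr A.inp

/-- The simulated output tape. -/
abbrev outT : BT A := Sum.inr A.out

/-- Write a bit read from a working tape to a simulated tape. -/
def wrBit (s : Sym A.Γ) : Sym A.Γ := .a (A.bitSym s.isOne) false

/-- Set the origin flags on all simulated tapes. -/
def setFlags : Prog (BT A) (BG A) :=
  .act (isA A) fun s => (fun tt => .a (dec A (s tt)) true, fun _ => .S)

/-- Write one number, most significant bit first, on the input tape of the simulated machine. -/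
noncomputable def wrNum (W : Own) : Prog (BT A) (BG A) :=
  .seq (mvBy (o .R2NB) (o W) .R) (.seq (mv (o W) .L)
    (.seq (copyD (o .R2NB) (o W) .L (inpT A) .R (wrBit A)) (mv (o W) .R)))

/-- Prepare the input. -/
noncomputable def mulIn : Prog (BT A) (BG A) :=
  .seq (wrNum A .W1) (.seq (act1 (inpT A) (fun _ => .a A.sep false) .R) (.seq (wrNum A .W2)
    (.seq (mvBy (o .R4NB) (inpT A) .L) (.seq (mv (inpT A) .L) (setFlags A)))))

variable {A}

/-- The big-endian bit list of a stretch of tape. -/
def bigE (τ : ℤ → Sym A.Γ) (n : ℕ) : List Bool :=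
  (List.range n).map fun i : ℕ => (τ ((n : ℤ) - 1 - (i : ℤ))).isOne

@[simp] theorem length_bigE (τ : ℤ → Sym A.Γ) (n : ℕ) : (bigE τ n).length = n := by
  simp [bigE]

theorem val_cons (b : Bool) (l : List Bool) : val (b :: l) = b.toNat * 2 ^ l.length + val l := by
  have key : ∀ (l : List Bool) (acc : ℕ),
      l.foldl (fun acc b => 2 * acc + b.toNat) acc = acc * 2 ^ l.length + l.foldl (fun acc b => 2 * acc + b.toNat) 0 := by
    intro l
    induction l with
    | nil => simp
    | cons x l ih =>
      intro acc
      simp only [List.foldl_cons, List.length_cons]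
      rw [ih (2 * acc + x.toNat), ih (2 * 0 + x.toNat)]
      rw [pow_succ]
      ring
  unfold val
  simp only [List.foldl_cons]
  rw [key l (2 * 0 + b.toNat)]
  ring

theorem val_bigE (τ : ℤ → Sym A.Γ) (n : ℕ) : val (bigE τ n) = vl τ 0 n := by
  induction n with
  | zero => simp [bigE, val, vl]
  | succ n ih =>
    have : bigE τ (n + 1) = (τ (n : ℤ)).isOne :: bigE τ n := by
      simp only [bigE, List.range_succ_eq_map, List.map_cons, List.map_map]
      congr 1
      · simp
      · apply List.map_congr_left
        intro i _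
        simp only [Function.comp]
        congr 2
        push_cast [Nat.succ_eq_add_one]
        ring
    rw [this, val_cons, ih, vl_succ, length_bigE]
    simp
    ring

theorem wrNum_spec (W : Own) (hW : W ≠ .R2NB) (c : TS (BT A) (BG A)) {n : ℕ}
    (hR : Ruler c (o .R2NB) n) (hH : c.head (o W) = 0) :
    ∃ c', Run (wrNum A W) c c' (8 * n + 10) ∧ c'.head (o W) = 0 ∧ c'.tape (o W) = c.tape (o W) ∧
      c'.head (inpT A) = c.head (inpT A) + n ∧
      (∀ j : ℕ, j < n → c'.tape (inpT A) (c.head (inpT A) + j) = wrBit A (c.tape (o W) ((n : ℤ) - 1 - j))) ∧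
      (∀ x, ¬ (c.head (inpT A) ≤ x ∧ x < c.head (inpT A) + n) → c'.tape (inpT A) x = c.tape (inpT A) x) ∧
      Same [inpT A] c c' := by
  have hWR : (o (X := A.T) .R2NB) ≠ o W := by simpa using hW.symm
  have hWi : (o (X := A.T) W) ≠ inpT A := by simp
  obtain ⟨c1, r1, a1, a2, a3⟩ := mvBy_spec (o .R2NB) (o W) .R hWR (by simp) c hR
  obtain ⟨c2, r2, b1, b2, b3⟩ := mv_spec (o W) .L c1
  have hR2 : Ruler c2 (o .R2NB) n := (hR.of_same a3 (by simpa using hWR)).of_same b3 (by simpa using hWR)
  obtain ⟨c3, r3, d1, d2, d3, d4, d5, d6⟩ := copyD_spec (o .R2NB) (o W) .L (inpT A) .R (wrBit A)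
    hWR (by simp) hWi (by simp) (by simp) c2 hR2
  obtain ⟨c4, r4, f1, f2, f3⟩ := mv_spec (o W) .R c3
  have nW : inpT A ∉ [o (X := A.T) W] := by simp
  have hi2 : c2.head (inpT A) = c.head (inpT A) := by rw [b3.head nW, a3.head nW]
  have ti2 : c2.tape (inpT A) = c.tape (inpT A) := by rw [b3.tape nW, a3.tape nW]
  have hW2 : c2.head (o W) = (n : ℤ) - 1 := by
    rw [b1, a1, hH]
    simp [Dir.toInt]
    ring
  refine ⟨c4, (r1.seq (r2.seq (r3.seq r4))).mono (by omega), ?_, ?_, ?_, ?_, ?_, ?_⟩
  · rw [f1, d1, hW2]
    simp only [Dir.toInt]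
    ring
  · rw [f2, d2, b2, a2]
  · rw [f3.head nW, d3, hi2]
    simp [Dir.toInt]
  · intro j hj
    have := d4 j hj
    rw [hi2, hW2, b2, a2] at this
    simp only [Dir.toInt, mul_one] at this
    rw [f3.tape nW, this]
    congr 2
    ring
  · intro x hx
    rw [f3.tape nW, d5, ti2]
    rw [hi2]
    intro j hj he
    simp only [Dir.toInt, mul_one] at he
    apply hx
    omega
  · refine Same.erase (R := o W) ((a3.trans (b3.trans (d6.trans f3))).mono (by
      intro t ht
      simp only [List.mem_append, List.mem_cons, List.not_mem_nil, or_false] at ht ⊢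
      tauto)) ?_ ?_
    · rw [f2, d2, b2, a2]
    · rw [f1, d1, hW2, hH]
      simp only [Dir.toInt]
      ring

/-- The contents of the simulated input tape before the flags are set. -/
def wordC (A : MTM) (τ1 τ2 : ℤ → Sym A.Γ) (b : ℤ) (n : ℕ) (x : ℤ) : Sym A.Γ :=
  if b ≤ x ∧ x < b + n then wrBit A (τ1 ((n : ℤ) - 1 - (x - b)))
  else if x = b + n then .a A.sep false
  else if b + n + 1 ≤ x ∧ x < b + 2 * n + 1 then wrBit A (τ2 ((n : ℤ) - 1 - (x - b - n - 1)))
  else .blank

theorem word_getD (x y : List Bool) {n : ℕ} (hx : x.length = n) (hy : y.length = n) (i : ℕ) :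
    (x.map A.bitSym ++ [A.sep] ++ y.map A.bitSym).getD i A.blank =
      if i < n then A.bitSym (x.getD i false) else if i = n then A.sep
      else if i < 2 * n + 1 then A.bitSym (y.getD (i - n - 1) false) else A.blank := by
  subst hx
  by_cases h1 : i < x.length
  · rw [if_pos h1]
    simp [List.getD, List.getElem?_append, h1]
  · rw [if_neg h1]
    by_cases h2 : i = x.length
    · subst h2
      simp [List.getD, List.getElem?_append]
    · rw [if_neg h2]
      have hk : i - x.length = (i - x.length - 1) + 1 := by omega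
      by_cases h3 : i < 2 * x.length + 1
      · rw [if_pos h3]
        have e1 : i - x.length - 1 < y.length := by omega
        simp [List.getD, List.getElem?_append, h1]
        rw [hk]
        simp [e1]
      · rw [if_neg h3]
        have e1 : y.length ≤ i - x.length - 1 := by omega
        simp [List.getD, List.getElem?_append, h1]
        rw [hk]
        simp [e1]

theorem bigE_getD (τ : ℤ → Sym A.Γ) (n i : ℕ) (hi : i < n) :
    (bigE τ n).getD i false = (τ ((n : ℤ) - 1 - i)).isOne := by
  simp [bigE, List.getD, hi]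

theorem mulIn_spec (c : TS (BT A) (BG A)) {n : ℕ} (hn : 1 ≤ n)
    (hR : Ruler c (o .R2NB) n) (hR4 : Ruler c (o .R4NB) (2 * n))
    (h1 : c.head (o .W1) = 0) (h2 : c.head (o .W2) = 0)
    (hB : ∀ t x, c.tape (Sum.inr t) x = .blank) :
    ∃ c', Run (mulIn A) c c' (32 * n + 32) ∧
      SimT c' (A.init ((bigE (c.tape (o .W1)) n).map A.bitSym ++ [A.sep] ++ (bigE (c.tape (o .W2)) n).map A.bitSym))
        (fun t => c.head (Sum.inr t)) (fun t => c.head (Sum.inr t))
        (fun t => if t = A.inp then c.head (Sum.inr t) + 2 * n + 1 else c.head (Sum.inr t) + 1) ∧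
      Same (allA A) c c' := by
  have n1 : ∀ a : Own, Sum.inl a ∉ [inpT A] := by simp
  obtain ⟨c1, r1, a1, a2, a3, a4, a5, a6⟩ := wrNum_spec (A := A) .W1 (by simp) c hR h1
  obtain ⟨c2, r2, b1, b2, b3⟩ := act1_spec (inpT A) (fun _ => .a A.sep false) .R c1
  obtain ⟨c3, r3, d1, d2, d3, d4, d5, d6⟩ := wrNum_spec (A := A) .W2 (by simp) c2
    ((hR.of_same a6 (n1 _)).of_same b3 (n1 _))
    (by rw [b3.head (n1 _), a6.head (n1 _), h2])
  obtain ⟨c4, r4, f1, f2, f3⟩ := mvBy_spec (o .R4NB) (inpT A) .L (by simp) (by simp) c3
    (((hR4.of_same a6 (n1 _)).of_same b3 (n1 _)).of_same d6 (n1 _))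
  obtain ⟨c5, r5, g1, g2, g3⟩ := mv_spec (inpT A) .L c4
  set b := c.head (inpT A) with hb
  have hd2 : c2.head (inpT A) = b + n + 1 := by
    rw [b1, a3]
    simp [Dir.toInt]
  have hd3 : c3.head (inpT A) = b + n + 1 + n := by rw [d3, hd2]
  have hd4 : c4.head (inpT A) = b + 1 := by
    rw [f1, hd3]
    simp only [Dir.toInt]
    push_cast
    ring
  have hd5 : c5.head (inpT A) = b := by
    rw [g1, hd4]
    simp [Dir.toInt]
  have t1 : c3.tape (o .W1) = c.tape (o .W1) := by
    rw [d6.tape (n1 _), b3.tape (n1 _), a6.tape (n1 _)]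
  have tt5 : c5.tape (inpT A) = wordC A (c.tape (o .W1)) (c.tape (o .W2)) b n := by
    funext x
    rw [g2, f2]
    unfold wordC
    by_cases hx1 : b ≤ x ∧ x < b + n
    · rw [if_pos hx1, d5 x (by rw [hd2]; omega), b2, if_neg (by rw [a3]; omega)]
      have := a4 (x - b).toNat (by omega)
      have e1 : b + ((x - b).toNat : ℤ) = x := by omega
      have e2 : ((x - b).toNat : ℤ) = x - b := by omega
      rw [e1, e2] at this
      exact this
    · rw [if_neg hx1]
      by_cases hx2 : x = b + n
      · rw [if_pos hx2, d5 x (by rw [hd2]; omega), b2, if_pos (by rw [a3]; exact hx2)]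
      · rw [if_neg hx2]
        by_cases hx3 : b + n + 1 ≤ x ∧ x < b + 2 * n + 1
        · rw [if_pos hx3]
          have := d4 (x - b - n - 1).toNat (by omega)
          rw [hd2] at this
          have e1 : b + n + 1 + ((x - b - n - 1).toNat : ℤ) = x := by omega
          have e2 : ((x - b - n - 1).toNat : ℤ) = x - b - n - 1 := by omega
          rw [e1, e2] at this
          rw [this, b3.tape (n1 _), a6.tape (n1 _)]
        · rw [if_neg hx3, d5 x (by rw [hd2]; omega), b2, if_neg (by rw [a3]; omega), a5 x (by omega), hB]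
  -- other simulated tapes are unchanged
  have frT : ∀ t, t ≠ A.inp → c5.tape (Sum.inr t) = c.tape (Sum.inr t) ∧ c5.head (Sum.inr t) = c.head (Sum.inr t) := by
    intro t ht
    have hne : (Sum.inr t : BT A) ∉ [inpT A] := by simpa using ht
    exact ((a6.trans (b3.trans (d6.trans (f3.trans g3)))).mono (by simp)) _ hne
  have hact : Exec (setFlags A) c5 _ 1 := Exec.act
  set c6 := c5.apply (clampW (isA A) c5.read ((fun s => ((fun tt => Sym.a (dec A (s tt)) true, fun _ => Dir.S) : (BT A → BG A) × (BT A → Dir))) c5.read).1)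
    (clampD (isA A) ((fun s => ((fun tt => Sym.a (dec A (s tt)) true, fun _ => Dir.S) : (BT A → BG A) × (BT A → Dir))) c5.read).2) with hc6
  have hh6 : ∀ t, c6.head t = c5.head t := by
    intro t
    simp only [hc6, TS.apply, clampD]
    split_ifs <;> simp [Dir.toInt]
  have ht6 : ∀ t x, c6.tape (Sum.inr t) x =
      if x = c5.head (Sum.inr t) then .a (dec A (c5.tape (Sum.inr t) x)) true else c5.tape (Sum.inr t) x := by
    intro t x
    simp only [hc6, TS.apply, clampW, isA, if_true, TS.read]
    by_cases hx : x = c5.head (Sum.inr t)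
    · rw [if_pos hx, if_pos hx, hx]
    · rw [if_neg hx, if_neg hx]
  have ho6 : ∀ a : Own, c6.tape (Sum.inl a) = c5.tape (Sum.inl a) := by
    intro a
    funext x
    simp only [hc6, TS.apply, clampW, isA, TS.read]
    by_cases hx : x = c5.head (Sum.inl a)
    · simp [hx]
    · simp [hx]
  refine ⟨c6, ?_, ?_, ?_⟩
  · refine (r1.seq (r2.seq (r3.seq (r4.seq (r5.seq ⟨1, le_rfl, hact⟩))))).mono ?_
    omega
  · intro t
    have hinit : ∀ i, (A.init ((bigE (c.tape (o .W1)) n).map A.bitSym ++ [A.sep] ++ (bigE (c.tape (o .W2)) n).map A.bitSym)).tape t i =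
        if t = A.inp ∧ 0 ≤ i then ((bigE (c.tape (o .W1)) n).map A.bitSym ++ [A.sep] ++ (bigE (c.tape (o .W2)) n).map A.bitSym).getD i.toNat A.blank else A.blank := fun _ => rfl
    by_cases ht : t = A.inp
    · subst ht
      have hbb : c.head (Sum.inr A.inp) = b := rfl
      have hc5 : c5.head (Sum.inr A.inp) = b := hd5
      have tc5 : ∀ x, c5.tape (Sum.inr A.inp) x = wordC A (c.tape (o .W1)) (c.tape (o .W2)) b n x := fun x => by
        rw [show (Sum.inr A.inp : BT A) = inpT A from rfl, tt5]
      have hdec : ∀ x, dec A (c6.tape (Sum.inr A.inp) x) = dec A (wordC A (c.tape (o .W1)) (c.tape (o .W2)) b n x) := by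
        intro x
        rw [ht6, tc5]
        by_cases hx : x = c5.head (Sum.inr A.inp)
        · rw [if_pos hx]; rfl
        · rw [if_neg hx]
      beta_reduce
      simp only [hbb, if_true]
      refine ⟨?_, ?_, ?_, ?_, ?_, ?_, ?_⟩
      · intro i
        rw [hdec, hinit]
        by_cases hi0 : 0 ≤ i
        · rw [if_pos ⟨rfl, hi0⟩, word_getD _ _ (length_bigE _ _) (length_bigE _ _)]
          have hic : ((i.toNat : ℕ) : ℤ) = i := by omega
          unfold wordC
          by_cases hi1 : i < n
          · have c1 : b ≤ b + i ∧ b + i < b + n := by omega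
            have c2 : i.toNat < n := by omega
            rw [if_pos c1, if_pos c2, bigE_getD _ _ _ c2, hic]
            have e : (n : ℤ) - 1 - (b + i - b) = (n : ℤ) - 1 - i := by ring
            rw [e]
            rfl
          · have c1 : ¬ (b ≤ b + i ∧ b + i < b + n) := by omega
            have c2 : ¬ i.toNat < n := by omega
            rw [if_neg c1, if_neg c2]
            by_cases hi2 : i = n
            · have c3 : b + i = b + n := by omega
              have c4 : i.toNat = n := by omega
              rw [if_pos c3, if_pos c4]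
              rfl
            · have c3 : ¬ b + i = b + n := by omega
              have c4 : ¬ i.toNat = n := by omega
              rw [if_neg c3, if_neg c4]
              by_cases hi3 : i < 2 * n + 1
              · have c5' : b + n + 1 ≤ b + i ∧ b + i < b + 2 * n + 1 := by omega
                have c6' : i.toNat < 2 * n + 1 := by omega
                have c7 : i.toNat - n - 1 < n := by omega
                rw [if_pos c5', if_pos c6', bigE_getD _ _ _ c7]
                have e : (n : ℤ) - 1 - (b + i - b - n - 1) = (n : ℤ) - 1 - ((i.toNat - n - 1 : ℕ) : ℤ) := by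
                  omega
                rw [e]
                rfl
              · have c5' : ¬ (b + n + 1 ≤ b + i ∧ b + i < b + 2 * n + 1) := by omega
                have c6' : ¬ i.toNat < 2 * n + 1 := by omega
                rw [if_neg c5', if_neg c6']
                rfl
        · unfold wordC
          have c1 : ¬ (b ≤ b + i ∧ b + i < b + n) := by omega
          have c3 : ¬ b + i = b + n := by omega
          have c5' : ¬ (b + n + 1 ≤ b + i ∧ b + i < b + 2 * n + 1) := by omega
          rw [if_neg c1, if_neg c3, if_neg c5', if_neg (fun h => hi0 h.2)]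
          rfl
      · rw [hh6, hd5]
        simp [MTM.init]
      · rw [hh6, hd5]
        omega
      · rw [hh6, hd5]
        omega
      · intro x hx1 hx2
        rw [ht6, tc5]
        by_cases hx : x = c5.head (Sum.inr A.inp)
        · rw [if_pos hx]; rfl
        · rw [if_neg hx]
          unfold wordC
          by_cases hx3 : b ≤ x ∧ x < b + n
          · rw [if_pos hx3]; rfl
          · rw [if_neg hx3]
            by_cases hx4 : x = b + n
            · rw [if_pos hx4]; rfl
            · have c5' : b + n + 1 ≤ x ∧ x < b + 2 * n + 1 := by omega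
              rw [if_neg hx4, if_pos c5']; rfl
      · intro x hx
        have c0 : ¬ x = c5.head (Sum.inr A.inp) := by rw [hc5]; omega
        rw [ht6, tc5, if_neg c0]
        unfold wordC
        have c1 : ¬ (b ≤ x ∧ x < b + n) := by omega
        have c3 : ¬ x = b + n := by omega
        have c5' : ¬ (b + n + 1 ≤ x ∧ x < b + 2 * n + 1) := by omega
        rw [if_neg c1, if_neg c3, if_neg c5']
      · intro x
        rw [ht6, tc5]
        by_cases hx : x = c5.head (Sum.inr A.inp)
        · rw [if_pos hx, flagOf_a]
          simp only [true_iff]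
          rw [hx, hc5]
        · rw [if_neg hx]
          rw [hc5] at hx
          simp only [hx, iff_false]
          unfold wordC
          by_cases hx3 : b ≤ x ∧ x < b + n
          · rw [if_pos hx3]; simp [wrBit]
          · rw [if_neg hx3]
            by_cases hx4 : x = b + n
            · rw [if_pos hx4]; simp
            · rw [if_neg hx4]
              by_cases hx5 : b + n + 1 ≤ x ∧ x < b + 2 * n + 1
              · rw [if_pos hx5]; simp [wrBit]
              · rw [if_neg hx5]; simp
    · obtain ⟨e1, e2⟩ := frT t ht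
      beta_reduce
      simp only [ht, if_false]
      refine ⟨?_, ?_, ?_, ?_, ?_, ?_, ?_⟩
      · intro i
        rw [hinit, if_neg (fun h : t = A.inp ∧ 0 ≤ i => ht h.1), ht6, e1, e2, hB]
        by_cases hi : c.head (Sum.inr t) + i = c.head (Sum.inr t)
        · rw [if_pos hi]; rfl
        · rw [if_neg hi]; rfl
      · rw [hh6, e2]
        simp [MTM.init]
      · rw [hh6, e2]
        omega
      · rw [hh6, e2]
        omega
      · intro x hx1 hx2
        have c0 : x = c.head (Sum.inr t) := by omega
        rw [ht6, e2, if_pos c0]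
        rfl
      · intro x hx
        have c0 : ¬ x = c.head (Sum.inr t) := by omega
        rw [ht6, e2, if_neg c0, e1, hB]
      · intro x
        rw [ht6, e2, e1, hB]
        by_cases hx : x = c.head (Sum.inr t)
        · rw [if_pos hx, flagOf_a]
          simp [hx]
        · rw [if_neg hx]
          simp [hx]
  · intro t ht
    cases t with
    | inl a =>
      have e1 : Same [inpT A] c c5 := (a6.trans (b3.trans (d6.trans (f3.trans g3)))).mono (by simp)
      rw [ho6, hh6]
      exact e1 _ (n1 _)
    | inr t => exact absurd (mem_allA A t) ht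

end

end Vale.Agent.Lib.P338
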