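import Vale.Agent.Lib.P338.Expand

/-!
The output stage: each block of `W1` is reduced modulo `2 ^ r + 1` and its relevant bits go to the data tape.
-/

namespace Vale.Agent.Lib.P338

open Prog

section stage
variable {X G : Type} [DecidableEq X]

/-- The arithmetic of the final reduction. -/
theorem out_arith {r lo hi A1 b A2 k y : ℕ} (hlo : lo < 2 ^ r) (hb : b ≤ 1) (hk : k ≤ 1) (hA1 : A1 < 2 ^ r)
    (hA2 : A2 < 2 ^ r) (e1 : (A1 : ℤ) + (-1) * (2 ^ r * b) = lo + (-1) * (hi + 0))
    (e2 : A2 + 2 ^ r * k = A1 + (0 + b)) (hA : lo + 2 ^ r * hi ≡ y [MOD 2 ^ r + 1]) (hy : y < 2 ^ r) :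
    A2 = y := by
  have hrange : A2 + 2 ^ r * k ≤ 2 ^ r := by
    rw [e2]
    rcases (by omega : b = 0 ∨ b = 1) with h | h
    · subst h
      simp only [Nat.cast_zero, mul_zero, add_zero] at e1
      have : (A1 : ℤ) ≤ lo := by push_cast at e1; simp at e1; linarith [Int.natCast_nonneg hi]
      omega
    · subst h
      omega
  have hmod : A2 + 2 ^ r * k ≡ y [MOD 2 ^ r + 1] := by
    refine Nat.ModEq.trans ?_ hA
    rw [Nat.modEq_iff_dvd]
    refine ⟨(hi : ℤ) - b, ?_⟩
    have f2 : (A2 : ℤ) + 2 ^ r * k = A1 + (0 + b) := by exact_mod_cast e2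
    push_cast
    push_cast at e1
    linear_combination -e1 - f2
  have heq : A2 + 2 ^ r * k = y :=
    Nat.ModEq.eq_of_lt_of_lt hmod (by omega) (by omega)
  rcases (by omega : k = 0 ∨ k = 1) with h | h
  · subst h
    simpa using heq
  · subst h
    omega

/-- Bit conversion. -/
def bitc (x : Sym G) : Sym G := Sym.ofBit x.isOne

/-- Reduce a block and output its relevant bits. -/
def outBlock : Prog (Own ⊕ X) (Sym G) :=
  .seq (copyD (o .Rr) (o .W1) .R (o .Acc) .R bitc) (.seq (mvBy (o .Rr) (o .Acc) .L)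
  (.seq (act1 (o .Cy) (fun _ => .zero) .S)
  (.seq (faPass subOp (o .Rr) (o .Acc) (o .W1) .R (o .Cy))
  (.seq (faPass addOp (o .Rr) (o .Acc) (o .Z) .S (o .Cy))
  (.seq (mvBy (o .Rk) (o .Acc) .R)
  (.seq (copyD (o .Re) (o .Acc) .R (o .D) .R bitc)
  (.seq (mvBy (o .Re) (o .Acc) .L) (mvBy (o .Rk) (o .Acc) .L))))))))

theorem outBlock_spec (c : TS (Own ⊕ X) (Sym G)) {r e κ : ℕ} {τ : ℤ → Sym G} {a : ℤ}
    (hke : κ + e ≤ r)
    (hA : vl (c.tape (o .W1)) (c.head (o .W1)) (r + r) ≡ 2 ^ κ * vl τ a e [MOD 2 ^ r + 1])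
    (hRr : Ruler c (o .Rr) r) (hRk : Ruler c (o .Rk) κ) (hRe : Ruler c (o .Re) e)
    (hZ : (c.read (o .Z)).isOne = false) :
    ∃ c', Run (outBlock : Prog (Own ⊕ X) (Sym G)) c c' (24 * r + 50) ∧
      c'.head (o .W1) = c.head (o .W1) + r + r ∧ c'.tape (o .W1) = c.tape (o .W1) ∧
      c'.head (o .Acc) = c.head (o .Acc) ∧ c'.head (o .D) = c.head (o .D) + e ∧
      (∀ w : ℕ, w < e → c'.tape (o .D) (c.head (o .D) + w) = Sym.ofBit (τ (a + w)).isOne) ∧
      (∀ x, ¬ (c.head (o .D) ≤ x ∧ x < c.head (o .D) + e) → c'.tape (o .D) x = c.tape (o .D) x) ∧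
      Same [o .W1, o .Acc, o .Cy, o .D] c c' := by
  set h0 := c.head (o .W1) with hh0
  set ha := c.head (o .Acc) with hha
  -- load the low half
  obtain ⟨c1, r1, a1, a2, a3, a4, a5, a6⟩ := copyD_spec (o .Rr) (o .W1) .R (o .Acc) .R
    (bitc : Sym G → Sym G) (by simp) (by simp) (by simp) (by simp) (by simp) c hRr
  obtain ⟨c2, r2, b1, b2, b3⟩ := mvBy_spec (o .Rr) (o .Acc) .L (by simp) (by simp) c1
    (hRr.of_same a6 (by simp))
  obtain ⟨c3, r3, d1, d2, d3⟩ := act1_spec (o .Cy) (fun _ => .zero) .S c2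
  have hRr3 : Ruler c3 (o .Rr) r := ((hRr.of_same a6 (by simp)).of_same b3 (by simp)).of_same d3 (by simp)
  have hA3 : c3.head (o .Acc) = ha := by
    rw [d3.head (by simp), b1, a3]
    simp [Dir.toInt, hha]
  have hW3 : c3.head (o .W1) = h0 + r := by
    rw [d3.head (by simp), b3.head (by simp), a1]
    simp [Dir.toInt, hh0]
  have tW3 : c3.tape (o .W1) = c.tape (o .W1) := by
    rw [d3.tape (by simp), b3.tape (by simp), a2]
  have vlo : vl (c3.tape (o .Acc)) ha r = vl (c.tape (o .W1)) h0 r := by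
    apply vl_congr
    intro i hi
    rw [d3.tape (by simp), b2]
    have := a4 i hi
    simp only [Dir.toInt, mul_one] at this
    rw [this]
    simp [bitc]
    rfl
  have hcy3 : (c3.read (o .Cy)).isOne = false := by
    simp only [TS.read]
    rw [d2, d1]
    simp [Dir.toInt]
  -- subtract the high half
  obtain ⟨c4, r4, f1, f2, f3, f4, f5, f6, f7, f8⟩ := faPass_spec subOp (-1) subOp_eq (o .Rr) (o .Acc) (o .W1) .R (o .Cy)
    (by simp) (by simp) (by simp) (by simp) (by simp) (by simp) c3 hRr3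
  rw [srcBit_R_sum, hcy3, hA3, vlo, tW3, hW3] at f7
  -- add the borrow
  have hZ4 : (c4.read (o .Z)).isOne = false := by
    simp only [TS.read] at hZ ⊢
    rw [f8.tape (by simp), f8.head (by simp), d3.tape (by simp), d3.head (by simp),
      b3.tape (by simp), b3.head (by simp), a6.tape (by simp), a6.head (by simp)]
    exact hZ
  have hRr4 : Ruler c4 (o .Rr) r := hRr3.of_same f8 (by simp)
  obtain ⟨c5, r5, g1, g2, g3, g4, g5, g6⟩ := addZ_spec (o .Rr) (o .Acc) (o .Z) (o .Cy)
    (by simp) (by simp) (by simp) (by simp) (by simp) (by simp) c4 hRr4 hZ4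
  have hA4 : c4.head (o .Acc) = ha := f1.trans hA3
  have hA5 : c5.head (o .Acc) = ha := g1.trans hA4
  rw [hA4] at g5
  -- the final value
  have hlohi : vl (c.tape (o .W1)) h0 (r + r) =
      vl (c.tape (o .W1)) h0 r + 2 ^ r * vl (c.tape (o .W1)) (h0 + r) r := vl_add _ _ _ _
  rw [hlohi] at hA
  have hy : 2 ^ κ * vl τ a e < 2 ^ r := by
    calc 2 ^ κ * vl τ a e < 2 ^ κ * 2 ^ e := Nat.mul_lt_mul_of_pos_left (vl_lt _ _ _) (by positivity)
      _ = 2 ^ (κ + e) := (pow_add _ _ _).symm
      _ ≤ 2 ^ r := Nat.pow_le_pow_right (by norm_num) hke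
  have hval : vl (c5.tape (o .Acc)) ha r = 2 ^ κ * vl τ a e :=
    out_arith (vl_lt _ _ _) (Bool.toNat_le _) (Bool.toNat_le _) (vl_lt _ _ _) (vl_lt _ _ _) f7 g5 hA hy
  -- split it
  have hsplit : vl (c5.tape (o .Acc)) (ha + κ) e = vl τ a e := by
    have e1 : r = κ + (e + (r - κ - e)) := by omega
    have h1 : vl (c5.tape (o .Acc)) ha r = vl (c5.tape (o .Acc)) ha κ +
        2 ^ κ * (vl (c5.tape (o .Acc)) (ha + κ) e + 2 ^ e * vl (c5.tape (o .Acc)) (ha + κ + e) (r - κ - e)) := by
      conv_lhs => rw [e1, vl_add, vl_add _ (ha + κ)]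
    rw [hval] at h1
    have hlt : vl (c5.tape (o .Acc)) ha κ < 2 ^ κ := vl_lt _ _ _
    have hpos : 0 < 2 ^ κ := by positivity
    have h2 : vl τ a e = vl (c5.tape (o .Acc)) (ha + κ) e + 2 ^ e * vl (c5.tape (o .Acc)) (ha + κ + e) (r - κ - e) := by
      have h3 : 2 ^ κ * vl τ a e / 2 ^ κ = (vl (c5.tape (o .Acc)) ha κ +
        2 ^ κ * (vl (c5.tape (o .Acc)) (ha + κ) e + 2 ^ e * vl (c5.tape (o .Acc)) (ha + κ + e) (r - κ - e))) / 2 ^ κ := by
        rw [← h1]
      rw [Nat.mul_div_cancel_left _ hpos, Nat.add_mul_div_left _ _ hpos, Nat.div_eq_of_lt hlt, zero_add] at h3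
      exact h3
    have hy2 : vl τ a e < 2 ^ e := vl_lt _ _ _
    have hx := vl_lt (c5.tape (o .Acc)) (ha + κ) e
    have hz : vl (c5.tape (o .Acc)) (ha + κ + e) (r - κ - e) = 0 := by
      by_contra hne
      have h4 : 1 ≤ vl (c5.tape (o .Acc)) (ha + κ + e) (r - κ - e) := by omega
      have h5 : 2 ^ e * 1 ≤ 2 ^ e * vl (c5.tape (o .Acc)) (ha + κ + e) (r - κ - e) := Nat.mul_le_mul_left _ h4
      omega
    rw [hz] at h2
    simpa using h2.symm
  -- output
  have hRk5 : Ruler c5 (o .Rk) κ := by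
    exact ((((hRk.of_same a6 (by simp)).of_same b3 (by simp)).of_same d3 (by simp)).of_same f8 (by simp)).of_same g6 (by simp)
  have hRe5 : Ruler c5 (o .Re) e := by
    exact ((((hRe.of_same a6 (by simp)).of_same b3 (by simp)).of_same d3 (by simp)).of_same f8 (by simp)).of_same g6 (by simp)
  obtain ⟨c6, r6, i1, i2, i3⟩ := mvBy_spec (o .Rk) (o .Acc) .R (by simp) (by simp) c5 hRk5
  obtain ⟨c7, r7, j1, j2, j3, j4, j5, j6⟩ := copyD_spec (o .Re) (o .Acc) .R (o .D) .R
    (bitc : Sym G → Sym G) (by simp) (by simp) (by simp) (by simp) (by simp) c6 (hRe5.of_same i3 (by simp))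
  obtain ⟨c8, r8, l1, l2, l3⟩ := mvBy_spec (o .Re) (o .Acc) .L (by simp) (by simp) c7
    ((hRe5.of_same i3 (by simp)).of_same j6 (by simp))
  obtain ⟨c9, r9, m1, m2, m3⟩ := mvBy_spec (o .Rk) (o .Acc) .L (by simp) (by simp) c8
    (((hRk5.of_same i3 (by simp)).of_same j6 (by simp)).of_same l3 (by simp))
  have hD5 : c5.head (o .D) = c.head (o .D) := by
    rw [g6.head (by simp), f8.head (by simp), d3.head (by simp), b3.head (by simp), a6.head (by simp)]
  have tD5 : c5.tape (o .D) = c.tape (o .D) := by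
    rw [g6.tape (by simp), f8.tape (by simp), d3.tape (by simp), b3.tape (by simp), a6.tape (by simp)]
  have hD6 : c6.head (o .D) = c.head (o .D) := by rw [i3.head (by simp), hD5]
  have tD6 : c6.tape (o .D) = c.tape (o .D) := by rw [i3.tape (by simp), tD5]
  have fD : ∀ x, c9.tape (o .D) x = c7.tape (o .D) x := by
    intro x
    rw [m3.tape (by simp), l3.tape (by simp)]
  refine ⟨c9, ?_, ?_, ?_, ?_, ?_, ?_, ?_, ?_⟩
  · refine (r1.seq (r2.seq (r3.seq (r4.seq (r5.seq (r6.seq (r7.seq (r8.seq r9)))))))).mono ?_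
    omega
  · rw [m3.head (by simp), l3.head (by simp), j6.head (by simp), i3.head (by simp), g6.head (by simp),
      f3, hW3]
    simp only [Dir.toInt, mul_one]
  · rw [m3.tape (by simp), l3.tape (by simp), j6.tape (by simp), i3.tape (by simp), g6.tape (by simp),
      f4, tW3]
  · rw [m1, l1, j1, i1, hA5]
    simp only [Dir.toInt]
    push_cast
    ring
  · rw [m3.head (by simp), l3.head (by simp), j3, hD6]
    simp [Dir.toInt]
  · intro w hw
    rw [fD]
    have := j4 w hw
    simp only [Dir.toInt, mul_one] at this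
    rw [hD6] at this
    rw [this, i2, i1, hA5]
    have hb := vl_inj hsplit w hw
    simp only [bitc, Dir.toInt, mul_one]
    rw [hb]
  · intro x hx
    rw [fD, j5 x (by
      rw [hD6]
      intro j hj he
      simp only [Dir.toInt, mul_one] at he
      apply hx
      omega), tD6]
  · exact (a6.trans (b3.trans (d3.trans (f8.trans (g6.trans (i3.trans (j6.trans (l3.trans m3)))))))).mono (by simp)

/-- One element of the output loop. -/
def outInner : Prog (Own ⊕ X) (Sym G) :=
  .seq (.ite (fun s => (s (o .Rp)).isOne && (s (o .Rq)).isOne)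
      (.seq outBlock (mvBy (o .RBL) (o .W1) .R)) (mvBy (o .RB) (o .W1) .R))
    (.ite (fun s => (s (o .Rp)).isOne) (mv (o .Rp) .R) skip)

/-- One row of the output loop. -/
def outOuter : Prog (Own ⊕ X) (Sym G) :=
  .seq (forR (o .RP) outInner)
    (.seq (rew (o .Rp)) (.ite (fun s => (s (o .Rq)).isOne) (mv (o .Rq) .R) skip))

/-- The output stage. -/
def output : Prog (Own ⊕ X) (Sym G) :=
  .seq (forR (o .RQ) outOuter) (.seq (rew (o .Rq)) (.seq (mvBy (o .RNB) (o .W1) .L) (mvBy (o .RB) (o .W1) .L)))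

theorem cntX_step {p q i Q : ℕ} (hq : q ≤ Q) : cntX p q i Q = cntX p q (i + 1) 0 := by
  simp only [cntX]
  by_cases hip : i < p
  · have e1 : min i p = i := by omega
    have e2 : min (i + 1) p = i + 1 := by omega
    have e3 : min Q q = q := by omega
    rw [if_pos hip, e1, e2, e3]
    have e4 : (if i + 1 < p then min 0 q else 0) = 0 := by
      split_ifs <;> simp
    rw [e4, add_mul, one_mul, add_zero]
  · have e2 : min (i + 1) p = p := by omega
    have e3 : min i p = p := by omega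
    rw [if_neg hip, if_neg (by omega), e2, e3]

/-- What the data tape holds while the output is being written. -/
def DOut (D : ℤ → Sym G) (τ : ℤ → Sym G) (h : ℤ) (p q e m : ℕ) : Prop :=
  (∀ m', m' < m → ∀ w : ℕ, w < e → D (h + (m' * e : ℕ) + w) =
    Sym.ofBit (τ (h + ((m' % p * q + m' / p) * e : ℕ) + w)).isOne) ∧
  (∀ x, ¬ (h ≤ x ∧ x < h + (m * e : ℕ)) → D x = τ x)

theorem outInner_spec (c : TS (Own ⊕ X) (Sym G)) {p q e r κ P i j : ℕ} {h : ℤ} {τ : ℤ → Sym G}
    (hi : i < P) (hp : p ≤ P) (hke : κ + e ≤ r)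
    (hA : i < p → j < q → vl (c.tape (o .W1)) (((j * P + i) * (4 * (r + r)) : ℕ) : ℤ) (r + r) ≡
      2 ^ κ * vl τ (h + ((i * q + j) * e : ℕ)) e [MOD 2 ^ r + 1])
    (hD : c.head (o .D) = h + (cntX q p j i * e : ℕ)) (tD : DOut (c.tape (o .D)) τ h p q e (cntX q p j i))
    (hW : c.head (o .W1) = ((j * P + i) * (4 * (r + r)) : ℕ))
    (tRq : c.tape (o .Rq) = runT q) (hRq : c.head (o .Rq) = (min j q : ℕ))
    (tRp : c.tape (o .Rp) = runT p) (hRp : c.head (o .Rp) = (min i p : ℕ))
    (hRr : Ruler c (o .Rr) r) (hRk : Ruler c (o .Rk) κ) (hRe : Ruler c (o .Re) e)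
    (hRBL : Ruler c (o .RBL) (3 * (r + r))) (hRB : Ruler c (o .RB) (4 * (r + r)))
    (hZ : (c.read (o .Z)).isOne = false) :
    ∃ c', Run (outInner : Prog (Own ⊕ X) (Sym G)) c c' (48 * r + 60) ∧
      c'.head (o .D) = h + (cntX q p j (i + 1) * e : ℕ) ∧
      DOut (c'.tape (o .D)) τ h p q e (cntX q p j (i + 1)) ∧
      c'.head (o .W1) = ((j * P + (i + 1)) * (4 * (r + r)) : ℕ) ∧ c'.tape (o .W1) = c.tape (o .W1) ∧
      c'.tape (o .Rp) = runT p ∧ c'.head (o .Rp) = (min (i + 1) p : ℕ) ∧
      Same [o .D, o .W1, o .Acc, o .Cy, o .Rp] c c' := by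
  have ehW : (((j * P + (i + 1)) * (4 * (r + r)) : ℕ) : ℤ) =
      ((j * P + i) * (4 * (r + r)) : ℕ) + (4 * (r + r) : ℤ) := by
    push_cast
    ring
  by_cases hg : i < p ∧ j < q
  · obtain ⟨hip, hjq⟩ := hg
    have eP : min i p = i := by omega
    have eQ : min j q = j := by omega
    have eP2 : min (i + 1) p = i + 1 := by omega
    have rd1 : (c.read (o .Rp)).isOne = true := by
      simp only [TS.read, tRp, hRp, eP]
      rw [cast_runT_in hip]
      rfl
    have rd2 : (c.read (o .Rq)).isOne = true := by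
      simp only [TS.read, tRq, hRq, eQ]
      rw [cast_runT_in hjq]
      rfl
    have hcnt : cntX q p j i = j * p + i := by
      simp only [cntX, if_pos hjq, eQ, eP]
    have hcnt2 : cntX q p j (i + 1) = j * p + i + 1 := by
      simp only [cntX, if_pos hjq, eQ, eP2]
      ring
    have hAi : vl (c.tape (o .W1)) (c.head (o .W1)) (r + r) ≡
        2 ^ κ * vl τ (h + ((i * q + j) * e : ℕ)) e [MOD 2 ^ r + 1] := by
      rw [hW]; exact hA hip hjq
    obtain ⟨c1, r1, a1, a2, a3, a4, a5, a6, a8⟩ := outBlock_spec c hke hAi hRr hRk hRe hZ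
    obtain ⟨c2, r2, b1, b2, b3⟩ := mvBy_spec (o .RBL) (o .W1) .R (by simp) (by simp) c1
      (hRBL.of_same a8 (by simp))
    have r12 := Run.iteT (b := mvBy (o .RB) (o .W1) .R)
      (g := fun s => (s (o .Rp)).isOne && (s (o .Rq)).isOne) (by simp [rd1, rd2]) (r1.seq r2)
    have rd3 : (c2.read (o .Rp)).isOne = true := by
      simp only [TS.read] at rd1 ⊢
      rw [b3.tape (by simp), b3.head (by simp), a8.tape (by simp), a8.head (by simp)]
      exact rd1
    obtain ⟨c3, r3, d1, d2, d3⟩ := mv_spec (o .Rp) .R c2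
    have r3' := Run.iteT (b := skip) (g := fun s => (s (o .Rp)).isOne) rd3 r3
    have hm1 : ∀ x, c3.tape (o .D) x = c1.tape (o .D) x := by
      intro x
      rw [d3.tape (by simp), b3.tape (by simp)]
    refine ⟨c3, ?_, ?_, ⟨?_, ?_⟩, ?_, ?_, ?_, ?_, ?_⟩
    · refine (r12.seq r3').mono ?_
      omega
    · rw [d3.head (by simp), b3.head (by simp), a4, hD, hcnt, hcnt2]
      push_cast
      ring
    · intro m' hm' w hw
      rw [hcnt2] at hm'
      rw [hm1]
      by_cases hmm : m' < j * p + i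
      · -- old cell
        rw [a6 _ (by
          rw [hD, hcnt]
          rintro ⟨h1, _⟩
          have : (m' + 1) * e ≤ (j * p + i) * e := Nat.mul_le_mul_right _ hmm
          have e1 : (m' + 1) * e = m' * e + e := by ring
          rw [e1] at this
          have h2 : ((m' * e + e : ℕ) : ℤ) ≤ (((j * p + i) * e : ℕ) : ℤ) := by exact_mod_cast this
          push_cast at h1 h2 ⊢
          have hw' : (w : ℤ) < e := by exact_mod_cast hw
          linarith)]
        apply tD.1 m' _ w hw
        rw [hcnt]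
        exact hmm
      · -- new cell
        have hm : m' = j * p + i := by omega
        subst hm
        have hd1 : (j * p + i) / p = j := by
          rw [Nat.add_comm, Nat.add_mul_div_right _ _ (by omega), Nat.div_eq_of_lt hip, zero_add]
        have hd2 : (j * p + i) % p = i := by
          rw [Nat.add_comm, Nat.add_mul_mod_self_right, Nat.mod_eq_of_lt hip]
        rw [hd1, hd2]
        have := a5 w hw
        rw [hD, hcnt] at this
        exact this
    · intro x hx
      rw [hcnt2] at hx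
      rw [hm1, a6 x (by
        rw [hD, hcnt]
        intro hh
        apply hx
        push_cast at hh ⊢
        constructor
        · have : (0 : ℤ) ≤ ((j * p + i : ℕ) : ℤ) * e := by positivity
          push_cast at this
          linarith [hh.1]
        · have := hh.2
          have e1 : ((j : ℤ) * p + i + 1) * e = ((j : ℤ) * p + i) * e + e := by ring
          rw [e1]
          linarith)]
      apply tD.2
      rw [hcnt]
      intro hh
      apply hx
      push_cast at hh ⊢
      constructor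
      · exact hh.1
      · have h1 := hh.2
        have e1 : ((j : ℤ) * p + i + 1) * e = ((j : ℤ) * p + i) * e + e := by ring
        rw [e1]
        have : (0 : ℤ) ≤ e := by positivity
        linarith
    · rw [d3.head (by simp), b1, a1, hW, ehW]
      simp only [Dir.toInt]
      push_cast
      ring
    · rw [d3.tape (by simp), b2, a2]
    · rw [d2, b3.tape (by simp), a8.tape (by simp), tRp]
    · rw [d1, b3.head (by simp), a8.head (by simp), hRp, eP, eP2]
      simp [Dir.toInt]
    · exact (a8.trans (b3.trans d3)).mono (by simp)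
  · have rdg : ((c.read (o .Rp)).isOne && (c.read (o .Rq)).isOne) = false := by
      by_cases hip : i < p
      · have hjq : ¬ j < q := fun h => hg ⟨hip, h⟩
        have : (c.read (o .Rq)).isOne = false := by
          simp only [TS.read, tRq, hRq]
          have eQ : min j q = q := by omega
          rw [eQ, runT_out (by right; exact le_rfl)]
          rfl
        simp [this]
      · have : (c.read (o .Rp)).isOne = false := by
          simp only [TS.read, tRp, hRp]
          have eP : min i p = p := by omega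
          rw [eP, runT_out (by right; exact le_rfl)]
          rfl
        simp [this]
    obtain ⟨c1, r1, a1, a2, a3⟩ := mvBy_spec (o .RB) (o .W1) .R (by simp) (by simp) c hRB
    have r1' := Run.iteF (a := .seq outBlock (mvBy (o .RBL) (o .W1) .R))
      (g := fun s => (s (o .Rp)).isOne && (s (o .Rq)).isOne) rdg r1
    have hcnt2 : cntX q p j (i + 1) = cntX q p j i := by
      simp only [cntX]
      by_cases hjq : j < q
      · have hip : ¬ i < p := fun h => hg ⟨h, hjq⟩
        have e1 : min i p = p := by omega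
        have e2 : min (i + 1) p = p := by omega
        rw [if_pos hjq, if_pos hjq, e1, e2]
      · rw [if_neg hjq, if_neg hjq]
    have hrdp : c1.read (o .Rp) = c.read (o .Rp) := by
      simp only [TS.read]
      rw [a3.tape (by simp), a3.head (by simp)]
    obtain ⟨c2, r2, b1, b2, b3⟩ : ∃ c2, Run (.ite (fun s => (s (o .Rp)).isOne) (mv (o .Rp) .R) skip) c1 c2 2 ∧
        c2.tape (o .Rp) = runT p ∧ c2.head (o .Rp) = (min (i + 1) p : ℕ) ∧ Same [o .Rp] c1 c2 := by
      by_cases hip : i < p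
      · have rd3 : (c1.read (o .Rp)).isOne = true := by
          rw [hrdp]
          simp only [TS.read, tRp, hRp]
          have eQ : min i p = i := by omega
          rw [eQ, cast_runT_in hip]
          rfl
        obtain ⟨c2, r2, b1, b2, b3⟩ := mv_spec (o .Rp) .R c1
        refine ⟨c2, Run.iteT rd3 r2, ?_, ?_, b3⟩
        · rw [b2, a3.tape (by simp), tRp]
        · rw [b1, a3.head (by simp), hRp]
          have eQ : min i p = i := by omega
          have eQ2 : min (i + 1) p = i + 1 := by omega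
          rw [eQ, eQ2]
          simp [Dir.toInt]
      · have rd3 : (c1.read (o .Rp)).isOne = false := by
          rw [hrdp]
          simp only [TS.read, tRp, hRp]
          have eQ : min i p = p := by omega
          rw [eQ, runT_out (by right; exact le_rfl)]
          rfl
        refine ⟨c1, Run.iteF rd3 (skip_spec c1), ?_, ?_, Same.refl _ _⟩
        · rw [a3.tape (by simp), tRp]
        · rw [a3.head (by simp), hRp]
          have eQ : min i p = p := by omega
          have eQ2 : min (i + 1) p = p := by omega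
          rw [eQ, eQ2]
    refine ⟨c2, ?_, ?_, ?_, ?_, ?_, b1, b2, (a3.trans b3).mono (by simp)⟩
    · refine (r1'.seq r2).mono ?_
      omega
    · rw [b3.head (by simp), a3.head (by simp), hD, hcnt2]
    · rw [hcnt2, b3.tape (by simp), a3.tape (by simp)]
      exact tD
    · rw [b3.head (by simp), a1, hW, ehW]
      simp only [Dir.toInt]
      push_cast
      ring
    · rw [b3.tape (by simp), a2]

theorem outOuter_spec (c : TS (Own ⊕ X) (Sym G)) {p q e r κ P j : ℕ} {h : ℤ} {τ : ℤ → Sym G}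
    (hp : p ≤ P) (hke : κ + e ≤ r)
    (hA : ∀ i, i < p → j < q → vl (c.tape (o .W1)) (((j * P + i) * (4 * (r + r)) : ℕ) : ℤ) (r + r) ≡
      2 ^ κ * vl τ (h + ((i * q + j) * e : ℕ)) e [MOD 2 ^ r + 1])
    (hD : c.head (o .D) = h + (cntX q p j 0 * e : ℕ)) (tD : DOut (c.tape (o .D)) τ h p q e (cntX q p j 0))
    (hW : c.head (o .W1) = ((j * P) * (4 * (r + r)) : ℕ))
    (tRq : c.tape (o .Rq) = runT q) (hRq : c.head (o .Rq) = (min j q : ℕ))
    (hRP : Ruler c (o .RP) P) (hRp : Ruler c (o .Rp) p)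
    (hRr : Ruler c (o .Rr) r) (hRk : Ruler c (o .Rk) κ) (hRe : Ruler c (o .Re) e)
    (hRBL : Ruler c (o .RBL) (3 * (r + r))) (hRB : Ruler c (o .RB) (4 * (r + r)))
    (hZ : (c.read (o .Z)).isOne = false) :
    ∃ c', Run (outOuter : Prog (Own ⊕ X) (Sym G)) c c' (P * (48 * r + 62) + 2 * P + 2 * p + 9) ∧
      c'.head (o .D) = h + (cntX q p (j + 1) 0 * e : ℕ) ∧
      DOut (c'.tape (o .D)) τ h p q e (cntX q p (j + 1) 0) ∧
      c'.head (o .W1) = (((j + 1) * P) * (4 * (r + r)) : ℕ) ∧ c'.tape (o .W1) = c.tape (o .W1) ∧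
      c'.tape (o .Rq) = runT q ∧ c'.head (o .Rq) = (min (j + 1) q : ℕ) ∧
      Ruler c' (o .Rp) p ∧
      Same [o .D, o .W1, o .Acc, o .Cy, o .Rq] c c' := by
  obtain ⟨c1, ⟨f1, f2, f3, f4, f5, f6, f7, f8, f9, f10, f11, f12, f13⟩, hRP1, r1⟩ :=
    forR_spec (R := o .RP) (n := P) (body := (outInner : Prog (Own ⊕ X) (Sym G)))
    (fun i c' => c'.head (o .D) = h + (cntX q p j i * e : ℕ) ∧
      DOut (c'.tape (o .D)) τ h p q e (cntX q p j i) ∧
      c'.head (o .W1) = ((j * P + i) * (4 * (r + r)) : ℕ) ∧ c'.tape (o .W1) = c.tape (o .W1) ∧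
      c'.tape (o .Rp) = runT p ∧ c'.head (o .Rp) = (min i p : ℕ) ∧
      Ruler c' (o .Rr) r ∧ Ruler c' (o .Rk) κ ∧ Ruler c' (o .Re) e ∧
      Ruler c' (o .RBL) (3 * (r + r)) ∧ Ruler c' (o .RB) (4 * (r + r)) ∧
      (c'.read (o .Z)).isOne = false ∧
      Same [o .RP, o .D, o .W1, o .Acc, o .Cy, o .Rp] c c')
    (fun _ => 48 * r + 60) (c := c)
    hRP
    (by simp [outInner, outBlock])
    (by
      refine ⟨hD, tD, by simpa using hW, rfl, hRp.1, by simpa using hRp.2, hRr, hRk, hRe, hRBL, hRB, hZ,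
        Same.refl _ _⟩)
    (by
      rintro k c1 c2 ⟨a1, a2, a3, a4, a5, a6, a7, a8, a9, a10, a11, a12, a13⟩ hs _
      refine ⟨?_, ?_, ?_, ?_, ?_, ?_, a7.of_same hs (by simp), a8.of_same hs (by simp),
        a9.of_same hs (by simp), a10.of_same hs (by simp), a11.of_same hs (by simp), ?_,
        (a13.trans hs).mono (by simp)⟩
      · rw [hs.head (by simp)]; exact a1
      · rw [hs.tape (by simp)]; exact a2
      · rw [hs.head (by simp)]; exact a3
      · rw [hs.tape (by simp)]; exact a4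
      · rw [hs.tape (by simp)]; exact a5
      · rw [hs.head (by simp)]; exact a6
      · simp only [TS.read] at a12 ⊢
        rw [hs.tape (by simp), hs.head (by simp)]
        exact a12)
    (by
      rintro i hi c1 _ _ ⟨a1, a2, a3, a4, a5, a6, a7, a8, a9, a10, a11, a12, a13⟩
      obtain ⟨c2, r, b1, b2, b3, b4, b5, b6, b7⟩ := outInner_spec (j := j) (κ := κ) c1 hi hp hke
        (by
          intro hip hjq
          rw [a4]
          exact hA i hip hjq) a1 a2 a3
        (by rw [a13.tape (by simp), tRq]) (by rw [a13.head (by simp), hRq]) a5 a6 a7 a8 a9 a10 a11 a12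
      refine ⟨c2, r, b1, b2, b3, by rw [b4, a4], b5, b6, a7.of_same b7 (by simp), a8.of_same b7 (by simp),
        a9.of_same b7 (by simp), a10.of_same b7 (by simp), a11.of_same b7 (by simp), ?_,
        (a13.trans b7).mono (by simp)⟩
      simp only [TS.read] at a12 ⊢
      rw [b7.tape (by simp), b7.head (by simp)]
      exact a12)
  have hpp : min P p = p := by omega
  rw [hpp] at f6
  obtain ⟨c2, r2, g1, g2⟩ := rew_ruler (o .Rp) c1 f5 f6 le_rfl
  have tq1 : c2.tape (o .Rq) = runT q := by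
    rw [g2.tape (by simp), f13.tape (by simp), tRq]
  have hq1 : c2.head (o .Rq) = (min j q : ℕ) := by
    rw [g2.head (by simp), f13.head (by simp), hRq]
  obtain ⟨c3, r3, j2, j3, j4⟩ : ∃ c3, Run (.ite (fun s => (s (o .Rq)).isOne) (mv (o .Rq) .R) skip) c2 c3 2 ∧
      c3.tape (o .Rq) = runT q ∧ c3.head (o .Rq) = (min (j + 1) q : ℕ) ∧ Same [o .Rq] c2 c3 := by
    by_cases hjq : j < q
    · have rd3 : (c2.read (o .Rq)).isOne = true := by
        simp only [TS.read, tq1, hq1]
        have eQ : min j q = j := by omega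
        rw [eQ, cast_runT_in hjq]
        rfl
      obtain ⟨c3, r2, b1, b2, b3⟩ := mv_spec (o .Rq) .R c2
      refine ⟨c3, Run.iteT rd3 r2, ?_, ?_, b3⟩
      · rw [b2, tq1]
      · rw [b1, hq1]
        have eQ : min j q = j := by omega
        have eQ2 : min (j + 1) q = j + 1 := by omega
        rw [eQ, eQ2]
        simp [Dir.toInt]
    · have rd3 : (c2.read (o .Rq)).isOne = false := by
        simp only [TS.read, tq1, hq1]
        have eQ : min j q = q := by omega
        rw [eQ, runT_out (by right; exact le_rfl)]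
        rfl
      refine ⟨c2, Run.iteF rd3 (skip_spec c2), tq1, ?_, Same.refl _ _⟩
      rw [hq1]
      have eQ : min j q = q := by omega
      have eQ2 : min (j + 1) q = q := by omega
      rw [eQ, eQ2]
  have hcnt := cntX_step (p := q) (q := p) (i := j) (Q := P) hp
  refine ⟨c3, ?_, ?_, ?_, ?_, ?_, j2, j3, g1.of_same j4 (by simp), ?_⟩
  · refine (r1.seq (r2.seq r3)).mono ?_
    simp only [Finset.sum_const, Finset.card_range, smul_eq_mul]
    have : P * (48 * r + 60 + 2) = P * (48 * r + 62) := rfl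
    omega
  · rw [j4.head (by simp), g2.head (by simp), f1, hcnt]
  · rw [j4.tape (by simp), g2.tape (by simp), ← hcnt]
    exact f2
  · rw [j4.head (by simp), g2.head (by simp), f3]
    have : (j + 1) * P = j * P + P := by ring
    rw [this]
  · rw [j4.tape (by simp), g2.tape (by simp), f4]
  · refine Same.erase (R := o .RP) (Same.erase (R := o .Rp) ((f13.trans (g2.trans j4)).mono (by
      intro t ht
      simp only [List.mem_append, List.mem_cons, List.not_mem_nil, or_false] at ht ⊢
      tauto)) ?_ ?_) ?_ ?_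
    · rw [j4.tape (by simp), g1.1, hRp.1]
    · rw [j4.head (by simp), g1.2, hRp.2]
    · rw [j4.tape (by simp), g2.tape (by simp), hRP1.1, hRP.1]
    · rw [j4.head (by simp), g2.head (by simp), hRP1.2, hRP.2]

/-- The cost bound of the output stage. -/
def outputCost (P Q r NB : ℕ) : ℕ :=
  P * Q * (48 * r + 66) + 15 * Q + 4 * NB + 4 * (4 * (r + r)) + 20

theorem output_spec (c : TS (Own ⊕ X) (Sym G)) {p q e r κ P Q NB : ℕ}
    (hp : p ≤ P) (hq : q ≤ Q) (hke : κ + e ≤ r) (hPQ : P * Q * (4 * (r + r)) = NB + 4 * (r + r))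
    (hA : ∀ i j, i < p → j < q → vl (c.tape (o .W1)) (((j * P + i) * (4 * (r + r)) : ℕ) : ℤ) (r + r) ≡
      2 ^ κ * vl (c.tape (o .D)) (c.head (o .D) + ((i * q + j) * e : ℕ)) e [MOD 2 ^ r + 1])
    (hW : c.head (o .W1) = 0)
    (hRP : Ruler c (o .RP) P) (hRQ : Ruler c (o .RQ) Q) (hRp : Ruler c (o .Rp) p) (hRq : Ruler c (o .Rq) q)
    (hRr : Ruler c (o .Rr) r) (hRk : Ruler c (o .Rk) κ) (hRe : Ruler c (o .Re) e)
    (hRBL : Ruler c (o .RBL) (3 * (r + r))) (hRB : Ruler c (o .RB) (4 * (r + r)))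
    (hRNB : Ruler c (o .RNB) NB)
    (hZ : (c.read (o .Z)).isOne = false) :
    ∃ c', Run (output : Prog (Own ⊕ X) (Sym G)) c c' (outputCost P Q r NB) ∧
      c'.head (o .D) = c.head (o .D) + (q * p * e : ℕ) ∧
      DOut (c'.tape (o .D)) (c.tape (o .D)) (c.head (o .D)) p q e (q * p) ∧
      c'.head (o .W1) = 0 ∧ c'.tape (o .W1) = c.tape (o .W1) ∧
      Same [o .D, o .W1, o .Acc, o .Cy] c c' := by
  set τ := c.tape (o .D) with hτ
  set h := c.head (o .D) with hh
  obtain ⟨c1, ⟨f1, f2, f3, f4, f5, f6, f7, f8, f9, f10, f11, f12, f13, f14, f15⟩, hRQ1, r1⟩ :=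
    forR_spec (R := o .RQ) (n := Q) (body := (outOuter : Prog (Own ⊕ X) (Sym G)))
    (fun j c' => c'.head (o .D) = h + (cntX q p j 0 * e : ℕ) ∧
      DOut (c'.tape (o .D)) τ h p q e (cntX q p j 0) ∧
      c'.head (o .W1) = ((j * P) * (4 * (r + r)) : ℕ) ∧ c'.tape (o .W1) = c.tape (o .W1) ∧
      c'.tape (o .Rq) = runT q ∧ c'.head (o .Rq) = (min j q : ℕ) ∧
      Ruler c' (o .RP) P ∧ Ruler c' (o .Rp) p ∧
      Ruler c' (o .Rr) r ∧ Ruler c' (o .Rk) κ ∧ Ruler c' (o .Re) e ∧
      Ruler c' (o .RBL) (3 * (r + r)) ∧ Ruler c' (o .RB) (4 * (r + r)) ∧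
      (c'.read (o .Z)).isOne = false ∧
      Same [o .RQ, o .D, o .W1, o .Acc, o .Cy, o .Rq] c c')
    (fun _ => P * (48 * r + 62) + 2 * P + 2 * p + 9) (c := c)
    hRQ
    (by simp [outOuter, outInner, outBlock])
    (by
      refine ⟨?_, ⟨?_, ?_⟩, by simpa using hW, rfl, hRq.1, by simpa using hRq.2, hRP, hRp, hRr, hRk, hRe,
        hRBL, hRB, hZ, Same.refl _ _⟩
      · simp [cntX]
        rfl
      · intro m hm
        simp [cntX] at hm
      · intro x _
        rfl)
    (by
      rintro k c1 c2 ⟨a1, a2, a3, a4, a5, a6, a7, a8, a9, a10, a11, a12, a13, a14, a15⟩ hs _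
      refine ⟨?_, ?_, ?_, ?_, ?_, ?_, a7.of_same hs (by simp), a8.of_same hs (by simp),
        a9.of_same hs (by simp), a10.of_same hs (by simp), a11.of_same hs (by simp),
        a12.of_same hs (by simp), a13.of_same hs (by simp), ?_, (a15.trans hs).mono (by simp)⟩
      · rw [hs.head (by simp)]; exact a1
      · rw [hs.tape (by simp)]; exact a2
      · rw [hs.head (by simp)]; exact a3
      · rw [hs.tape (by simp)]; exact a4
      · rw [hs.tape (by simp)]; exact a5
      · rw [hs.head (by simp)]; exact a6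
      · simp only [TS.read] at a14 ⊢
        rw [hs.tape (by simp), hs.head (by simp)]
        exact a14)
    (by
      rintro j hj c1 _ _ ⟨a1, a2, a3, a4, a5, a6, a7, a8, a9, a10, a11, a12, a13, a14, a15⟩
      obtain ⟨c2, r, b1, b2, b3, b4, b5, b6, b7, b8⟩ := outOuter_spec (j := j) (κ := κ) c1 hp hke
        (by
          intro i hip hjq
          rw [a4]
          exact hA i j hip hjq) a1 a2 a3 a5 a6 a7 a8 a9 a10 a11 a12 a13 a14
      refine ⟨c2, r, b1, b2, b3, by rw [b4, a4], b5, b6, a7.of_same b8 (by simp), b7,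
        a9.of_same b8 (by simp), a10.of_same b8 (by simp), a11.of_same b8 (by simp),
        a12.of_same b8 (by simp), a13.of_same b8 (by simp), ?_, (a15.trans b8).mono (by simp)⟩
      simp only [TS.read] at a14 ⊢
      rw [b8.tape (by simp), b8.head (by simp)]
      exact a14)
  have hqq : min Q q = q := by omega
  rw [hqq] at f6
  obtain ⟨c2, r2, g1, g2⟩ := rew_ruler (o .Rq) c1 f5 f6 le_rfl
  obtain ⟨c3, r3, j1, j2, j3⟩ := mvBy_spec (o .RNB) (o .W1) .L (by simp) (by simp) c2
    ((hRNB.of_same f15 (by simp)).of_same g2 (by simp))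
  obtain ⟨c4, r4, j4, j5, j6⟩ := mvBy_spec (o .RB) (o .W1) .L (by simp) (by simp) c3
    ((f13.of_same g2 (by simp)).of_same j3 (by simp))
  have hcnt : cntX q p Q 0 = q * p := by
    simp only [cntX, hqq]
    rw [if_neg (by omega), add_zero]
  rw [hcnt] at f1 f2
  refine ⟨c4, ?_, ?_, ?_, ?_, ?_, ?_⟩
  · refine (r1.seq (r2.seq (r3.seq r4))).mono ?_
    simp only [Finset.sum_const, Finset.card_range, smul_eq_mul, outputCost]
    have h1 : Q * (P * (48 * r + 62) + 2 * P + 2 * p + 9 + 2) ≤ P * Q * (48 * r + 66) + 11 * Q := by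
      have : Q * (2 * p) ≤ Q * (2 * P) := Nat.mul_le_mul_left _ (by omega)
      calc Q * (P * (48 * r + 62) + 2 * P + 2 * p + 9 + 2)
          = P * Q * (48 * r + 62) + Q * (2 * P) + Q * (2 * p) + 11 * Q := by ring
        _ ≤ P * Q * (48 * r + 62) + Q * (2 * P) + Q * (2 * P) + 11 * Q := by omega
        _ = P * Q * (48 * r + 66) + 11 * Q := by ring
    omega
  · rw [j6.head (by simp), j3.head (by simp), g2.head (by simp), f1]
  · rw [j6.tape (by simp), j3.tape (by simp), g2.tape (by simp)]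
    exact f2
  · rw [j4, j1, g2.head (by simp), f3]
    have e1 : Q * P * (4 * (r + r)) = P * Q * (4 * (r + r)) := by ring
    rw [e1, hPQ]
    simp only [Dir.toInt]
    push_cast
    ring
  · rw [j5, j2, g2.tape (by simp), f4]
  · refine Same.erase (R := o .RQ) (Same.erase (R := o .Rq) ((f15.trans (g2.trans (j3.trans j6))).mono (by
      intro t ht
      simp only [List.mem_append, List.mem_cons, List.not_mem_nil, or_false] at ht ⊢
      tauto)) ?_ ?_) ?_ ?_
    · rw [j6.tape (by simp), j3.tape (by simp), g1.1, hRq.1]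
    · rw [j6.head (by simp), j3.head (by simp), g1.2, hRq.2]
    · rw [j6.tape (by simp), j3.tape (by simp), g2.tape (by simp), hRQ1.1, hRQ.1]
    · rw [j6.head (by simp), j3.head (by simp), g2.head (by simp), hRQ1.2, hRQ.2]

end stage

end Vale.Agent.Lib.P338
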