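import Vale.Agent.Lib.P338.Data

/-!
One pass over the data tape: all segments of one size are transposed.
-/

namespace Vale.Agent.Lib.P338

open Prog

theorem pp_qq (k : ℕ) : PP k * QQ k = 2 ^ (4 * k + 2) + 1 := by
  unfold PP QQ
  have h1 : 2 ^ (k + 1) ≤ 2 ^ (2 * k + 1) := Nat.pow_le_pow_right (by norm_num) (by omega)
  obtain ⟨d, hd⟩ : ∃ d, 2 ^ (2 * k + 1) = d + 2 ^ (k + 1) := ⟨2 ^ (2 * k + 1) - 2 ^ (k + 1), by omega⟩
  have e1 : 2 ^ (2 * k + 1) - 2 ^ (k + 1) + 1 = d + 1 := by omega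
  rw [e1, hd]
  have e2 : (2 : ℕ) ^ (4 * k + 2) = (2 ^ (2 * k + 1)) ^ 2 := by
    rw [← pow_mul]
    congr 1
    ring
  have e3 : (2 : ℕ) ^ (2 * k + 1) * 2 = (2 ^ (k + 1)) ^ 2 := by
    rw [← pow_mul, ← pow_succ]
    congr 1
    ring
  rw [e2, hd]
  rw [hd] at e3
  generalize 2 ^ (k + 1) = b at *
  nlinarith

/-- The numerical conditions of the direct transposition. -/
theorem params {x y z k : ℕ} (hk1 : 1 ≤ k) (hx : x ≤ 2 * k - 1) (hy : y ≤ 2 * k - 1) (hk : 4 * k + 2 ≤ z + 12) :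
    2 ^ (z + 12) = 2 ^ (z + 12 - (4 * k + 2)) * 2 ^ (4 * k + 2) ∧
    2 ^ x ≤ PP k ∧ 2 ^ y ≤ QQ k ∧ 2 ^ x * QQ k ≤ 2 ^ (4 * k + 2) ∧ 2 ^ y * PP k ≤ 2 ^ (4 * k + 2) ∧
    4 * k + 2 + 2 ^ z ≤ 2 ^ (z + 12) := by
  have hh : (2 : ℕ) ^ (z + 12) = 2 ^ (z + 12 - (4 * k + 2)) * 2 ^ (4 * k + 2) := by
    rw [← pow_add]
    congr 1
    omega
  obtain ⟨h, hh1⟩ : ∃ h, h = 2 ^ (2 * k - 1) := ⟨_, rfl⟩
  obtain ⟨a, ha1⟩ : ∃ a, a = 2 ^ k := ⟨_, rfl⟩
  have ha2 : 2 ≤ a := by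
    rw [ha1]
    calc 2 = 2 ^ 1 := by norm_num
      _ ≤ 2 ^ k := Nat.pow_le_pow_right (by norm_num) hk1
  have h1 : h * 2 = a * a := by
    rw [hh1, ha1, ← pow_succ, ← pow_add]
    congr 1
    omega
  have h2 : (2 : ℕ) ^ (2 * k + 1) = 4 * h := by
    rw [hh1]
    have : 2 * k + 1 = 2 * k - 1 + 2 := by omega
    rw [this, pow_add]
    ring
  have h3 : (2 : ℕ) ^ (k + 1) = 2 * a := by
    rw [ha1, pow_succ]
    ring
  have h4 : (2 : ℕ) ^ (4 * k + 2) = 16 * h * h := by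
    rw [hh1]
    have : 4 * k + 2 = (2 * k - 1) + (2 * k - 1) + 4 := by omega
    rw [this, pow_add, pow_add]
    ring
  have hp1 : 2 ^ x ≤ h := by
    rw [hh1]
    exact Nat.pow_le_pow_right (by norm_num) hx
  have hq1 : 2 ^ y ≤ h := by
    rw [hh1]
    exact Nat.pow_le_pow_right (by norm_num) hy
  have haa : 2 * a ≤ 2 * h := by nlinarith
  have hP : PP k = 4 * h - 2 * a + 1 := by
    unfold PP
    rw [h2, h3]
  have hQ : QQ k = 4 * h + 2 * a + 1 := by
    unfold QQ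
    rw [h2, h3]
  have hP1 : h ≤ PP k := by
    rw [hP]
    omega
  have hP2 : PP k ≤ 4 * h := by
    rw [hP]
    omega
  have hQ1 : h ≤ QQ k := by
    rw [hQ]
    omega
  have hQ2 : QQ k ≤ 8 * h := by
    rw [hQ]
    omega
  refine ⟨hh, hp1.trans hP1, hq1.trans hQ1, ?_, ?_, ?_⟩
  · rw [h4]
    calc 2 ^ x * QQ k ≤ h * (8 * h) := Nat.mul_le_mul hp1 hQ2
      _ ≤ 16 * h * h := by nlinarith
  · rw [h4]
    calc 2 ^ y * PP k ≤ h * (4 * h) := Nat.mul_le_mul hq1 hP2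
      _ ≤ 16 * h * h := by nlinarith
  · have e1 : (2 : ℕ) ^ (z + 12) = 4096 * 2 ^ z := by
      rw [pow_add]
      ring
    have e2 : z < 2 ^ z := Nat.lt_two_pow_self
    omega

/-- The registers erased at the end of a pass. -/
def cleanL : List Own :=
  [.Tmp, .Tmp2, .Rp, .Rq, .Re, .RP, .RQ, .RN, .R2N, .RL, .Rr, .RB, .RBe, .RBL, .RBL1, .Rk, .RN1B, .RNB, .R2NB,
   .R4NB, .RS, .Rt, .RLt, .Er, .Ekap, .Et, .ERes, .R2k, .Rk1, .Rone]

/-- The erasing instructions. -/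
def cleanOps : List ROp := cleanL.map ROp.clr

theorem opsOk_clr (f : Own → ℕ) (l : List Own) (h : ∀ a ∈ l, isReg a = true) : opsOk f (l.map ROp.clr) := by
  induction l generalizing f with
  | nil => trivial
  | cons a l ih =>
    exact ⟨h a (by simp), ih _ (fun b hb => h b (by simp [hb]))⟩

theorem opsNext_clr (f : Own → ℕ) (l : List Own) (a : Own) (ha : a ∉ l) : opsNext f (l.map ROp.clr) a = f a := by
  induction l generalizing f with
  | nil => rfl
  | cons b l ih =>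
    simp only [List.mem_cons, not_or] at ha
    simp only [List.map_cons, opsNext]
    rw [ih _ ha.2]
    simp only [ROp.next]
    rw [Function.update_of_ne ha.1]

theorem opsNext_clr_mem (f : Own → ℕ) (l : List Own) (a : Own) (ha : a ∈ l) : opsNext f (l.map ROp.clr) a = 0 := by
  induction l generalizing f with
  | nil => simp at ha
  | cons b l ih =>
    simp only [List.map_cons, opsNext]
    by_cases hal : a ∈ l
    · exact ih _ hal
    · rw [opsNext_clr _ _ _ hal]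
      simp only [List.mem_cons] at ha
      have : a = b := by tauto
      subst this
      simp only [ROp.next]
      rw [Function.update_self]

theorem opsCost_clr (f : Own → ℕ) (l : List Own) (V : ℕ) (h : ∀ a, f a ≤ V) :
    opsCost f (l.map ROp.clr) ≤ l.length * (4 * V + 4) + 1 := by
  induction l generalizing f with
  | nil => simp [opsCost]
  | cons b l ih =>
    simp only [List.map_cons, opsCost, List.length_cons]
    have h1 := ih (ROp.next f (.clr b)) (by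
      intro a
      simp only [ROp.next]
      by_cases hab : a = b
      · subst hab
        rw [Function.update_self]
        exact Nat.zero_le _
      · rw [Function.update_of_ne hab]
        exact h a)
    have h2 : ROp.cost f (.clr b) ≤ 4 * V + 4 := by
      simp only [ROp.cost]
      have := h b
      omega
    rw [add_mul, one_mul]
    omega

theorem fS_Ex (x y z k : ℕ) : fS x y z k .Ex = x := by
  have h : Own.Ex ∉ ([] : List Own) := by simp
  simp [fS, setupOps, opsNext, ROp.next, Function.update, f0]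

theorem fS_Ey (x y z k : ℕ) : fS x y z k .Ey = y := by
  simp [fS, setupOps, opsNext, ROp.next, Function.update, f0]

theorem fS_Ez (x y z k : ℕ) : fS x y z k .Ez = z := by
  simp [fS, setupOps, opsNext, ROp.next, Function.update, f0]

theorem fS_Ek (x y z k : ℕ) : fS x y z k .Ek = k := by
  simp [fS, setupOps, opsNext, ROp.next, Function.update, f0]

theorem clean_values (x y z k : ℕ) (a : Own) (ha : isReg a = true) :
    opsNext (fS x y z k) cleanOps a = f0 x y z k a := by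
  cases a <;> first
    | (exfalso; revert ha; exact Bool.false_ne_true)
    | (rw [cleanOps, opsNext_clr_mem _ _ _ (by simp [cleanL])]; rfl)
    | (rw [cleanOps, opsNext_clr _ _ _ (by simp [cleanL])]; first | exact fS_Ex x y z k | exact fS_Ey x y z k | exact fS_Ez x y z k | exact fS_Ek x y z k)

/-- The tape changed by an instruction. -/
def ROp.tgt : ROp → Own
  | .add _ R => R
  | .sub _ R => R
  | .inc R => R
  | .pow _ R => R
  | .clr R => R

theorem opsNext_nt (f : Own → ℕ) (l : List ROp) (a : Own) (h : a ∉ l.map ROp.tgt) : opsNext f l a = f a := by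
  induction l generalizing f with
  | nil => rfl
  | cons op l ih =>
    simp only [List.map_cons, List.mem_cons, not_or] at h
    simp only [opsNext]
    rw [ih _ h.2]
    cases op <;> simp only [ROp.next] <;> exact Function.update_of_ne h.1 _ _

theorem fS_zero {x y z k : ℕ} (a : Own) (h : (a ∉ setupOps.map ROp.tgt) ∧ a ≠ .Ex ∧ a ≠ .Ey ∧ a ≠ .Ez ∧ a ≠ .Ek) :
    fS x y z k a = 0 := by
  unfold fS
  rw [opsNext_nt _ _ _ h.1]
  obtain ⟨_, h1, h2, h3, h4⟩ := h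
  cases a <;> first | rfl | exact absurd rfl h1 | exact absurd rfl h2 | exact absurd rfl h3 | exact absurd rfl h4

set_option maxRecDepth 10000 in
theorem fS_Er (x y z k : ℕ) : fS x y z k .Er = z + 12 := by
  simp [fS, setupOps, opsNext, ROp.next, Function.update, f0]

set_option maxRecDepth 10000 in
theorem fS_Ekap (x y z k : ℕ) : fS x y z k .Ekap = 4 * k + 2 := by
  simp [fS, setupOps, opsNext, ROp.next, Function.update, f0]
  try ring

set_option maxRecDepth 10000 in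
theorem fS_Et (x y z k : ℕ) : fS x y z k .Et = z + 12 - (4 * k + 2) := by
  simp [fS, setupOps, opsNext, ROp.next, Function.update, f0]
  try omega

set_option maxRecDepth 10000 in
theorem fS_ERes (x y z k : ℕ) : fS x y z k .ERes = k + 1 := by
  simp [fS, setupOps, opsNext, ROp.next, Function.update, f0]

set_option maxRecDepth 10000 in
theorem fS_R2k (x y z k : ℕ) : fS x y z k .R2k = 2 ^ (2 * k + 1) := by
  simp [fS, setupOps, opsNext, ROp.next, Function.update, f0]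
  try ring

set_option maxRecDepth 10000 in
theorem fS_Rk1 (x y z k : ℕ) : fS x y z k .Rk1 = 2 ^ (k + 1) := by
  simp [fS, setupOps, opsNext, ROp.next, Function.update, f0]

set_option maxRecDepth 10000 in
theorem fS_Rone (x y z k : ℕ) : fS x y z k .Rone = 1 := by
  simp [fS, setupOps, opsNext, ROp.next, Function.update, f0]

theorem fS_le {x y z k : ℕ} (hx : x + y ≤ 4 * k) (hk : 4 * k + 2 ≤ z + 12) (a : Own) : fS x y z k a ≤ 2 * nP z k := by
  have hr : 8 * 2 ^ (z + 12) ≤ nP z k := by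
    have := le_nP z k (z + 15) (by omega)
    have e : (2 : ℕ) ^ (z + 15) = 8 * 2 ^ (z + 12) := by ring
    omega
  have hN : 2 * 2 ^ (4 * k + 2) ≤ nP z k := by
    have := le_nP z k (4 * k + 3) (by omega)
    have e : (2 : ℕ) ^ (4 * k + 3) = 2 * 2 ^ (4 * k + 2) := by ring
    omega
  have hNB : 2 ^ (4 * k + 2) * (4 * (2 ^ (z + 12) + 2 ^ (z + 12))) ≤ nP z k := by
    unfold nP
    have : 2 ^ (4 * k + 2) * (4 * (2 ^ (z + 12) + 2 ^ (z + 12))) ≤ 2 * 2 ^ (4 * k + 2) * (4 * (2 ^ (z + 12) + 2 ^ (z + 12))) :=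
      Nat.mul_le_mul_right _ (by omega)
    exact this
  have hs : ∀ e, e ≤ 4 * k + z + 18 → 2 ^ e ≤ 2 * nP z k := fun e he => (le_nP z k e he).trans (by omega)
  have hl : ∀ e, e ≤ 4 * k + z + 18 → e ≤ 2 * nP z k := fun e he => (lt_nP z k e he).trans (by omega)
  have hk1 := hs (2 * k + 1) (by omega)
  have hk2 := hs (k + 1) (by omega)
  have hk3 := le_nP z k (2 * k + 1) (by omega)
  have hk4 := le_nP z k (k + 1) (by omega)
  have h1n : 1 ≤ nP z k := Nat.one_le_two_pow.trans hk4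
  have hk5 : 2 ^ (k + 1) ≤ 2 ^ (2 * k + 1) := Nat.pow_le_pow_right (by norm_num) (by omega)
  have hk6 : 4 * 2 ^ (2 * k + 1) ≤ nP z k := by
    have := le_nP z k (2 * k + 3) (by omega)
    have e : (2 : ℕ) ^ (2 * k + 3) = 4 * 2 ^ (2 * k + 1) := by ring
    omega
  have hp1 : 1 ≤ 2 ^ (k + 1) := Nat.one_le_two_pow
  have hp2 : 1 ≤ 2 ^ (z + 12) := Nat.one_le_two_pow
  have hp3 : 1 ≤ 2 ^ (z + 12 - (4 * k + 2)) := Nat.one_le_two_pow
  have hp4 : 1 ≤ 2 ^ z := Nat.one_le_two_pow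
  have hp5 : 1 ≤ 2 ^ (4 * k + 2) := Nat.one_le_two_pow
  have hp6 : 1 ≤ 2 ^ (2 * k + 1) := Nat.one_le_two_pow
  cases a
  all_goals first
    | (rw [fS_zero _ (by decide)]; exact Nat.zero_le _)
    | skip
  · rw [fS_Rp]; exact hs _ (by omega)
  · rw [fS_Rq]; exact hs _ (by omega)
  · rw [fS_Re]; exact hs _ (by omega)
  · rw [fS_RP]; omega
  · rw [fS_RQ]; omega
  · rw [fS_RN]; exact hs _ (by omega)
  · rw [fS_R2N]; omega
  · rw [fS_RL]; omega
  · rw [fS_Rr]; omega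
  · rw [fS_RB]; omega
  · rw [fS_RBe]; omega
  · rw [fS_RBL]; omega
  · rw [fS_RBL1]; omega
  · rw [fS_Rk]; exact hl _ (by omega)
  · rw [fS_RN1B]
    have : (2 ^ (4 * k + 2) - 1) * (4 * (2 ^ (z + 12) + 2 ^ (z + 12))) ≤ 2 ^ (4 * k + 2) * (4 * (2 ^ (z + 12) + 2 ^ (z + 12))) :=
      Nat.mul_le_mul_right _ (Nat.sub_le _ _)
    omega
  · rw [fS_RNB]; omega
  · rw [fS_R2NB]; unfold nP; omega
  · rw [fS_R4NB]; unfold nP; omega
  · rw [fS_RS, ← pow_add, ← pow_add]; exact hs _ (by omega)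
  · rw [fS_Rt]; exact hs _ (by omega)
  · rw [fS_RLt]; omega
  · rw [fS_Ex]; exact hl _ (by omega)
  · rw [fS_Ey]; exact hl _ (by omega)
  · rw [fS_Ez]; exact hl _ (by omega)
  · rw [fS_Ek]; exact hl _ (by omega)
  · rw [fS_Er]; exact hl _ (by omega)
  · rw [fS_Ekap]; exact hl _ (by omega)
  · rw [fS_Et]; exact hl _ (by omega)
  · rw [fS_ERes]; exact hl _ (by omega)
  · rw [fS_R2k]; omega
  · rw [fS_Rk1]; omega
  · rw [fS_Rone]; omega

section cleanp
variable {X G : Type} [DecidableEq X]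

/-- Erase a counter. -/
def cclean (Y : Own ⊕ X) : Prog (Own ⊕ X) (Sym G) :=
  .seq (fillBy (o .RL) Y .blank) (mvBy (o .RL) Y .L)

theorem cclean_spec (Y : Own ⊕ X) (hY : (o .RL : Own ⊕ X) ≠ Y) (c : TS (Own ⊕ X) (Sym G)) {L E : ℕ} (hE : E ≤ L)
    (hC : Cyc c Y L E) (hRL : Ruler c (o .RL) L) :
    ∃ c', Run (cclean Y) c c' (2 * (4 * L + 4)) ∧ Ruler c' Y 0 ∧ Same [Y] c c' := by
  obtain ⟨c1, r1, a1, a2, a3⟩ := fillBy_spec (o .RL) Y .blank hY c hRL
  have n1 : (o .RL : Own ⊕ X) ∉ [Y] := by simpa using hY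
  obtain ⟨c2, r2, b1, b2, b3⟩ := mvBy_spec (o .RL) Y .L hY (by simp) c1 (hRL.of_same a3 n1)
  refine ⟨c2, (r1.seq r2).mono (by omega), ⟨?_, ?_⟩, (a3.trans b3).mono (by simp)⟩
  · funext x
    rw [b2, a2, hC.2, hC.1]
    by_cases hx : 0 + 0 ≤ x ∧ x < 0 + (L : ℤ)
    · rw [if_pos (by omega)]
      simp [runT]
    · rw [if_neg (by omega), crun_blank hE (by omega)]
      simp [runT]
  · rw [b1, a1, hC.2]
    simp [Dir.toInt]

/-- Erase all counters. -/
def crunClean : Prog (Own ⊕ X) (Sym G) :=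
  .seq (cclean (o .Tt)) <| .seq (cclean (o .U1)) <| .seq (cclean (o .U2)) <| .seq (cclean (o .U3)) <|
  .seq (cclean (o .V1)) <| .seq (cclean (o .V2)) <| .seq (cclean (o .V3)) <| .seq (cclean (o .TE)) (cclean (o .TD))

theorem crunClean_spec (c : TS (Own ⊕ X) (Sym G)) {L a0 a1 a2 a3 a4 a5 a6 a7 a8 : ℕ} (hRL : Ruler c (o .RL) L)
    (h0 : a0 ≤ L) (h1 : a1 ≤ L) (h2 : a2 ≤ L) (h3 : a3 ≤ L) (h4 : a4 ≤ L) (h5 : a5 ≤ L) (h6 : a6 ≤ L) (h7 : a7 ≤ L) (h8 : a8 ≤ L)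
    (c0 : Cyc c (o .Tt) L a0) (c1 : Cyc c (o .U1) L a1) (c2 : Cyc c (o .U2) L a2) (c3 : Cyc c (o .U3) L a3)
    (c4 : Cyc c (o .V1) L a4) (c5 : Cyc c (o .V2) L a5) (c6 : Cyc c (o .V3) L a6) (c7 : Cyc c (o .TE) L a7)
    (c8 : Cyc c (o .TD) L a8) :
    ∃ c', Run (crunClean : Prog (Own ⊕ X) (Sym G)) c c' (9 * (2 * (4 * L + 4))) ∧
      Ruler c' (o .Tt) 0 ∧ Ruler c' (o .U1) 0 ∧ Ruler c' (o .U2) 0 ∧ Ruler c' (o .U3) 0 ∧
      Ruler c' (o .V1) 0 ∧ Ruler c' (o .V2) 0 ∧ Ruler c' (o .V3) 0 ∧ Ruler c' (o .TE) 0 ∧ Ruler c' (o .TD) 0 ∧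
      Same CycT c c' := by
  obtain ⟨d1, r1, z0, s1⟩ := cclean_spec (o .Tt) (by simp) c h0 c0 hRL
  obtain ⟨d2, r2, z1, s2⟩ := cclean_spec (o .U1) (by simp) d1 h1 (c1.of_same s1 (by simp)) (hRL.of_same s1 (by simp))
  have t2 : Same [o .Tt, o .U1] c d2 := (s1.trans s2).mono (by simp)
  obtain ⟨d3, r3, z2, s3⟩ := cclean_spec (o .U2) (by simp) d2 h2 (c2.of_same t2 (by simp)) (hRL.of_same t2 (by simp))
  have t3 : Same [o .Tt, o .U1, o .U2] c d3 := (t2.trans s3).mono (by simp)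
  obtain ⟨d4, r4, z3, s4⟩ := cclean_spec (o .U3) (by simp) d3 h3 (c3.of_same t3 (by simp)) (hRL.of_same t3 (by simp))
  have t4 : Same [o .Tt, o .U1, o .U2, o .U3] c d4 := (t3.trans s4).mono (by simp)
  obtain ⟨d5, r5, z4, s5⟩ := cclean_spec (o .V1) (by simp) d4 h4 (c4.of_same t4 (by simp)) (hRL.of_same t4 (by simp))
  have t5 : Same [o .Tt, o .U1, o .U2, o .U3, o .V1] c d5 := (t4.trans s5).mono (by simp)
  obtain ⟨d6, r6, z5, s6⟩ := cclean_spec (o .V2) (by simp) d5 h5 (c5.of_same t5 (by simp)) (hRL.of_same t5 (by simp))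
  have t6 : Same [o .Tt, o .U1, o .U2, o .U3, o .V1, o .V2] c d6 := (t5.trans s6).mono (by simp)
  obtain ⟨d7, r7, z6, s7⟩ := cclean_spec (o .V3) (by simp) d6 h6 (c6.of_same t6 (by simp)) (hRL.of_same t6 (by simp))
  have t7 : Same [o .Tt, o .U1, o .U2, o .U3, o .V1, o .V2, o .V3] c d7 := (t6.trans s7).mono (by simp)
  obtain ⟨d8, r8, z7, s8⟩ := cclean_spec (o .TE) (by simp) d7 h7 (c7.of_same t7 (by simp)) (hRL.of_same t7 (by simp))
  have t8 : Same [o .Tt, o .U1, o .U2, o .U3, o .V1, o .V2, o .V3, o .TE] c d8 := (t7.trans s8).mono (by simp)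
  obtain ⟨d9, r9, z8, s9⟩ := cclean_spec (o .TD) (by simp) d8 h8 (c8.of_same t8 (by simp)) (hRL.of_same t8 (by simp))
  have hl9 : ∀ Y : Own ⊕ X, Y ≠ o .TD → Y ∉ [(o .TD : Own ⊕ X)] := by simp
  refine ⟨d9, ?_, ?_, ?_, ?_, ?_, ?_, ?_, ?_, z7.of_same s9 (hl9 _ (by simp)), z8, ?_⟩
  · unfold crunClean
    exact (r1.seq (r2.seq (r3.seq (r4.seq (r5.seq (r6.seq (r7.seq (r8.seq r9)))))))).mono (by omega)
  · exact z0.of_same (s2.trans (s3.trans (s4.trans (s5.trans (s6.trans (s7.trans (s8.trans s9))))))) (by simp)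
  · exact z1.of_same (s3.trans (s4.trans (s5.trans (s6.trans (s7.trans (s8.trans s9)))))) (by simp)
  · exact z2.of_same (s4.trans (s5.trans (s6.trans (s7.trans (s8.trans s9))))) (by simp)
  · exact z3.of_same (s5.trans (s6.trans (s7.trans (s8.trans s9)))) (by simp)
  · exact z4.of_same (s6.trans (s7.trans (s8.trans s9))) (by simp)
  · exact z5.of_same (s7.trans (s8.trans s9)) (by simp)
  · exact z6.of_same (s8.trans s9) (by simp)
  · unfold CycT
    exact (t8.trans s9).mono (by simp)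

end cleanp

section
variable (A : MTM)

/-- Return to the beginning of the data. -/
noncomputable def rewD : Prog (BT A) (BG A) :=
  .seq (mv (o .D) .L) (.seq (sc0 Sym.nonBlank (o .D) .L fun x => x) (mv (o .D) .R))

/-- Transpose all segments. -/
noncomputable def passLoop : Prog (BT A) (BG A) := .loop (fun s => (s (o .D)).nonBlank) (direct A)

/-- A complete pass. -/
noncomputable def pass : Prog (BT A) (BG A) :=
  .seq (.seq (opsProg setupOps) crunSetup) (.seq (passLoop A) (.seq (rewD A) (.seq crunClean (opsProg cleanOps))))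

variable {A}

theorem rewD_spec (c : TS (BT A) (BG A)) {n : ℕ} {f : ℕ → Bool} (hD : c.tape (o .D) = dataT n f)
    (hh : c.head (o .D) = (n : ℤ)) :
    ∃ c', Run (rewD A) c c' (2 * n + 3) ∧ c'.head (o .D) = 0 ∧ c'.tape (o .D) = c.tape (o .D) ∧ Same [o .D] c c' := by
  obtain ⟨c1, r1, a1, a2, a3⟩ := mv_spec (o .D) .L c
  have h1 : c1.head (o .D) = (n : ℤ) - 1 := by
    rw [a1, hh]
    simp [Dir.toInt]
    ring
  obtain ⟨c2, r2, b1, b2, b3, b4⟩ := sc0_spec Sym.nonBlank (o .D) .L (fun x => x) (by simp) c1 n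
    (by
      intro i hi
      rw [a2, hD, h1]
      simp only [Dir.toInt]
      have e : (n : ℤ) - 1 + (i : ℤ) * -1 = ((n - 1 - i : ℕ) : ℤ) := by omega
      rw [e, dataT_in (by omega)]
      simp)
    (by
      rw [a2, hD, h1]
      simp only [Dir.toInt]
      rw [dataT_out (by omega)]
      rfl)
  have t2 : c2.tape (o .D) = c1.tape (o .D) := same_of_hit_miss b2 b3
  obtain ⟨c3, r3, d1, d2, d3⟩ := mv_spec (o .D) .R c2
  refine ⟨c3, (r1.seq (r2.seq r3)).mono (by omega), ?_, ?_, (a3.trans (b4.trans d3)).mono (by simp)⟩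
  · rw [d1, b1, h1]
    simp only [Dir.toInt]
    ring
  · rw [d2, t2, a2]

theorem passLoop_spec {τ : ℕ → ℕ} (hA : Multiplies A τ) (c : TS (BT A) (BG A)) {p q e P Q κ r t u1 u2 u3 v1 v2 v3 m n : ℕ}
    {f : ℕ → Bool}
    (hr : r = t * 2 ^ κ) (hr1 : 1 ≤ r) (hκ : 1 ≤ κ) (hPQ : P * Q = 2 ^ κ + 1)
    (hp : p ≤ P) (hq : q ≤ Q) (hpQ : p * Q ≤ 2 ^ κ) (hqP : q * P ≤ 2 ^ κ) (hke : κ + e ≤ r)
    (hu1 : u1 ≤ r + r) (hu2 : u2 ≤ r + r) (hu3 : u3 ≤ r + r)
    (hv1 : v1 ≤ r + r) (hv2 : v2 ≤ r + r) (hv3 : v3 ≤ r + r)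
    (hv1' : v1 ≡ 2 * u1 [MOD r + r]) (hv2' : v2 ≡ 2 * u2 [MOD r + r]) (hv3' : v3 ≡ 2 * u3 [MOD r + r])
    (hz1 : (u1 : ℤ) ≡ (-1) * t [ZMOD ((r + r : ℕ) : ℤ)])
    (hz2 : (u2 : ℤ) ≡ ((Q : ℤ) - 1) * t [ZMOD ((r + r : ℕ) : ℤ)])
    (hz3 : (u3 : ℤ) ≡ (Q : ℤ) * t [ZMOD ((r + r : ℕ) : ℤ)])
    (hp0 : 0 < p) (hq0 : 0 < q) (he0 : 0 < e) (hn : n = m * (q * p * e))
    (hS : DS c p q e P Q (2 ^ κ) κ r u1 u2 u3 v1 v2 v3)
    (hD : c.tape (o .D) = dataT n f) (hh : c.head (o .D) = 0) :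
    ∃ c', Run (passLoop A) c c'
        (m * (directCost (@Finset.univ A.T A.fT).card P Q κ r (p * q * e) (τ (2 * 2 ^ κ * (4 * (r + r)))) + 1) + 1) ∧
      DS c' p q e P Q (2 ^ κ) κ r u1 u2 u3 v1 v2 v3 ∧ c'.head (o .D) = (n : ℤ) ∧
      c'.tape (o .D) = dataT n (fun x => f (srcIdx p q e x)) ∧ Same (Work A) c c' := by
  have hSp : 0 < q * p * e := by positivity
  obtain ⟨c', ⟨h1, h2, h3, h4⟩, r'⟩ := Run.loop (g := fun s => (s (o .D)).nonBlank) (b := direct A)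
    (fun i c' => DS c' p q e P Q (2 ^ κ) κ r u1 u2 u3 v1 v2 v3 ∧ c'.head (o .D) = ((i * (q * p * e) : ℕ) : ℤ) ∧
      c'.tape (o .D) = dataT n (fnI p q e f i) ∧ Same (Work A) c c') m
    (fun _ => directCost (@Finset.univ A.T A.fT).card P Q κ r (p * q * e) (τ (2 * 2 ^ κ * (4 * (r + r)))))
    (c := c)
    ⟨hS, by rw [hh]; simp, by rw [hD, fnI_zero], Same.refl _ _⟩
    (by
      rintro i hi c1 ⟨g1, g2, g3, g4⟩
      have hib : (i + 1) * (q * p * e) ≤ n := by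
        rw [hn]
        exact Nat.mul_le_mul_right _ hi
      constructor
      · simp only [TS.read]
        rw [g3, g2, dataT_in (by rw [add_mul, one_mul] at hib; omega)]
        simp
      · obtain ⟨c2, r2, a1, a2, a3, a4⟩ := direct_spec hA c1 hr hr1 hκ hPQ hp hq hpQ hqP hke hu1 hu2 hu3 hv1 hv2 hv3
          hv1' hv2' hv3' hz1 hz2 hz3 g1
        refine ⟨c2, r2, a3, ?_, ?_, (g4.trans a4).mono (by simp)⟩
        · rw [a1, g2]
          push_cast
          ring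
        · rw [g3, g2] at a2
          exact dataT_step hp0 hq0 he0 hib a2)
    (by
      rintro c1 ⟨g1, g2, g3, g4⟩
      simp only [TS.read]
      rw [g3, g2, ← hn, dataT_out (by omega)]
      rfl)
  have hsum : ∑ i ∈ Finset.range m, (directCost (@Finset.univ A.T A.fT).card P Q κ r (p * q * e) (τ (2 * 2 ^ κ * (4 * (r + r)))) + 1) =
      m * (directCost (@Finset.univ A.T A.fT).card P Q κ r (p * q * e) (τ (2 * 2 ^ κ * (4 * (r + r)))) + 1) := by simp
  rw [hsum] at r'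
  refine ⟨c', r', h1, ?_, ?_, h4⟩
  · rw [h2, hn]
  · rw [h3]
    exact fnI_all hn

end

end Vale.Agent.Lib.P338
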