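import Vale.Agent.Lib.P338.Pass

/-!
The specification of a pass.
-/

namespace Vale.Agent.Lib.P338

open Prog

/-- The sum counter. -/
def U2v (L t Q : ℕ) : ℕ := cycAdd L (cycAdd L 0 (mulCyc L t Q)) (L - t)

/-- The doubled counter. -/
def Dv (L a : ℕ) : ℕ := cycAdd L (cycAdd L 0 a) a

theorem Dv_le {L a : ℕ} (ha : a ≤ L) : Dv L a ≤ L := cycAdd_le (cycAdd_le (Nat.zero_le L) ha) ha

theorem Dv_modEq {L a : ℕ} (ha : a ≤ L) : Dv L a ≡ 2 * a [MOD L] := by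
  have h1 := cycAdd_modEq L 0 a (Nat.zero_le L) ha
  have h2 := cycAdd_modEq L (cycAdd L 0 a) a (cycAdd_le (Nat.zero_le L) ha) ha
  refine h2.trans ?_
  have := h1.add_right a
  rw [zero_add] at this
  rw [two_mul]
  exact this

theorem U2v_le {L t Q : ℕ} (ht : t ≤ L) : U2v L t Q ≤ L :=
  cycAdd_le (cycAdd_le (Nat.zero_le L) (mulCyc_le ht Q)) (Nat.sub_le _ _)

theorem u1_z {L t : ℕ} (ht : t ≤ L) : ((L - t : ℕ) : ℤ) ≡ (-1) * t [ZMOD (L : ℤ)] := by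
  rw [Nat.cast_sub ht]
  apply Int.ModEq.symm
  apply Int.modEq_iff_dvd.2
  exact ⟨1, by ring⟩

theorem u3_z {L t : ℕ} (ht : t ≤ L) (Q : ℕ) : ((mulCyc L t Q : ℕ) : ℤ) ≡ (Q : ℤ) * t [ZMOD (L : ℤ)] := by
  have := mulCyc_modEq ht Q
  have h2 : ((mulCyc L t Q : ℕ) : ℤ) ≡ ((Q * t : ℕ) : ℤ) [ZMOD (L : ℤ)] := (Int.natCast_modEq_iff).2 this
  push_cast at h2
  exact h2

theorem u2_z {L t : ℕ} (ht : t ≤ L) (Q : ℕ) : ((U2v L t Q : ℕ) : ℤ) ≡ ((Q : ℤ) - 1) * t [ZMOD (L : ℤ)] := by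
  have hu3 := mulCyc_le ht Q
  have h1 := cycAdd_modEq L 0 (mulCyc L t Q) (Nat.zero_le L) hu3
  have h2 := cycAdd_modEq L (cycAdd L 0 (mulCyc L t Q)) (L - t) (cycAdd_le (Nat.zero_le L) hu3) (Nat.sub_le _ _)
  have h3 : U2v L t Q ≡ mulCyc L t Q + (L - t) [MOD L] := by
    refine h2.trans ?_
    have := h1.add_right (L - t)
    rw [zero_add] at this
    exact this
  have h4 : ((U2v L t Q : ℕ) : ℤ) ≡ ((mulCyc L t Q + (L - t) : ℕ) : ℤ) [ZMOD (L : ℤ)] := (Int.natCast_modEq_iff).2 h3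
  refine h4.trans ?_
  push_cast
  have h5 := (u3_z ht Q).add (u1_z ht)
  have e : (Q : ℤ) * t + (-1) * t = ((Q : ℤ) - 1) * t := by ring
  rw [e] at h5
  exact h5

section
variable {A : MTM}

/-- The state of the work tapes between passes. -/
structure Idle (c : TS (BT A) (BG A)) : Prop where
  z0 : Ruler c (o .Tt) 0
  z1 : Ruler c (o .U1) 0
  z2 : Ruler c (o .U2) 0
  z3 : Ruler c (o .U3) 0
  z4 : Ruler c (o .V1) 0
  z5 : Ruler c (o .V2) 0
  z6 : Ruler c (o .V3) 0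
  z7 : Ruler c (o .TE) 0
  z8 : Ruler c (o .TD) 0
  hZ : (c.read (o .Z)).isOne = false
  hW1 : c.head (o .W1) = 0
  hW2 : c.head (o .W2) = 0
  hW3 : c.head (o .W3) = 0
  hB : ∀ t x, c.tape (Sum.inr t) x = .blank

theorem Regs.of_same {c c' : TS (BT A) (BG A)} {f : Own → ℕ} (h : Regs c f) {l : List (BT A)} (hs : Same l c c')
    (hl : ∀ a : Own, isReg a = true → (o a : BT A) ∉ l) : Regs c' f :=
  fun a ha => (h a ha).of_same hs (hl a ha)

theorem regs_DR {c : TS (BT A) (BG A)} {x y z k : ℕ} (h : Regs c (fS x y z k)) :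
    DR c (2 ^ x) (2 ^ y) (2 ^ z) (PP k) (QQ k) (2 ^ (4 * k + 2)) (4 * k + 2) (2 ^ (z + 12)) := by
  have f : ∀ a : Own, isReg a = true → ∀ v, fS x y z k a = v → Ruler c (o a) v := by
    intro a ha v hv
    rw [← hv]
    exact h a ha
  exact ⟨f _ rfl _ (fS_RP x y z k), f _ rfl _ (fS_RQ x y z k), f _ rfl _ (fS_Rp x y z k), f _ rfl _ (fS_Rq x y z k),
    f _ rfl _ (fS_Re x y z k), f _ rfl _ (fS_Rr x y z k), f _ rfl _ (fS_Rk x y z k), f _ rfl _ (fS_RBe x y z k),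
    f _ rfl _ (fS_RN x y z k), f _ rfl _ (fS_R2N x y z k), f _ rfl _ (fS_RL x y z k), f _ rfl _ (fS_RB x y z k),
    f _ rfl _ (fS_RBL x y z k), f _ rfl _ (fS_RBL1 x y z k), f _ rfl _ (fS_RN1B x y z k), f _ rfl _ (fS_RNB x y z k),
    f _ rfl _ (fS_R2NB x y z k), f _ rfl _ (fS_R4NB x y z k), f _ rfl _ (fS_RS x y z k)⟩

/-- The tapes used by a pass. -/
noncomputable def PassT (A : MTM) : List (BT A) := Work A ++ (CycT ++ RegT)

theorem nC (a : Own) (h : a ∉ [Own.Tt, .U1, .U2, .U3, .V1, .V2, .V3, .TE, .TD]) : (o a : BT A) ∉ (CycT : List (BT A)) := by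
  unfold CycT
  simp only [List.mem_cons, List.not_mem_nil, or_false, not_or, o, Sum.inl.injEq] at h ⊢
  exact h

theorem reg_not_cyc (a : Own) (ha : isReg a = true) : a ∉ [Own.Tt, .U1, .U2, .U3, .V1, .V2, .V3, .TE, .TD] := by
  cases a <;> first | (exfalso; revert ha; exact Bool.false_ne_true) | decide

theorem setup_phase (c : TS (BT A) (BG A)) {x y z k : ℕ} (hx2 : x + y ≤ 4 * k) (hk : 4 * k + 2 ≤ z + 12)
    (hR : Regs c (f0 x y z k)) (hI : Idle c) :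
    ∃ c', Run (.seq (opsProg setupOps) crunSetup) c c'
        (opsCost (f0 x y z k) setupOps + (3 * (16 * (2 ^ (z + 12) + 2 ^ (z + 12)) + 16) +
          (QQ k * (16 * (2 ^ (z + 12) + 2 ^ (z + 12)) + 18) + 1 + (2 * QQ k + 3)) + 14 * (16 * (2 ^ (z + 12) + 2 ^ (z + 12)) + 16))) ∧
      Regs c' (fS x y z k) ∧
      DS c' (2 ^ x) (2 ^ y) (2 ^ z) (PP k) (QQ k) (2 ^ (4 * k + 2)) (4 * k + 2) (2 ^ (z + 12))
        ((2 ^ (z + 12) + 2 ^ (z + 12)) - 2 ^ (z + 12 - (4 * k + 2)))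
        (U2v (2 ^ (z + 12) + 2 ^ (z + 12)) (2 ^ (z + 12 - (4 * k + 2))) (QQ k))
        (mulCyc (2 ^ (z + 12) + 2 ^ (z + 12)) (2 ^ (z + 12 - (4 * k + 2))) (QQ k))
        (Dv (2 ^ (z + 12) + 2 ^ (z + 12)) ((2 ^ (z + 12) + 2 ^ (z + 12)) - 2 ^ (z + 12 - (4 * k + 2))))
        (Dv (2 ^ (z + 12) + 2 ^ (z + 12)) (U2v (2 ^ (z + 12) + 2 ^ (z + 12)) (2 ^ (z + 12 - (4 * k + 2))) (QQ k)))
        (Dv (2 ^ (z + 12) + 2 ^ (z + 12)) (mulCyc (2 ^ (z + 12) + 2 ^ (z + 12)) (2 ^ (z + 12 - (4 * k + 2))) (QQ k))) ∧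
      Cyc c' (o .Tt) (2 ^ (z + 12) + 2 ^ (z + 12)) (2 ^ (z + 12 - (4 * k + 2))) ∧
      Same (CycT ++ RegT) c c' := by
  obtain ⟨c1, r1, g1, s1⟩ := ops_spec setupOps c (f0 x y z k) hR (setup_ok x y z k hk)
  have g1' : Regs c1 (fS x y z k) := g1
  have hRa : ∀ a : Own, isReg a = false → (o a : BT A) ∉ (RegT : List (BT A)) := fun a h => nR a h
  have ht : 2 ^ (z + 12 - (4 * k + 2)) ≤ 2 ^ (z + 12) + 2 ^ (z + 12) := by
    have : 2 ^ (z + 12 - (4 * k + 2)) ≤ 2 ^ (z + 12) := Nat.pow_le_pow_right (by norm_num) (by omega)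
    exact this.trans (Nat.le_add_left _ _)
  have hL : 1 ≤ 2 ^ (z + 12) + 2 ^ (z + 12) := by
    have : 1 ≤ 2 ^ (z + 12) := Nat.one_le_two_pow
    omega
  have f : ∀ a : Own, isReg a = true → ∀ v, fS x y z k a = v → Ruler c1 (o a) v := by
    intro a ha v hv
    rw [← hv]
    exact g1' a ha
  obtain ⟨c2, r2, cs, s2⟩ := crunSetup_spec c1 hL ht (Q := QQ k)
    (f _ rfl _ (fS_Rt x y z k)) (f _ rfl _ (fS_RLt x y z k)) (f _ rfl _ (fS_Tmp x y z k)) (f _ rfl _ (fS_RL x y z k))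
    (f _ rfl _ (fS_RQ x y z k))
    (hI.z0.of_same s1 (hRa _ rfl)) (hI.z1.of_same s1 (hRa _ rfl)) (hI.z2.of_same s1 (hRa _ rfl))
    (hI.z3.of_same s1 (hRa _ rfl)) (hI.z4.of_same s1 (hRa _ rfl)) (hI.z5.of_same s1 (hRa _ rfl))
    (hI.z6.of_same s1 (hRa _ rfl)) (hI.z7.of_same s1 (hRa _ rfl)) (hI.z8.of_same s1 (hRa _ rfl))
  have nCR : ∀ a : Own, isReg a = true → (o a : BT A) ∉ (CycT : List (BT A)) :=
    fun a ha => nC a (reg_not_cyc a ha)
  have g2 : Regs c2 (fS x y z k) := g1'.of_same s2 nCR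
  have s12 : Same (RegT ++ CycT) c c2 := s1.trans s2
  have hnA : ∀ t : A.T, (Sum.inr t : BT A) ∉ RegT ++ CycT := by
    intro t
    simp only [List.mem_append, not_or]
    exact ⟨nRA t, by simp [CycT]⟩
  have n12 : ∀ a : Own, isReg a = false → a ∉ [Own.Tt, .U1, .U2, .U3, .V1, .V2, .V3, .TE, .TD] → (o a : BT A) ∉ RegT ++ CycT := by
    intro a h1 h2
    simp only [List.mem_append, not_or]
    exact ⟨nR a h1, nC a h2⟩
  refine ⟨c2, r1.seq r2, g2, ⟨regs_DR g2, ⟨cs.h1, cs.h2, cs.h3, cs.d1, cs.d2, cs.d3⟩, ⟨0, Nat.zero_le _, cs.hE⟩, ⟨0, Nat.zero_le _, cs.hD⟩,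
    ?_, ?_, ?_, ?_, ?_⟩, cs.hT, ?_⟩
  · have := hI.hZ
    unfold TS.read at this ⊢
    rw [s12.tape (n12 _ rfl (by decide)), s12.head (n12 _ rfl (by decide))]
    exact this
  · rw [s12.head (n12 _ rfl (by decide))]
    exact hI.hW1
  · rw [s12.head (n12 _ rfl (by decide))]
    exact hI.hW2
  · rw [s12.head (n12 _ rfl (by decide))]
    exact hI.hW3
  · intro t y
    rw [s12.tape (hnA t)]
    exact hI.hB t y
  · exact s12.mono (by
      intro u hu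
      rcases List.mem_append.1 hu with hu | hu
      · exact List.mem_append_right _ hu
      · exact List.mem_append_left _ hu)

/-- The cost bound of a pass. -/
noncomputable def passCost (card x y z k m n T : ℕ) : ℕ :=
  (opsCost (f0 x y z k) setupOps + (3 * (16 * (2 ^ (z + 12) + 2 ^ (z + 12)) + 16) +
          (QQ k * (16 * (2 ^ (z + 12) + 2 ^ (z + 12)) + 18) + 1 + (2 * QQ k + 3)) + 14 * (16 * (2 ^ (z + 12) + 2 ^ (z + 12)) + 16))) +
    ((m * (directCost card (PP k) (QQ k) (4 * k + 2) (2 ^ (z + 12)) (2 ^ x * 2 ^ y * 2 ^ z) T + 1) + 1) +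
      ((2 * n + 3) + (9 * (2 * (4 * (2 ^ (z + 12) + 2 ^ (z + 12)) + 4)) + opsCost (fS x y z k) cleanOps)))

theorem pass_spec {τ : ℕ → ℕ} (hA : Multiplies A τ) (c : TS (BT A) (BG A)) {x y z k m n : ℕ} {f : ℕ → Bool}
    (hk1 : 1 ≤ k) (hx : x ≤ 2 * k - 1) (hy : y ≤ 2 * k - 1) (hk : 4 * k + 2 ≤ z + 12)
    (hn : n = m * (2 ^ y * 2 ^ x * 2 ^ z))
    (hR : Regs c (f0 x y z k)) (hI : Idle c) (hD : c.tape (o .D) = dataT n f) (hh : c.head (o .D) = 0) :
    ∃ c', Run (pass A) c c' (passCost (@Finset.univ A.T A.fT).card x y z k m n (τ (nP z k))) ∧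
      Regs c' (f0 x y z k) ∧ Idle c' ∧ c'.tape (o .D) = dataT n (fun i => f (srcIdx (2 ^ x) (2 ^ y) (2 ^ z) i)) ∧
      c'.head (o .D) = 0 ∧ Same (PassT A) c c' := by
  obtain ⟨c2, r2, g2, ds2, hT2, s2⟩ := setup_phase c (by omega) hk hR hI
  obtain ⟨p1, p2, p3, p4, p5, p6⟩ := params hk1 hx hy hk
  have nD2 : (o .D : BT A) ∉ CycT ++ RegT := by
    simp only [List.mem_append, not_or]
    exact ⟨nC _ (by decide), nR _ rfl⟩
  have ht : 2 ^ (z + 12 - (4 * k + 2)) ≤ 2 ^ (z + 12) + 2 ^ (z + 12) := by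
    have : 2 ^ (z + 12 - (4 * k + 2)) ≤ 2 ^ (z + 12) := Nat.pow_le_pow_right (by norm_num) (by omega)
    exact this.trans (Nat.le_add_left _ _)
  obtain ⟨c3, r3, ds3, h3, t3, s3⟩ := passLoop_spec hA c2 (f := f) (m := m) (n := n) p1 Nat.one_le_two_pow (by omega) (pp_qq k) p2 p3 p4 p5 p6
    (Nat.sub_le _ _) (U2v_le ht) (mulCyc_le ht _)
    (Dv_le (Nat.sub_le _ _)) (Dv_le (U2v_le ht)) (Dv_le (mulCyc_le ht _))
    (Dv_modEq (Nat.sub_le _ _)) (Dv_modEq (U2v_le ht)) (Dv_modEq (mulCyc_le ht _))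
    (u1_z ht) (u2_z ht _) (u3_z ht _) (by positivity) (by positivity) (by positivity) hn ds2
    (by rw [s2.tape nD2]; exact hD) (by rw [s2.head nD2]; exact hh)
  obtain ⟨c4, r4, h4, t4, s4⟩ := rewD_spec c3 t3 h3
  obtain ⟨hR3, hC3, ⟨e3, he3, hE3⟩, ⟨d3, hd3, hD3⟩, hZ3, hW13, hW23, hW33, hB3⟩ := ds3
  have n4 : ∀ a : Own, a ≠ .D → (o a : BT A) ∉ [(o .D : BT A)] := by
    intro a ha
    simp [o, ha]
  have nTt : (o .Tt : BT A) ∉ Work A := nW _ rfl
  obtain ⟨c5, r5, z0, z1, z2, z3, z4, z5, z6, z7, z8, s5⟩ := crunClean_spec c4 (L := 2 ^ (z + 12) + 2 ^ (z + 12))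
    (hR3.rL.of_same s4 (n4 _ (by decide))) ht (Nat.sub_le _ _) (U2v_le ht) (mulCyc_le ht _)
    (Dv_le (Nat.sub_le _ _)) (Dv_le (U2v_le ht)) (Dv_le (mulCyc_le ht _)) he3 hd3
    ((hT2.of_same s3 nTt).of_same s4 (n4 _ (by decide))) (hC3.c1.of_same s4 (n4 _ (by decide)))
    (hC3.c2.of_same s4 (n4 _ (by decide))) (hC3.c3.of_same s4 (n4 _ (by decide)))
    (hC3.d1.of_same s4 (n4 _ (by decide))) (hC3.d2.of_same s4 (n4 _ (by decide)))
    (hC3.d3.of_same s4 (n4 _ (by decide))) (hE3.of_same s4 (n4 _ (by decide))) (hD3.of_same s4 (n4 _ (by decide)))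
  have nCR : ∀ a : Own, isReg a = true → (o a : BT A) ∉ (CycT : List (BT A)) :=
    fun a ha => nC a (reg_not_cyc a ha)
  have hinW : ∀ a : Own, isReg a = true → inW a = false := by
    intro a ha
    cases a <;> first | (exfalso; revert ha; exact Bool.false_ne_true) | rfl
  have g5 : Regs c5 (fS x y z k) := ((g2.of_same s3 (fun a ha => nW a (hinW a ha))).of_same s4
    (fun a ha => n4 a (by rintro rfl; exact absurd ha (by decide)))).of_same s5 nCR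
  obtain ⟨c6, r6, g6, s6⟩ := ops_spec cleanOps c5 (fS x y z k) g5 (opsOk_clr _ _ (fun a ha => by
    simp only [cleanL, List.mem_cons, List.not_mem_nil, or_false] at ha
    rcases ha with ha | ha | ha | ha | ha | ha | ha | ha | ha | ha | ha | ha | ha | ha | ha | ha | ha | ha | ha | ha | ha | ha | ha | ha | ha | ha | ha | ha | ha | ha <;>
    subst ha <;> rfl))
  have s46 : Same ([(o .D : BT A)] ++ (CycT ++ RegT)) c3 c6 := s4.trans (s5.trans s6)
  have nnA : ∀ t : A.T, (Sum.inr t : BT A) ∉ [(o .D : BT A)] ++ (CycT ++ RegT) := by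
    intro t
    simp only [List.mem_append, not_or]
    exact ⟨by simp [o], by simp [CycT], nRA t⟩
  have nn : ∀ a : Own, a ≠ .D → a ∉ [Own.Tt, .U1, .U2, .U3, .V1, .V2, .V3, .TE, .TD] → isReg a = false →
      (o a : BT A) ∉ [(o .D : BT A)] ++ (CycT ++ RegT) := by
    intro a h1 h2 h3
    simp only [List.mem_append, not_or]
    exact ⟨n4 a h1, nC a h2, nR a h3⟩
  have nD6 : (o .D : BT A) ∉ CycT ++ RegT := nD2
  refine ⟨c6, ?_, ?_, ⟨z0.of_same s6 (nR _ rfl), z1.of_same s6 (nR _ rfl), z2.of_same s6 (nR _ rfl), z3.of_same s6 (nR _ rfl),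
    z4.of_same s6 (nR _ rfl), z5.of_same s6 (nR _ rfl), z6.of_same s6 (nR _ rfl), z7.of_same s6 (nR _ rfl), z8.of_same s6 (nR _ rfl),
    ?_, ?_, ?_, ?_, ?_⟩, ?_, ?_, ?_⟩
  · unfold passCost
    exact r2.seq (r3.seq (r4.seq (r5.seq r6)))
  · intro a ha
    rw [← clean_values x y z k a ha]
    exact g6 a ha
  · unfold TS.read at hZ3 ⊢
    rw [s46.tape (nn _ (by decide) (by decide) rfl), s46.head (nn _ (by decide) (by decide) rfl)]
    exact hZ3
  · rw [s46.head (nn _ (by decide) (by decide) rfl)]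
    exact hW13
  · rw [s46.head (nn _ (by decide) (by decide) rfl)]
    exact hW23
  · rw [s46.head (nn _ (by decide) (by decide) rfl)]
    exact hW33
  · intro t u
    rw [s46.tape (nnA t)]
    exact hB3 t u
  · have s56 : Same (CycT ++ RegT) c4 c6 := s5.trans s6
    rw [s56.tape nD6, t4, t3]
  · have s56 : Same (CycT ++ RegT) c4 c6 := s5.trans s6
    rw [s56.head nD6, h4]
  · unfold PassT
    refine (s2.trans (s3.trans s46)).mono ?_
    intro u hu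
    rcases List.mem_append.1 hu with hu | hu
    · exact List.mem_append_right _ hu
    rcases List.mem_append.1 hu with hu | hu
    · exact List.mem_append_left _ hu
    rcases List.mem_append.1 hu with hu | hu
    · simp only [List.mem_singleton] at hu
      subst hu
      exact List.mem_append_left _ (by simp [Work])
    · exact List.mem_append_right _ hu

theorem directCost_le {card P Q κ r S T : ℕ} (hPQ : P * Q = 2 ^ κ + 1) (hP : P ≤ 2 ^ κ) (hQ : Q ≤ 2 ^ κ)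
    (hS : S ≤ 2 * 2 ^ κ * (4 * (r + r))) (hr : 1 ≤ r) :
    directCost card P Q κ r S T ≤ 500 * (card + 1) * (2 * 2 ^ κ * (4 * (r + r)) + T + 1) := by
  have hN1 : 1 ≤ 2 ^ κ := Nat.one_le_two_pow
  simp only [directCost, expandCost, stageCost, chirpCost, kernelCost, mulCost, outputCost]
  rw [hPQ]
  generalize 2 ^ κ = N at *
  have h1 : (N - 1) * (4 * (r + r)) ≤ N * (4 * (r + r)) := Nat.mul_le_mul_right _ (Nat.sub_le _ _)
  have hN2 : N ≤ N * r := Nat.le_mul_of_pos_right _ hr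
  have hr2 : r ≤ N * r := Nat.le_mul_of_pos_left _ hN1
  have hc : 1 ≤ card + 1 := by omega
  generalize card + 1 = K at *
  have hNr : 1 ≤ N * r := Nat.mul_pos hN1 hr
  have a1 : N * r ≤ K * (N * r) := Nat.le_mul_of_pos_left _ hc
  have a2 : T ≤ K * T := Nat.le_mul_of_pos_left _ hc
  have a3 : 1 ≤ K * (N * r) := Nat.mul_pos hc hNr
  have a4 : K * N ≤ K * (N * r) := Nat.mul_le_mul_left _ hN2
  have a5 : K * r ≤ K * (N * r) := Nat.mul_le_mul_left _ hr2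
  have a6 : K ≤ K * (N * r) := Nat.le_mul_of_pos_right _ hNr
  nlinarith

/-- The simplified bound for a pass. -/
def passBd (card n m nP T : ℕ) : ℕ := 6000 * nP + 2 * n + m * (501 * (card + 1) * (nP + T + 1)) + 10

theorem passCost_le {card x y z k m n T : ℕ} (hk1 : 1 ≤ k) (hx : x ≤ 2 * k - 1) (hy : y ≤ 2 * k - 1) (hk : 4 * k + 2 ≤ z + 12) :
    passCost card x y z k m n T ≤ passBd card n m (nP z k) T := by
  obtain ⟨p1, p2, p3, p4, p5, p6⟩ := params hk1 hx hy hk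
  have h0 := setup_cost x y z k (by omega) hk
  have h1 := opsCost_clr (fS x y z k) cleanL (2 * nP z k) (fS_le (by omega) hk)
  have hLen : cleanL.length = 30 := rfl
  rw [hLen] at h1
  have hQ : QQ k ≤ 2 ^ (4 * k + 2) := (Nat.le_mul_of_pos_left _ (by positivity)).trans p4
  have hP : PP k ≤ 2 ^ (4 * k + 2) := (Nat.le_mul_of_pos_left _ (by positivity)).trans p5
  have hS : 2 ^ x * 2 ^ y * 2 ^ z ≤ nP z k := by
    rw [← pow_add, ← pow_add]
    exact le_nP _ _ _ (by omega)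
  have h2 := directCost_le (card := card) (T := T) (pp_qq k) hP hQ hS (r := 2 ^ (z + 12)) Nat.one_le_two_pow
  unfold passCost passBd
  rw [show cleanOps = cleanL.map ROp.clr from rfl]
  unfold nP at h0 h1 ⊢
  have hmul : m * (directCost card (PP k) (QQ k) (4 * k + 2) (2 ^ (z + 12)) (2 ^ x * 2 ^ y * 2 ^ z) T + 1) ≤
      m * (501 * (card + 1) * (2 * 2 ^ (4 * k + 2) * (4 * (2 ^ (z + 12) + 2 ^ (z + 12))) + T + 1)) := by
    apply Nat.mul_le_mul_left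
    have : 1 ≤ (card + 1) * (2 * 2 ^ (4 * k + 2) * (4 * (2 ^ (z + 12) + 2 ^ (z + 12))) + T + 1) :=
      Nat.mul_pos (by omega) (by omega)
    nlinarith
  have hN1 : 1 ≤ 2 ^ (4 * k + 2) := Nat.one_le_two_pow
  have hr1 : 1 ≤ 2 ^ (z + 12) := Nat.one_le_two_pow
  have hQ2 : QQ k * (16 * (2 ^ (z + 12) + 2 ^ (z + 12)) + 18) ≤ 2 ^ (4 * k + 2) * (16 * (2 ^ (z + 12) + 2 ^ (z + 12)) + 18) :=
    Nat.mul_le_mul_right _ hQ
  generalize (m * (501 * (card + 1) * (2 * 2 ^ (4 * k + 2) * (4 * (2 ^ (z + 12) + 2 ^ (z + 12))) + T + 1))) = M at *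
  generalize m * (directCost card (PP k) (QQ k) (4 * k + 2) (2 ^ (z + 12)) (2 ^ x * 2 ^ y * 2 ^ z) T + 1) = D at *
  generalize QQ k = Q at *
  generalize 2 ^ (4 * k + 2) = N at *
  generalize 2 ^ (z + 12) = r at *
  have hN2 : N ≤ N * r := Nat.le_mul_of_pos_right _ hr1
  have hr2 : r ≤ N * r := Nat.le_mul_of_pos_left _ hN1
  have hNr : 1 ≤ N * r := Nat.mul_pos hN1 hr1
  nlinarith

end

end Vale.Agent.Lib.P338
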