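import Vale.Agent.Lib.P338.Defs

/-!
A small structured programming language over the tapes of a multitape machine, its big-step cost
semantics, and its compilation to finite control (`St`, `fstep`).
-/

namespace Vale.Agent.Lib.P338

/-- Tape contents and head positions, without control state. -/
structure TS (T Γ : Type) where
  tape : T → ℤ → Γ
  head : T → ℤ

namespace TS
variable {T Γ : Type}

/-- The symbols under the heads. -/
def read (c : TS T Γ) : T → Γ := fun t => c.tape t (c.head t)

/-- Write `w` on all tapes and move the heads by `d`. -/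
def apply (c : TS T Γ) (w : T → Γ) (d : T → Dir) : TS T Γ :=
  ⟨fun t i => if i = c.head t then w t else c.tape t i, fun t => c.head t + (d t).toInt⟩

@[ext] theorem ext' {c c' : TS T Γ} (h1 : c.tape = c'.tape) (h2 : c.head = c'.head) : c = c' := by
  cases c; cases c'; simp_all

end TS

/-- Restrict writes to the tapes in `ts`. -/
def clampW {T Γ : Type} (ts : T → Bool) (s w : T → Γ) : T → Γ := fun t => if ts t then w t else s t

/-- Restrict moves to the tapes in `ts`. -/
def clampD {T : Type} (ts : T → Bool) (d : T → Dir) : T → Dir := fun t => if ts t then d t else .S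

/-- Structured programs. -/
inductive Prog (T Γ : Type) : Type 1
  | act (ts : T → Bool) (F : (T → Γ) → (T → Γ) × (T → Dir))
  | seq (a b : Prog T Γ)
  | ite (g : (T → Γ) → Bool) (a b : Prog T Γ)
  | loop (g : (T → Γ) → Bool) (b : Prog T Γ)
  | call (ts : T → Bool) (SQ : Type) (fin : Fintype SQ) (s0 : SQ)
      (Sδ : SQ → (T → Γ) → Option (SQ × (T → Γ) × (T → Dir)))

namespace Prog
variable {T Γ : Type}

/-- Runs of an embedded machine. -/
inductive SubRun {SQ : Type} (ts : T → Bool)
    (Sδ : SQ → (T → Γ) → Option (SQ × (T → Γ) × (T → Dir))) :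
    SQ → TS T Γ → TS T Γ → ℕ → Prop
  | done {q c} : Sδ q c.read = none → SubRun ts Sδ q c c 1
  | step {q c q' w d c2 n} : Sδ q c.read = some (q', w, d) →
      SubRun ts Sδ q' (c.apply (clampW ts c.read w) (clampD ts d)) c2 n →
      SubRun ts Sδ q c c2 (n + 1)

/-- Big-step semantics with exact step count. -/
inductive Exec : Prog T Γ → TS T Γ → TS T Γ → ℕ → Prop
  | act {ts F c} : Exec (.act ts F) c
      (c.apply (clampW ts c.read (F c.read).1) (clampD ts (F c.read).2)) 1
  | seq {a b c c1 c2 n1 n2} : Exec a c c1 n1 → Exec b c1 c2 n2 → Exec (.seq a b) c c2 (n1 + n2)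
  | iteT {g a b c c' n} : g c.read = true → Exec a c c' n → Exec (.ite g a b) c c' (n + 1)
  | iteF {g a b c c' n} : g c.read = false → Exec b c c' n → Exec (.ite g a b) c c' (n + 1)
  | loopDone {g b c} : g c.read = false → Exec (.loop g b) c c 1
  | loopStep {g b c c1 c2 n1 n2} : g c.read = true → Exec b c c1 n1 → Exec (.loop g b) c1 c2 n2 →
      Exec (.loop g b) c c2 (n1 + n2 + 1)
  | call {ts SQ fin s0 Sδ c c' n} : SubRun (SQ := SQ) ts Sδ s0 c c' n →
      Exec (.call ts SQ fin s0 Sδ) c c' n

/-- Control states of a program. -/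
def St : Prog T Γ → Type
  | .act _ _ => Unit
  | .seq a b => St a ⊕ St b
  | .ite _ a b => Unit ⊕ (St a ⊕ St b)
  | .loop _ b => Unit ⊕ St b
  | .call _ SQ _ _ _ => SQ

/-- The finiteness of the control states. -/
@[instance_reducible] def stFin : (P : Prog T Γ) → Fintype (St P)
  | .act _ _ => inferInstanceAs (Fintype Unit)
  | .seq a b => @instFintypeSum _ _ (stFin a) (stFin b)
  | .ite _ a b => @instFintypeSum _ _ _ (@instFintypeSum _ _ (stFin a) (stFin b))
  | .loop _ b => @instFintypeSum _ _ _ (stFin b)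
  | .call _ _ fin _ _ => fin

/-- The entry state. -/
def entry : (P : Prog T Γ) → St P
  | .act _ _ => ()
  | .seq a _ => Sum.inl (entry a)
  | .ite _ _ _ => Sum.inl ()
  | .loop _ _ => Sum.inl ()
  | .call _ _ _ s0 _ => s0

/-- One machine step of a program in control state `q`, reading `s`: what is written, how the heads
move and the next control state (`none` when the program is finished). -/
def fstep : (P : Prog T Γ) → St P → (T → Γ) → (T → Γ) × (T → Dir) × Option (St P)
  | .act ts F, _, s => (clampW ts s (F s).1, clampD ts (F s).2, none)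
  | .seq a b, Sum.inl q, s =>
      let r := fstep a q s
      (r.1, r.2.1, match r.2.2 with
        | none => some (Sum.inr (entry b))
        | some q' => some (Sum.inl q'))
  | .seq _ b, Sum.inr q, s =>
      let r := fstep b q s
      (r.1, r.2.1, r.2.2.map Sum.inr)
  | .ite g a b, Sum.inl _, s =>
      (s, fun _ => .S, if g s then some (Sum.inr (Sum.inl (entry a)))
        else some (Sum.inr (Sum.inr (entry b))))
  | .ite _ a _, Sum.inr (Sum.inl q), s =>
      let r := fstep a q s
      (r.1, r.2.1, r.2.2.map fun q' => Sum.inr (Sum.inl q'))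
  | .ite _ _ b, Sum.inr (Sum.inr q), s =>
      let r := fstep b q s
      (r.1, r.2.1, r.2.2.map fun q' => Sum.inr (Sum.inr q'))
  | .loop g b, Sum.inl _, s =>
      (s, fun _ => .S, if g s then some (Sum.inr (entry b)) else none)
  | .loop _ b, Sum.inr q, s =>
      let r := fstep b q s
      (r.1, r.2.1, match r.2.2 with
        | none => some (Sum.inl ())
        | some q' => some (Sum.inr q'))
  | .call ts _ _ _ Sδ, q, s =>
      match Sδ q s with
      | none => (s, fun _ => .S, none)
      | some (q', w, d) => (clampW ts s w, clampD ts d, some q')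

/-- Runs of the compiled control until the program is finished. -/
inductive FRun (P : Prog T Γ) : St P → TS T Γ → TS T Γ → ℕ → Prop
  | last {q c w d} : fstep P q c.read = (w, d, none) → FRun P q c (c.apply w d) 1
  | cons {q c w d q' c' n} : fstep P q c.read = (w, d, some q') →
      FRun P q' (c.apply w d) c' n → FRun P q c c' (n + 1)

theorem apply_idle (c : TS T Γ) : c.apply c.read (fun _ => .S) = c := by
  ext1
  · funext t i
    simp only [TS.apply, TS.read]
    by_cases h : i = c.head t
    · simp [h]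
    · simp [h]
  · funext t
    simp [TS.apply, Dir.toInt]

theorem FRun.seqL {a b : Prog T Γ} {q c c1 c2 n m} (h : FRun a q c c1 n)
    (hb : FRun (.seq a b) (Sum.inr (entry b)) c1 c2 m) :
    FRun (.seq a b) (Sum.inl q) c c2 (n + m) := by
  induction h with
  | @last q c w d hf =>
    have := FRun.cons (P := .seq a b) (q := Sum.inl q) (c := c) (w := w) (d := d)
      (q' := Sum.inr (entry b)) (by simp [fstep, hf]) hb
    rw [Nat.add_comm]; exact this
  | @cons q c w d q' c' n hf _ ih =>
    have := FRun.cons (P := .seq a b) (q := Sum.inl q) (c := c) (w := w) (d := d)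
      (q' := Sum.inl q') (by simp [fstep, hf]) (ih hb)
    have e : n + 1 + m = n + m + 1 := by omega
    rw [e]; exact this

theorem FRun.seqR {a b : Prog T Γ} {q c c1 n} (h : FRun b q c c1 n) :
    FRun (.seq a b) (Sum.inr q) c c1 n := by
  induction h with
  | last hf => exact FRun.last (by simp [fstep, hf] ; try rfl)
  | cons hf _ ih => exact FRun.cons (by simp [fstep, hf] ; try rfl) ih

theorem FRun.iteL {g} {a b : Prog T Γ} {q c c1 n} (h : FRun a q c c1 n) :
    FRun (.ite g a b) (Sum.inr (Sum.inl q)) c c1 n := by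
  induction h with
  | last hf => exact FRun.last (by simp [fstep, hf] ; try rfl)
  | cons hf _ ih => exact FRun.cons (by simp [fstep, hf] ; try rfl) ih

theorem FRun.iteR {g} {a b : Prog T Γ} {q c c1 n} (h : FRun b q c c1 n) :
    FRun (.ite g a b) (Sum.inr (Sum.inr q)) c c1 n := by
  induction h with
  | last hf => exact FRun.last (by simp [fstep, hf] ; try rfl)
  | cons hf _ ih => exact FRun.cons (by simp [fstep, hf] ; try rfl) ih

theorem FRun.loopB {g} {b : Prog T Γ} {q c c1 c2 n m} (h : FRun b q c c1 n)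
    (hb : FRun (.loop g b) (Sum.inl ()) c1 c2 m) :
    FRun (.loop g b) (Sum.inr q) c c2 (n + m) := by
  induction h with
  | @last q c w d hf =>
    have := FRun.cons (P := .loop g b) (q := Sum.inr q) (c := c) (w := w) (d := d)
      (q' := Sum.inl ()) (by simp [fstep, hf]) hb
    rw [Nat.add_comm]; exact this
  | @cons q c w d q' c' n hf _ ih =>
    have := FRun.cons (P := .loop g b) (q := Sum.inr q) (c := c) (w := w) (d := d)
      (q' := Sum.inr q') (by simp [fstep, hf]) (ih hb)
    have e : n + 1 + m = n + m + 1 := by omega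
    rw [e]; exact this

theorem FRun.of_subRun {ts SQ fin s0} {Sδ : SQ → (T → Γ) → Option (SQ × (T → Γ) × (T → Dir))}
    {q c c' n} (h : SubRun ts Sδ q c c' n) : FRun (.call ts SQ fin s0 Sδ) q c c' n := by
  induction h with
  | done hq =>
    rename_i q c
    have := FRun.last (P := .call ts SQ fin s0 Sδ) (q := q) (c := c) (w := c.read) (d := fun _ => .S)
      (by simp [fstep, hq])
    rwa [apply_idle] at this
  | step hq _ ih => exact FRun.cons (by simp [fstep, hq]) ih

/-- Big-step runs are runs of the compiled control. -/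
theorem Exec.frun {P : Prog T Γ} {c c' n} (h : Exec P c c' n) : FRun P (entry P) c c' n := by
  induction h with
  | act => exact FRun.last (by simp [fstep])
  | seq _ _ iha ihb => exact FRun.seqL iha (FRun.seqR ihb)
  | @iteT g a b c c' n hg _ ih =>
    exact FRun.cons (P := .ite g a b) (q := Sum.inl ()) (c := c) (w := c.read) (d := fun _ => .S)
      (q' := Sum.inr (Sum.inl (entry a))) (by simp [fstep, hg])
      (by rw [apply_idle]; exact FRun.iteL ih)
  | @iteF g a b c c' n hg _ ih =>
    exact FRun.cons (P := .ite g a b) (q := Sum.inl ()) (c := c) (w := c.read) (d := fun _ => .S)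
      (q' := Sum.inr (Sum.inr (entry b))) (by simp [fstep, hg])
      (by rw [apply_idle]; exact FRun.iteR ih)
  | @loopDone g b c hg =>
    have := FRun.last (P := .loop g b) (q := Sum.inl ()) (c := c) (w := c.read) (d := fun _ => .S)
      (by simp [fstep, hg])
    rwa [apply_idle] at this
  | @loopStep g b c c1 c2 n1 n2 hg _ _ ih1 ih2 =>
    have := FRun.cons (P := .loop g b) (q := Sum.inl ()) (c := c) (w := c.read) (d := fun _ => .S)
      (q' := Sum.inr (entry b)) (by simp [fstep, hg])
      (by rw [apply_idle]; exact FRun.loopB ih1 ih2)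
    have e : n1 + n2 + 1 = (n1 + n2) + 1 := rfl
    rw [e]; exact this
  | call h => exact FRun.of_subRun h

/-- Tapes a program may modify. -/
def touch : Prog T Γ → T → Prop
  | .act ts _, t => ts t = true
  | .seq a b, t => touch a t ∨ touch b t
  | .ite _ a b, t => touch a t ∨ touch b t
  | .loop _ b, t => touch b t
  | .call ts _ _ _ _, t => ts t = true

theorem apply_frame (c : TS T Γ) {ts : T → Bool} (w : T → Γ) (d : T → Dir) {t : T} (h : ts t = false) :
    (c.apply (clampW ts c.read w) (clampD ts d)).tape t = c.tape t ∧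
    (c.apply (clampW ts c.read w) (clampD ts d)).head t = c.head t := by
  constructor
  · funext i
    simp only [TS.apply, clampW, h, TS.read]
    by_cases hi : i = c.head t
    · simp [hi]
    · simp [hi]
  · simp [TS.apply, clampD, h, Dir.toInt]

theorem SubRun.frame {SQ : Type} {ts : T → Bool}
    {Sδ : SQ → (T → Γ) → Option (SQ × (T → Γ) × (T → Dir))} {q c c' n}
    (h : SubRun ts Sδ q c c' n) {t : T} (ht : ts t = false) :
    c'.tape t = c.tape t ∧ c'.head t = c.head t := by
  induction h with
  | done => exact ⟨rfl, rfl⟩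
  | step _ _ ih =>
    obtain ⟨h1, h2⟩ := apply_frame _ _ _ ht
    exact ⟨ih.1.trans h1, ih.2.trans h2⟩

/-- The frame lemma. -/
theorem Exec.frame {P : Prog T Γ} {c c' n} (h : Exec P c c' n) {t : T} (ht : ¬ touch P t) :
    c'.tape t = c.tape t ∧ c'.head t = c.head t := by
  induction h with
  | act =>
    simp only [touch, Bool.not_eq_true] at ht
    exact apply_frame _ _ _ ht
  | seq _ _ iha ihb =>
    simp only [touch, not_or] at ht
    have h1 := iha ht.1
    have h2 := ihb ht.2
    exact ⟨h2.1.trans h1.1, h2.2.trans h1.2⟩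
  | iteT _ _ ih =>
    simp only [touch, not_or] at ht
    exact ih ht.1
  | iteF _ _ ih =>
    simp only [touch, not_or] at ht
    exact ih ht.2
  | loopDone => exact ⟨rfl, rfl⟩
  | loopStep _ _ _ ih1 ih2 =>
    have h1 := ih1 ht
    have h2 := ih2 ht
    exact ⟨h2.1.trans h1.1, h2.2.trans h1.2⟩
  | call h =>
    simp only [touch, Bool.not_eq_true] at ht
    exact h.frame ht

/-- Bounded-time execution. -/
def Run (P : Prog T Γ) (c c' : TS T Γ) (b : ℕ) : Prop := ∃ n ≤ b, Exec P c c' n

theorem Run.mono {P : Prog T Γ} {c c' : TS T Γ} {b b' : ℕ} (h : Run P c c' b) (hb : b ≤ b') :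
    Run P c c' b' := by
  obtain ⟨n, hn, he⟩ := h
  exact ⟨n, hn.trans hb, he⟩

theorem Run.seq {a b : Prog T Γ} {c c1 c2 : TS T Γ} {x y : ℕ} (h1 : Run a c c1 x) (h2 : Run b c1 c2 y) :
    Run (.seq a b) c c2 (x + y) := by
  obtain ⟨n, hn, he⟩ := h1
  obtain ⟨m, hm, hf⟩ := h2
  exact ⟨n + m, by omega, .seq he hf⟩

theorem Run.frame {P : Prog T Γ} {c c' : TS T Γ} {b : ℕ} (h : Run P c c' b) {t : T} (ht : ¬ touch P t) :
    c'.tape t = c.tape t ∧ c'.head t = c.head t := by
  obtain ⟨n, _, he⟩ := h
  exact he.frame ht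

theorem Run.iteT {g} {a b : Prog T Γ} {c c' : TS T Γ} {x : ℕ} (hg : g c.read = true) (h : Run a c c' x) :
    Run (.ite g a b) c c' (x + 1) := by
  obtain ⟨n, hn, he⟩ := h
  exact ⟨n + 1, by omega, .iteT hg he⟩

theorem Run.iteF {g} {a b : Prog T Γ} {c c' : TS T Γ} {x : ℕ} (hg : g c.read = false) (h : Run b c c' x) :
    Run (.ite g a b) c c' (x + 1) := by
  obtain ⟨n, hn, he⟩ := h
  exact ⟨n + 1, by omega, .iteF hg he⟩

/-- The general loop rule: an invariant indexed by the iteration number, with varying cost. -/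
theorem Run.loop {g} {b : Prog T Γ} (Inv : ℕ → TS T Γ → Prop) (m : ℕ) (cost : ℕ → ℕ) {c : TS T Γ}
    (h0 : Inv 0 c)
    (hstep : ∀ i < m, ∀ c, Inv i c → g c.read = true ∧ ∃ c', Run b c c' (cost i) ∧ Inv (i + 1) c')
    (hend : ∀ c, Inv m c → g c.read = false) :
    ∃ c', Inv m c' ∧ Run (.loop g b) c c' (∑ i ∈ Finset.range m, (cost i + 1) + 1) := by
  have key : ∀ k, k ≤ m → ∀ c, Inv (m - k) c →
      ∃ c', Inv m c' ∧ Run (.loop g b) c c' (∑ i ∈ Finset.Ico (m - k) m, (cost i + 1) + 1) := by
    intro k
    induction k with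
    | zero =>
      intro _ c hc
      refine ⟨c, hc, 1, by simp, .loopDone (hend c hc)⟩
    | succ k ih =>
      intro hk c hc
      have hi : m - (k + 1) < m := by omega
      obtain ⟨hg, c1, ⟨n1, hn1, he1⟩, hc1⟩ := hstep _ hi c hc
      have e : m - (k + 1) + 1 = m - k := by omega
      rw [e] at hc1
      obtain ⟨c2, hc2, n2, hn2, he2⟩ := ih (by omega) c1 hc1
      refine ⟨c2, hc2, n1 + n2 + 1, ?_, .loopStep hg he1 he2⟩
      have e2 : Finset.Ico (m - (k + 1)) m = insert (m - (k + 1)) (Finset.Ico (m - k) m) := by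
        ext x
        simp only [Finset.mem_Ico, Finset.mem_insert]
        omega
      rw [e2, Finset.sum_insert (by simp; omega)]
      omega
  obtain ⟨c', h1, h2⟩ := key m le_rfl c (by rw [Nat.sub_self]; exact h0)
  refine ⟨c', h1, ?_⟩
  rw [Nat.sub_self] at h2
  rw [Finset.range_eq_Ico]
  exact h2

end Prog

open Prog in
/-- The machine computing a program. -/
def compile {T Γ : Type} (fT : Fintype T) (fΓ : Fintype Γ) (P : Prog T Γ) (inp out : T)
    (blank b0 b1 sep : Γ) (h1 : blank ≠ b0) (h2 : blank ≠ b1) (h3 : blank ≠ sep) (h4 : b0 ≠ b1)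
    (h5 : b0 ≠ sep) (h6 : b1 ≠ sep) : MTM where
  T := T
  Γ := Γ
  Q := Option (St P)
  fT := fT
  fΓ := fΓ
  fQ := @instFintypeOption _ (stFin P)
  inp := inp
  out := out
  blank := blank
  b0 := b0
  b1 := b1
  sep := sep
  blank_ne_b0 := h1
  blank_ne_b1 := h2
  blank_ne_sep := h3
  b0_ne_b1 := h4
  b0_ne_sep := h5
  b1_ne_sep := h6
  q0 := some (entry P)
  δ := fun q s => match q with
    | none => none
    | some q => let r := fstep P q s; some (r.2.2, r.1, r.2.1)

section compileRun
open Prog
variable {T Γ : Type} (fT : Fintype T) (fΓ : Fintype Γ) (P : Prog T Γ) (inp out : T)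
    (blank b0 b1 sep : Γ) (h1 : blank ≠ b0) (h2 : blank ≠ b1) (h3 : blank ≠ sep) (h4 : b0 ≠ b1)
    (h5 : b0 ≠ sep) (h6 : b1 ≠ sep)

theorem compile_frun {q : St P} {c c' : TS T Γ} {n : ℕ} (h : FRun P q c c' n) :
    MTM.run (M := compile fT fΓ P inp out blank b0 b1 sep h1 h2 h3 h4 h5 h6)
      ⟨some q, c.tape, c.head⟩ n = some ⟨none, c'.tape, c'.head⟩ := by
  induction h with
  | @last q c w d hf =>
    simp only [MTM.run, Option.bind_some, MTM.step]
    have : (compile fT fΓ P inp out blank b0 b1 sep h1 h2 h3 h4 h5 h6).δ (some q)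
        (MTM.Cfg.read (M := compile fT fΓ P inp out blank b0 b1 sep h1 h2 h3 h4 h5 h6)
          ⟨some q, c.tape, c.head⟩) = some (none, w, d) := by
      have e : (MTM.Cfg.read (M := compile fT fΓ P inp out blank b0 b1 sep h1 h2 h3 h4 h5 h6)
          ⟨some q, c.tape, c.head⟩) = c.read := rfl
      rw [e]
      show some ((fstep P q c.read).2.2, (fstep P q c.read).1, (fstep P q c.read).2.1) = _
      rw [hf]
    rw [this]
    rfl
  | @cons q c w d q' c' n hf _ ih =>
    simp only [MTM.run]
    have : (compile fT fΓ P inp out blank b0 b1 sep h1 h2 h3 h4 h5 h6).δ (some q)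
        (MTM.Cfg.read (M := compile fT fΓ P inp out blank b0 b1 sep h1 h2 h3 h4 h5 h6)
          ⟨some q, c.tape, c.head⟩) = some (some q', w, d) := by
      have e : (MTM.Cfg.read (M := compile fT fΓ P inp out blank b0 b1 sep h1 h2 h3 h4 h5 h6)
          ⟨some q, c.tape, c.head⟩) = c.read := rfl
      rw [e]
      show some ((fstep P q c.read).2.2, (fstep P q c.read).1, (fstep P q c.read).2.1) = _
      rw [hf]
    simp only [MTM.step]
    rw [this]
    exact ih

/-- A run of a program gives a halting run of the compiled machine. -/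
theorem compile_halts {c c' : TS T Γ} {b : ℕ} (h : Run P c c' b) :
    ∃ t ≤ b, MTM.run (M := compile fT fΓ P inp out blank b0 b1 sep h1 h2 h3 h4 h5 h6)
        ⟨some (entry P), c.tape, c.head⟩ t = some ⟨none, c'.tape, c'.head⟩ ∧
      MTM.step (M := compile fT fΓ P inp out blank b0 b1 sep h1 h2 h3 h4 h5 h6)
        ⟨none, c'.tape, c'.head⟩ = none := by
  obtain ⟨n, hn, he⟩ := h
  exact ⟨n, hn, compile_frun _ _ _ _ _ _ _ _ _ _ _ _ _ _ _ he.frun, rfl⟩

end compileRun

end Vale.Agent.Lib.P338
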