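import Vale.Agent.Lib.P338.Direct

/-!
Straight-line computations on rulers.
-/

namespace Vale.Agent.Lib.P338

open Prog

/-- The tapes holding numbers in unary during a pass. -/
def regsL : List Own :=
  [.Tmp, .Tmp2, .Rp, .Rq, .Re, .RP, .RQ, .RN, .R2N, .RL, .Rr, .RB, .RBe, .RBL, .RBL1, .Rk, .RN1B, .RNB, .R2NB,
   .R4NB, .RS, .Rt, .RLt, .Ex, .Ey, .Ez, .Ek, .Er, .Ekap, .Et, .ERes, .R2k, .Rk1, .Rone]

/-- Is a tape a register? -/
def isReg : Own → Bool
  | .Tmp | .Tmp2 | .Rp | .Rq | .Re | .RP | .RQ | .RN | .R2N | .RL | .Rr | .RB | .RBe | .RBL | .RBL1 | .Rk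
  | .RN1B | .RNB | .R2NB | .R4NB | .RS | .Rt | .RLt | .Ex | .Ey | .Ez | .Ek | .Er | .Ekap | .Et | .ERes
  | .R2k | .Rk1 | .Rone => true
  | _ => false

theorem mem_regsL {a : Own} (h : a ∈ regsL) : isReg a = true := by
  simp only [regsL, List.mem_cons, List.not_mem_nil, or_false] at h
  rcases h with h | h | h | h | h | h | h | h | h | h | h | h | h | h | h | h | h | h | h | h | h | h | h | h | h | h | h | h | h | h | h | h | h | h <;>
    subst h <;> rfl

/-- A straight-line instruction. -/
inductive ROp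
  | add (S R : Own)
  | sub (S R : Own)
  | inc (R : Own)
  | pow (E R : Own)
  | clr (R : Own)

/-- The value after an instruction. -/
def ROp.next (f : Own → ℕ) : ROp → Own → ℕ
  | .add S R => Function.update f R (f R + f S)
  | .sub S R => Function.update f R (f R - f S)
  | .inc R => Function.update f R (f R + 1)
  | .pow E R => Function.update f R (2 ^ f E)
  | .clr R => Function.update f R 0

/-- The cost of an instruction. -/
def ROp.cost (f : Own → ℕ) : ROp → ℕ
  | .add S R => 6 * f S + 4 * f R + 8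
  | .sub S R => 4 * f S + 4 * f R + 16
  | .inc R => 4 * f R + 9
  | .pow E _ => 64 * 2 ^ f E + 40 * f E + 32
  | .clr R => 4 * f R + 4

/-- The conditions of an instruction. -/
def ROp.ok (f : Own → ℕ) : ROp → Prop
  | .add S R => isReg S = true ∧ isReg R = true ∧ S ≠ R
  | .sub S R => isReg S = true ∧ isReg R = true ∧ S ≠ R ∧ f S ≤ f R
  | .inc R => isReg R = true
  | .pow E R => isReg E = true ∧ isReg R = true ∧ E ≠ R ∧ E ≠ .Tmp ∧ R ≠ .Tmp ∧ f R = 0 ∧ f .Tmp = 0
  | .clr R => isReg R = true

/-- The conditions of a list of instructions. -/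
def opsOk (f : Own → ℕ) : List ROp → Prop
  | [] => True
  | a :: l => ROp.ok f a ∧ opsOk (ROp.next f a) l

/-- The values after a list of instructions. -/
def opsNext (f : Own → ℕ) : List ROp → Own → ℕ
  | [] => f
  | a :: l => opsNext (ROp.next f a) l

/-- The cost of a list of instructions. -/
def opsCost (f : Own → ℕ) : List ROp → ℕ
  | [] => 1
  | a :: l => ROp.cost f a + opsCost (ROp.next f a) l

section
variable {X G : Type} [DecidableEq X]

/-- The list of register tapes. -/
def RegT : List (Own ⊕ X) := regsL.map Sum.inl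

/-- The program of an instruction. -/
def ROp.prog : ROp → Prog (Own ⊕ X) (Sym G)
  | .add S R => radd (o S) (o R)
  | .sub S R => rsub (o S) (o R)
  | .inc R => rinc (o R)
  | .pow E R => rpow (o E) (o R) (o .Tmp)
  | .clr R => rclr (o R)

/-- The program of a list of instructions. -/
def opsProg : List ROp → Prog (Own ⊕ X) (Sym G)
  | [] => skip
  | a :: l => .seq (ROp.prog a) (opsProg l)

/-- The registers hold `f`. -/
def Regs (c : TS (Own ⊕ X) (Sym G)) (f : Own → ℕ) : Prop :=
  ∀ a, isReg a = true → Ruler c (o a) (f a)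

theorem nR (a : Own) (h : isReg a = false) : (o a : Own ⊕ X) ∉ (RegT : List (Own ⊕ X)) := by
  unfold RegT
  simp only [List.mem_map, not_exists, not_and]
  intro b hb he
  have : b = a := Sum.inl_injective he
  subst this
  rw [mem_regsL hb] at h
  simp at h

theorem nRA (t : X) : (Sum.inr t : Own ⊕ X) ∉ (RegT : List (Own ⊕ X)) := by
  unfold RegT
  simp

theorem regs_mem {a : Own} (h : isReg a = true) : (o a : Own ⊕ X) ∈ (RegT : List (Own ⊕ X)) := by
  unfold RegT
  refine List.mem_map.2 ⟨a, ?_, rfl⟩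
  cases a <;> first | (exfalso; revert h; exact Bool.false_ne_true) | simp [regsL]

theorem Regs.update {c c' : TS (Own ⊕ X) (Sym G)} {f : Own → ℕ} (h : Regs c f) {R : Own} {v : ℕ}
    {l : List (Own ⊕ X)} (hs : Same l c c') (hl : ∀ a : Own, a ≠ R → (o a : Own ⊕ X) ∉ l)
    (hR : Ruler c' (o R) v) : Regs c' (Function.update f R v) := by
  intro a ha
  by_cases he : a = R
  · subst he
    rw [Function.update_self]
    exact hR
  · rw [Function.update_of_ne he]
    exact (h a ha).of_same hs (hl a he)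

theorem sing_ne {a R : Own} (h : a ≠ R) : (o a : Own ⊕ X) ∉ [(o R : Own ⊕ X)] := by
  simp [o, h]

theorem ROp.spec (op : ROp) (c : TS (Own ⊕ X) (Sym G)) (f : Own → ℕ) (h : Regs c f) (ok : ROp.ok f op) :
    ∃ c', Run (ROp.prog op) c c' (ROp.cost f op) ∧ Regs c' (ROp.next f op) ∧ Same RegT c c' := by
  cases op with
  | add S R =>
    obtain ⟨h1, h2, h3⟩ := ok
    obtain ⟨c', r, a1, a2⟩ := radd_spec (o S) (o R) (by simp [o, h3]) c (h S h1) (h R h2)
    exact ⟨c', r, h.update a2 (fun _ he => sing_ne he) a1, a2.mono (by simp [regs_mem h2])⟩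
  | sub S R =>
    obtain ⟨h1, h2, h3, h4⟩ := ok
    obtain ⟨c', r, a1, a2⟩ := rsub_spec (o S) (o R) (by simp [o, h3]) c (h S h1) (h R h2) h4
    exact ⟨c', r, h.update a2 (fun _ he => sing_ne he) a1, a2.mono (by simp [regs_mem h2])⟩
  | inc R =>
    obtain ⟨c', r, a1, a2⟩ := rinc_spec (o R) c (h R ok)
    exact ⟨c', r, h.update a2 (fun _ he => sing_ne he) a1, a2.mono (by simp [regs_mem ok])⟩
  | clr R =>
    obtain ⟨c', r, a1, a2⟩ := rclr_spec (o R) c (h R ok)
    exact ⟨c', r, h.update a2 (fun _ he => sing_ne he) a1, a2.mono (by simp [regs_mem ok])⟩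
  | pow E R =>
    obtain ⟨h1, h2, h3, h4, h5, h6, h7⟩ := ok
    have hTmp : isReg .Tmp = true := rfl
    obtain ⟨c', r, a1, a2, a3, a4⟩ := rpow_spec (o E) (o R) (o .Tmp) (by simp [o, h3]) (by simp [o, h4])
      (by simp [o, h5]) c (h E h1) (by rw [← h6]; exact h R h2) (by rw [← h7]; exact h _ hTmp)
    refine ⟨c', r, ?_, a4.mono (by simp [regs_mem h1, regs_mem h2, regs_mem hTmp])⟩
    intro a ha
    by_cases he : a = R
    · subst he
      simp only [ROp.next, Function.update_self]
      exact a2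
    · simp only [ROp.next]
      rw [Function.update_of_ne he]
      by_cases he2 : a = E
      · subst he2
        exact a1
      · by_cases he3 : a = .Tmp
        · subst he3
          rw [h7]
          exact a3
        · exact (h a ha).of_same a4 (by simp [o, he, he2, he3])

theorem ops_spec (l : List ROp) (c : TS (Own ⊕ X) (Sym G)) (f : Own → ℕ) (h : Regs c f) (ok : opsOk f l) :
    ∃ c', Run (opsProg l) c c' (opsCost f l) ∧ Regs c' (opsNext f l) ∧ Same RegT c c' := by
  induction l generalizing c f with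
  | nil => exact ⟨c, skip_spec c, h, Same.refl _ _⟩
  | cons a l ih =>
    obtain ⟨c1, r1, h1, s1⟩ := ROp.spec a c f h ok.1
    obtain ⟨c2, r2, h2, s2⟩ := ih c1 _ h1 ok.2
    exact ⟨c2, r1.seq r2, h2, (s1.trans s2).mono (by simp)⟩

end

end Vale.Agent.Lib.P338
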