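import Vale.Agent.Lib.P338.Digits

/-!
One round of a recursion level, and the arithmetic of the recursion.
-/

namespace Vale.Agent.Lib.P338

open Prog

/-- The transposition relation on blocks of `4 ^ a` bits. -/
def IsT (a : ℕ) (f g : ℕ → Bool) : Prop :=
  ∀ s r c, r < 2 ^ a → c < 2 ^ a → g (s * 4 ^ a + c * 2 ^ a + r) = f (s * 4 ^ a + r * 2 ^ a + c)

theorem src_apply {p q e : ℕ} (hp : 0 < p) (hq : 0 < q) (he : 0 < e) (s i j w : ℕ) (hi : i < p) (hj : j < q) (hw : w < e) :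
    srcIdx p q e (s * (q * p * e) + (j * p + i) * e + w) = s * (q * p * e) + (i * q + j) * e + w := by
  have hm : j * p + i < q * p := by
    have : (j + 1) * p ≤ q * p := Nat.mul_le_mul_right _ hj
    rw [add_mul, one_mul] at this
    omega
  obtain ⟨h1, _⟩ := srcIdx_seg (i := s) (k := 0) hp hq he hm hw
  have e1 : s * (q * p * e) + (j * p + i) * e + w = s * (q * p * e) + ((j * p + i) * e + w) := by ring
  have h2 : (j * p + i) % p = i := by
    rw [add_comm, mul_comm, Nat.add_mul_mod_self_left, Nat.mod_eq_of_lt hi]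
  have h3 : (j * p + i) / p = j := by
    rw [add_comm, mul_comm, Nat.add_mul_div_left _ _ hp, Nat.div_eq_of_lt hi, zero_add]
  rw [e1, h1, h2, h3]

theorem digits3 {A B C r : ℕ} (hB : 0 < B) (hC : 0 < C) (h : r < A * B * C) :
    ∃ rA rB rC, rA < A ∧ rB < B ∧ rC < C ∧ r = rA * (B * C) + rB * C + rC := by
  have h1 : r / C < A * B := Nat.div_lt_of_lt_mul (by rwa [mul_comm])
  have h2 : r / C / B < A := Nat.div_lt_of_lt_mul (by rwa [mul_comm])
  refine ⟨r / C / B, r / C % B, r % C, h2, Nat.mod_lt _ hB, Nat.mod_lt _ hC, ?_⟩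
  have e1 := Nat.div_add_mod r C
  have e2 := Nat.div_add_mod (r / C) B
  calc r = C * (r / C) + r % C := e1.symm
    _ = C * (B * (r / C / B) + r / C % B) + r % C := by rw [e2]
    _ = _ := by ring

theorem level_ident {α1 α2 α3 : ℕ} {f0 f1 f2 f3 g3 g2 g1 : ℕ → Bool} {A B C e1 e2 e3 : ℕ}
    (hA : A = 2 ^ α1) (hB : B = 2 ^ α2) (hC : C = 2 ^ α3)
    (he1 : e1 = B * C) (he2 : e2 = C * B * C) (he3 : e3 = B * C * B * C)
    (h1 : ∀ x, f1 x = f0 (srcIdx C A e1 x)) (h2 : ∀ x, f2 x = f1 (srcIdx B A e2 x))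
    (h3 : ∀ x, f3 x = f2 (srcIdx A A e3 x)) (hT : IsT (α2 + α3) f3 g3)
    (h4 : ∀ x, g2 x = g3 (srcIdx A B e2 x)) (h5 : ∀ x, g1 x = g2 (srcIdx A C e1 x)) :
    IsT (α1 + α2 + α3) f0 g1 := by
  subst he1 he2 he3
  intro s r c hr hc
  have hA0 : 0 < A := by rw [hA]; positivity
  have hB0 : 0 < B := by rw [hB]; positivity
  have hC0 : 0 < C := by rw [hC]; positivity
  have hBC : 2 ^ (α2 + α3) = B * C := by rw [pow_add, hB, hC]
  have hM : 2 ^ (α1 + α2 + α3) = A * B * C := by rw [pow_add, pow_add, hA, hB, hC]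
  have hM4 : 4 ^ (α1 + α2 + α3) = (A * B * C) * (A * B * C) := by
    rw [← hM, ← pow_two, ← pow_mul, show (4 : ℕ) = 2 ^ 2 by norm_num, ← pow_mul]
    congr 1
    ring
  have hBC4 : 4 ^ (α2 + α3) = (B * C) * (B * C) := by
    rw [← hBC, ← pow_two, ← pow_mul, show (4 : ℕ) = 2 ^ 2 by norm_num, ← pow_mul]
    congr 1
    ring
  rw [hM] at hr hc ⊢
  rw [hM4]
  obtain ⟨rA, rB, rC, hrA, hrB, hrC, rfl⟩ := digits3 hB0 hC0 hr
  obtain ⟨cA, cB, cC, hcA, hcB, hcC, rfl⟩ := digits3 hB0 hC0 hc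
  have w1 : rB * C + rC < B * C := by
    have : (rB + 1) * C ≤ B * C := Nat.mul_le_mul_right _ hrB
    rw [add_mul, one_mul] at this
    omega
  have w1' : cB * C + cC < B * C := by
    have : (cB + 1) * C ≤ B * C := Nat.mul_le_mul_right _ hcB
    rw [add_mul, one_mul] at this
    omega
  have wR : rC * B * C + cB * C + cC < C * B * C := by
    have : (rC + 1) * (B * C) ≤ C * (B * C) := Nat.mul_le_mul_right _ hrC
    have e : C * B * C = C * (B * C) := by ring
    have e' : rC * B * C = rC * (B * C) := by ring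
    rw [add_mul, one_mul] at this
    rw [e, e']
    omega
  have wC : cC * B * C + rB * C + rC < C * B * C := by
    have : (cC + 1) * (B * C) ≤ C * (B * C) := Nat.mul_le_mul_right _ hcC
    have e : C * B * C = C * (B * C) := by ring
    have e' : cC * B * C = cC * (B * C) := by ring
    rw [add_mul, one_mul] at this
    rw [e, e']
    omega
  have w3 : (rB * C + rC) * (B * C) + (cB * C + cC) < B * C * B * C := by
    have : (rB * C + rC + 1) * (B * C) ≤ (B * C) * (B * C) := Nat.mul_le_mul_right _ w1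
    have e : B * C * B * C = (B * C) * (B * C) := by ring
    rw [add_mul, one_mul] at this
    rw [e]
    omega
  -- round five
  have x5 : s * ((A * B * C) * (A * B * C)) + (cA * (B * C) + cB * C + cC) * (A * B * C) + (rA * (B * C) + rB * C + rC) =
      (s * A * B + cA * B + cB) * (C * A * (B * C)) + (cC * A + rA) * (B * C) + (rB * C + rC) := by ring
  rw [x5, h5, src_apply hA0 hC0 (by positivity) _ _ _ _ hrA hcC w1]
  -- round four
  have x4 : (s * A * B + cA * B + cB) * (C * A * (B * C)) + (rA * C + cC) * (B * C) + (rB * C + rC) =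
      (s * A + cA) * (B * A * (C * B * C)) + (cB * A + rA) * (C * B * C) + (cC * B * C + rB * C + rC) := by ring
  rw [x4, h4, src_apply hA0 hB0 (by positivity) _ _ _ _ hrA hcB wC]
  -- the recursion
  have x3 : (s * A + cA) * (B * A * (C * B * C)) + (rA * B + cB) * (C * B * C) + (cC * B * C + rB * C + rC) =
      ((s * A + cA) * A + rA) * 4 ^ (α2 + α3) + (cB * C + cC) * 2 ^ (α2 + α3) + (rB * C + rC) := by
    rw [hBC4, hBC]
    ring
  rw [x3, hT _ _ _ (by rw [hBC]; exact w1) (by rw [hBC]; exact w1'), hBC4, hBC]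
  -- round three
  have x2 : ((s * A + cA) * A + rA) * ((B * C) * (B * C)) + (rB * C + rC) * (B * C) + (cB * C + cC) =
      s * (A * A * (B * C * B * C)) + (cA * A + rA) * (B * C * B * C) + ((rB * C + rC) * (B * C) + (cB * C + cC)) := by ring
  rw [x2, h3, src_apply hA0 hA0 (by positivity) _ _ _ _ hrA hcA w3]
  -- round two
  have x1 : s * (A * A * (B * C * B * C)) + (rA * A + cA) * (B * C * B * C) + ((rB * C + rC) * (B * C) + (cB * C + cC)) =
      (s * A + rA) * (A * B * (C * B * C)) + (cA * B + rB) * (C * B * C) + (rC * B * C + cB * C + cC) := by ring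
  rw [x1, h2, src_apply hB0 hA0 (by positivity) _ _ _ _ hrB hcA wR]
  -- round one
  have x0 : (s * A + rA) * (A * B * (C * B * C)) + (rB * A + cA) * (C * B * C) + (rC * B * C + cB * C + cC) =
      ((s * A + rA) * B + rB) * (A * C * (B * C)) + (cA * C + rC) * (B * C) + (cB * C + cC) := by ring
  rw [x0, h1, src_apply hC0 hA0 (by positivity) _ _ _ _ hrC hcA w1']
  congr 1
  ring

section
variable {X G : Type} [DecidableEq X]

/-- Add several digit lengths to the register `Ez`. -/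
def addL : List Own → Prog (Own ⊕ X) (Sym G)
  | [] => skip
  | S :: l => .seq (radd (o S) (o .Ez)) (addL l)

/-- The cost of `addL`. -/
def addLCost (v : Own → ℕ) (z0 : ℕ) : List Own → ℕ
  | [] => 1
  | S :: l => 6 * v S + 4 * z0 + 8 + addLCost v (z0 + v S) l

theorem addLCost_le (v : Own → ℕ) (z0 : ℕ) (Z : List Own) :
    addLCost v z0 Z ≤ Z.length * (10 * (z0 + (Z.map v).sum) + 8) + 1 := by
  induction Z generalizing z0 with
  | nil => simp [addLCost]
  | cons S l ih =>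
    simp only [addLCost, List.length_cons, List.map_cons, List.sum_cons]
    have h := ih (z0 + v S)
    have e : z0 + v S + (l.map v).sum = z0 + (v S + (l.map v).sum) := by ring
    rw [e] at h
    rw [add_mul, one_mul]
    have h3 : v S ≤ z0 + (v S + (l.map v).sum) := by omega
    have h4 : z0 ≤ z0 + (v S + (l.map v).sum) := by omega
    omega

theorem f0_Ex (x0 x y z k : ℕ) : Function.update (f0 x0 y z k) .Ex x = f0 x y z k := by
  funext a
  cases a <;> rfl

theorem f0_Ey (y0 x y z k : ℕ) : Function.update (f0 x y0 z k) .Ey y = f0 x y z k := by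
  funext a
  cases a <;> rfl

theorem f0_Ez (z0 x y z k : ℕ) : Function.update (f0 x y z0 k) .Ez z = f0 x y z k := by
  funext a
  cases a <;> rfl

theorem f0_Ek (k0 x y z k : ℕ) : Function.update (f0 x y z k0) .Ek k = f0 x y z k := by
  funext a
  cases a <;> rfl

theorem addL_spec (Z : List Own) (c : TS (Own ⊕ X) (Sym G)) (v : Own → ℕ) {x y z0 : ℕ}
    (hZ : ∀ S ∈ Z, isReg S = false) (hRZ : ∀ S ∈ Z, Ruler c (o S) (v S))
    (hR : Regs c (f0 x y z0 0)) :
    ∃ c', Run (addL Z) c c' (addLCost v z0 Z) ∧ Regs c' (f0 x y (z0 + (Z.map v).sum) 0) ∧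
      Same [o .Ez] c c' := by
  induction Z generalizing c z0 with
  | nil => exact ⟨c, skip_spec c, by simpa using hR, Same.refl _ _⟩
  | cons S l ih =>
    have hS : isReg S = false := hZ S (by simp)
    have hne : S ≠ .Ez := by
      rintro rfl
      exact absurd hS (by decide)
    obtain ⟨c1, r1, a1, a2⟩ := radd_spec (o S) (o .Ez) (by simp [o, hne]) c (hRZ S (by simp))
      (by have := hR .Ez rfl; simpa [f0] using this)
    have hn : ∀ T : Own, T ≠ .Ez → (o T : Own ⊕ X) ∉ [(o .Ez : Own ⊕ X)] := fun T hT => by simp [o, hT]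
    have hR1 : Regs c1 (f0 x y (z0 + v S) 0) := by
      rw [← f0_Ez z0]
      exact hR.update a2 (fun T hT => hn T hT) a1
    obtain ⟨c2, r2, b1, b2⟩ := ih c1 (z0 := z0 + v S) (fun T hT => hZ T (by simp [hT]))
      (fun T hT => (hRZ T (by simp [hT])).of_same a2 (hn T (by
        rintro rfl
        exact absurd (hZ .Ez (by simp [hT])) (by decide)))) hR1
    refine ⟨c2, r1.seq r2, ?_, (a2.trans b2).mono (by simp)⟩
    · have e : z0 + ((S :: l).map v).sum = z0 + v S + (l.map v).sum := by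
        simp [add_assoc]
      rw [e]
      exact b1

end

section
variable (A : MTM)

/-- One round of a level. -/
noncomputable def roundP (Sx Sy : Own) (Z : List Own) : Prog (BT A) (BG A) :=
  .seq (.seq (radd (o Sx) (o .Ex)) (.seq (radd (o Sy) (o .Ey)) (.seq (addL Z) (radd (o .K0) (o .Ek)))))
    (.seq (pass A) (opsProg [.clr .Ex, .clr .Ey, .clr .Ez, .clr .Ek]))

variable {A}

theorem Idle.of_regs {c c' : TS (BT A) (BG A)} (h : Idle c) (hs : Same RegT c c') : Idle c' :=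
  ⟨h.z0.of_same hs (nR _ rfl), h.z1.of_same hs (nR _ rfl), h.z2.of_same hs (nR _ rfl), h.z3.of_same hs (nR _ rfl),
    h.z4.of_same hs (nR _ rfl), h.z5.of_same hs (nR _ rfl), h.z6.of_same hs (nR _ rfl), h.z7.of_same hs (nR _ rfl),
    h.z8.of_same hs (nR _ rfl),
    by have := h.hZ; unfold TS.read at this ⊢; rw [hs.tape (nR _ rfl), hs.head (nR _ rfl)]; exact this,
    by rw [hs.head (nR _ rfl)]; exact h.hW1, by rw [hs.head (nR _ rfl)]; exact h.hW2, by rw [hs.head (nR _ rfl)]; exact h.hW3,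
    fun t x => by rw [hs.tape (nRA t)]; exact h.hB t x⟩

theorem load_spec (c : TS (BT A) (BG A)) {Sx Sy : Own} {Z : List Own} {v : Own → ℕ} {k : ℕ}
    (hx : isReg Sx = false) (hy : isReg Sy = false) (hZ : ∀ S ∈ Z, isReg S = false)
    (hRx : Ruler c (o Sx) (v Sx)) (hRy : Ruler c (o Sy) (v Sy)) (hRZ : ∀ S ∈ Z, Ruler c (o S) (v S))
    (hRk : Ruler c (o .K0) k) (hR : Regs c (f0 0 0 0 0)) :
    ∃ c', Run (.seq (radd (o Sx) (o .Ex)) (.seq (radd (o Sy) (o .Ey)) (.seq (addL Z) (radd (o .K0) (o .Ek)))) : Prog (BT A) (BG A)) c c'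
        (6 * v Sx + 8 + (6 * v Sy + 8 + (addLCost v 0 Z + (6 * k + 8)))) ∧
      Regs c' (f0 (v Sx) (v Sy) ((Z.map v).sum) k) ∧ Same RegT c c' := by
  have hn : ∀ T U : Own, T ≠ U → (o T : BT A) ∉ [(o U : BT A)] := fun T U hT => by simp [o, hT]
  have hneg : ∀ S T : Own, isReg S = false → isReg T = true → S ≠ T := by
    rintro S T h1 h2 rfl
    rw [h1] at h2
    exact absurd h2 (by decide)
  obtain ⟨c1, r1, a1, a2⟩ := radd_spec (o Sx) (o .Ex) (by simp [o, hneg _ _ hx (show isReg .Ex = true from rfl)]) c hRx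
    (by have := hR .Ex rfl; simpa [f0] using this)
  have g1 : Regs c1 (f0 (v Sx) 0 0 0) := by
    rw [← f0_Ex 0]
    refine hR.update a2 (fun T hT => hn T _ hT) ?_
    simpa [f0] using a1
  obtain ⟨c2, r2, b1, b2⟩ := radd_spec (o Sy) (o .Ey) (by simp [o, hneg _ _ hy (show isReg .Ey = true from rfl)]) c1
    (hRy.of_same a2 (hn _ _ (hneg _ _ hy rfl))) (by have := g1 .Ey rfl; simpa [f0] using this)
  have g2 : Regs c2 (f0 (v Sx) (v Sy) 0 0) := by
    rw [← f0_Ey 0]
    refine g1.update b2 (fun T hT => hn T _ hT) ?_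
    simpa [f0] using b1
  have s12 : Same [o .Ex, o .Ey] c c2 := (a2.trans b2).mono (by simp)
  have n12 : ∀ S : Own, isReg S = false → (o S : BT A) ∉ [(o .Ex : BT A), o .Ey] := by
    intro S hS
    simp [o, hneg S .Ex hS rfl, hneg S .Ey hS rfl]
  obtain ⟨c3, r3, d1, d2⟩ := addL_spec Z c2 v (z0 := 0) hZ (fun S hS => (hRZ S hS).of_same s12 (n12 S (hZ S hS))) g2
  rw [zero_add] at d1
  obtain ⟨c4, r4, e1, e2⟩ := radd_spec (o .K0) (o .Ek) (by simp [o]) c3
    ((hRk.of_same s12 (n12 _ rfl)).of_same d2 (hn _ _ (by decide))) (by have := d1 .Ek rfl; simpa [f0] using this)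
  have g4 : Regs c4 (f0 (v Sx) (v Sy) ((Z.map v).sum) k) := by
    rw [← f0_Ek 0]
    refine d1.update e2 (fun T hT => hn T _ hT) ?_
    simpa [f0] using e1
  refine ⟨c4, r1.seq (r2.seq (r3.seq r4)), g4, ?_⟩
  have hm : ∀ T : Own, isReg T = true → (o T : BT A) ∈ (RegT : List (BT A)) := fun T hT => regs_mem hT
  refine (s12.trans (d2.trans e2)).mono ?_
  intro u hu
  simp only [List.mem_append, List.mem_cons, List.not_mem_nil, or_false] at hu
  rcases hu with (hu | hu) | hu | hu <;> (subst hu; exact hm _ rfl)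

/-- The cost of a round. -/
noncomputable def roundCost (card x y z k m n T : ℕ) : ℕ :=
  passCost card x y z k m n T + 100 * (x + y + z + k) + 100

theorem clr_run (c : TS (BT A) (BG A)) {x y z k : ℕ} (hR : Regs c (f0 x y z k)) :
    ∃ c', Run (opsProg [.clr .Ex, .clr .Ey, .clr .Ez, .clr .Ek] : Prog (BT A) (BG A)) c c'
        (4 * x + 4 + (4 * y + 4 + (4 * z + 4 + (4 * k + 4 + 1)))) ∧ Regs c' (f0 0 0 0 0) ∧ Same RegT c c' := by
  obtain ⟨c', r, g, s⟩ := ops_spec [.clr .Ex, .clr .Ey, .clr .Ez, .clr .Ek] c (f0 x y z k) hR ⟨rfl, rfl, rfl, rfl, trivial⟩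
  refine ⟨c', r, ?_, s⟩
  intro a ha
  have e : opsNext (f0 x y z k) [.clr .Ex, .clr .Ey, .clr .Ez, .clr .Ek] a = f0 0 0 0 0 a := by
    cases a <;> rfl
  rw [← e]
  exact g a ha

theorem round_spec {τ : ℕ → ℕ} (hA : Multiplies A τ) (c : TS (BT A) (BG A)) {Sx Sy : Own} {Z : List Own} {v : Own → ℕ}
    {k m n : ℕ} {f : ℕ → Bool}
    (hx : isReg Sx = false) (hy : isReg Sy = false) (hZ : ∀ S ∈ Z, isReg S = false)
    (hRx : Ruler c (o Sx) (v Sx)) (hRy : Ruler c (o Sy) (v Sy)) (hRZ : ∀ S ∈ Z, Ruler c (o S) (v S))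
    (hRk : Ruler c (o .K0) k) (hR : Regs c (f0 0 0 0 0)) (hZl : Z.length ≤ 4)
    (hk1 : 1 ≤ k) (hxk : v Sx ≤ 2 * k - 1) (hyk : v Sy ≤ 2 * k - 1) (hk : 4 * k + 2 ≤ (Z.map v).sum + 12)
    (hn : n = m * (2 ^ v Sy * 2 ^ v Sx * 2 ^ (Z.map v).sum))
    (hI : Idle c) (hD : c.tape (o .D) = dataT n f) (hh : c.head (o .D) = 0) :
    ∃ c', Run (roundP A Sx Sy Z) c c'
        (roundCost (@Finset.univ A.T A.fT).card (v Sx) (v Sy) ((Z.map v).sum) k m n (τ (nP ((Z.map v).sum) k))) ∧
      Regs c' (f0 0 0 0 0) ∧ Idle c' ∧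
      c'.tape (o .D) = dataT n (fun i => f (srcIdx (2 ^ v Sx) (2 ^ v Sy) (2 ^ (Z.map v).sum) i)) ∧
      c'.head (o .D) = 0 ∧ Same (PassT A) c c' := by
  obtain ⟨c1, r1, g1, s1⟩ := load_spec c hx hy hZ hRx hRy hRZ hRk hR
  have nDr : (o .D : BT A) ∉ (RegT : List (BT A)) := nR _ rfl
  obtain ⟨c2, r2, g2, i2, t2, h2, s2⟩ := pass_spec hA c1 hk1 hxk hyk hk hn g1 (hI.of_regs s1)
    (by rw [s1.tape nDr]; exact hD) (by rw [s1.head nDr]; exact hh)
  obtain ⟨c3, r3, g3, s3⟩ := clr_run c2 g2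
  refine ⟨c3, ?_, g3, i2.of_regs s3, ?_, ?_, ?_⟩
  · refine (r1.seq (r2.seq r3)).mono ?_
    unfold roundCost
    have hL := addLCost_le v 0 Z
    have hL2 : Z.length * (10 * (0 + (Z.map v).sum) + 8) ≤ 4 * (10 * (0 + (Z.map v).sum) + 8) := Nat.mul_le_mul_right _ hZl
    omega
  · rw [s3.tape nDr]
    exact t2
  · rw [s3.head nDr]
    exact h2
  · unfold PassT at s2 ⊢
    refine (s1.trans (s2.trans s3)).mono ?_
    intro u hu
    rcases List.mem_append.1 hu with hu | hu
    · exact List.mem_append_right _ (List.mem_append_right _ hu)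
    rcases List.mem_append.1 hu with hu | hu
    · exact hu
    · exact List.mem_append_right _ (List.mem_append_right _ hu)

end

end Vale.Agent.Lib.P338
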