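import Vale.Agent.Lib.P338.Tapes

/-!
Rulers: unary counters on a tape. Operations driven by rulers, for loops, ruler arithmetic.
-/

namespace Vale.Agent.Lib.P338

open Prog

section
variable {T G : Type} [DecidableEq T]

/-- A run of `n` ticks from cell 0, blank elsewhere. -/
def runT (n : ℕ) : ℤ → Sym G := fun i => if 0 ≤ i ∧ i < n then .one else .blank

theorem runT_in {n : ℕ} {i : ℤ} (h0 : 0 ≤ i) (h1 : i < n) : (runT n i : Sym G) = .one := by
  simp [runT, h0, h1]

theorem runT_out {n : ℕ} {i : ℤ} (h : i < 0 ∨ (n : ℤ) ≤ i) : (runT n i : Sym G) = .blank := by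
  unfold runT
  rw [if_neg]
  omega

/-- `R` is a ruler of length `n` with its head at the start. -/
def Ruler (c : TS T (Sym G)) (R : T) (n : ℕ) : Prop := c.tape R = runT n ∧ c.head R = 0

omit [DecidableEq T] in
theorem Ruler.of_same {c c' : TS T (Sym G)} {R : T} {n : ℕ} (h : Ruler c R n) {l : List T}
    (hs : Same l c c') (hR : R ∉ l) : Ruler c' R n :=
  ⟨(hs.tape hR).trans h.1, (hs.head hR).trans h.2⟩

/-- Return to the start of a non-blank region that ends with a blank at cell `-1`. -/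
def rew (R : T) : Prog T (Sym G) :=
  .seq (mv R .L) (.seq (sc0 Sym.nonBlank R .L fun x => x) (mv R .R))

theorem same_of_hit_miss {τ τ' : ℤ → Sym G} {h d : ℤ} {m : ℕ}
    (hit : ∀ j : ℕ, j < m → τ' (h + j * d) = τ (h + j * d))
    (miss : ∀ x, (∀ j : ℕ, j < m → x ≠ h + j * d) → τ' x = τ x) : τ' = τ := by
  funext x
  by_cases hx : ∀ j : ℕ, j < m → x ≠ h + j * d
  · exact miss x hx
  · push Not at hx
    obtain ⟨j, hj, rfl⟩ := hx
    exact hit j hj

theorem rew_spec (R : T) (c : TS T (Sym G)) (h : ℕ) (hh : c.head R = h)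
    (hn : ∀ i : ℕ, i < h → (c.tape R i).nonBlank = true) (hb : c.tape R (-1) = .blank) :
    ∃ c', Run (rew R) c c' (2 * h + 3) ∧ c'.head R = 0 ∧ c'.tape R = c.tape R ∧ Same [R] c c' := by
  obtain ⟨c1, r1, h1, t1, s1⟩ := mv_spec R .L c
  obtain ⟨c2, r2, h2, hit, miss, s2⟩ := sc0_spec Sym.nonBlank R .L (fun x => x) (by simp) c1 h
    (by
      intro i hi
      rw [t1, h1, hh]
      simp only [Dir.toInt]
      have e : (h : ℤ) + -1 + (i : ℤ) * -1 = ((h - 1 - i : ℕ) : ℤ) := by omega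
      rw [e]
      exact hn _ (by omega))
    (by
      rw [t1, h1, hh]
      simp only [Dir.toInt]
      have e : (h : ℤ) + -1 + (h : ℤ) * -1 = -1 := by ring
      rw [e, hb]
      rfl)
  have t2 : c2.tape R = c1.tape R := same_of_hit_miss hit miss
  obtain ⟨c3, r3, h3, t3, s3⟩ := mv_spec R .R c2
  refine ⟨c3, ?_, ?_, ?_, ?_⟩
  · have := r1.seq (r2.seq r3)
    refine this.mono (by omega)
  · rw [h3, h2, h1, hh]
    simp only [Dir.toInt]
    ring
  · rw [t3, t2, t1]
  · exact ((s1.trans (s2.trans s3)).mono (by simp))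

/-- As `rew`, but `X` moves along. -/
def rewM (R X : T) (d : Dir) : Prog T (Sym G) :=
  .seq (mv R .L) (.seq (sc1 Sym.nonBlank R .L X d fun _ x => x) (mv R .R))

theorem rewM_spec (R X : T) (d : Dir) (hRX : R ≠ X) (hd : d ≠ .S) (c : TS T (Sym G)) (h : ℕ)
    (hh : c.head R = h)
    (hn : ∀ i : ℕ, i < h → (c.tape R i).nonBlank = true) (hb : c.tape R (-1) = .blank) :
    ∃ c', Run (rewM R X d) c c' (2 * h + 3) ∧ c'.head R = 0 ∧ c'.tape R = c.tape R ∧
      c'.head X = c.head X + h * d.toInt ∧ c'.tape X = c.tape X ∧ Same [R, X] c c' := by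
  obtain ⟨c1, r1, h1, t1, s1⟩ := mv_spec R .L c
  have e1 : c1.head X = c.head X := s1.head (by simpa using hRX.symm)
  have e1' : c1.tape X = c.tape X := s1.tape (by simpa using hRX.symm)
  obtain ⟨c2, r2, h2, t2, hX2, hit, miss, s2⟩ := sc1_spec Sym.nonBlank R .L X d (fun _ x => x) hRX
    (by simp) hd c1 h
    (by
      intro i hi
      rw [t1, h1, hh]
      simp only [Dir.toInt]
      have e : (h : ℤ) + -1 + (i : ℤ) * -1 = ((h - 1 - i : ℕ) : ℤ) := by omega
      rw [e]
      exact hn _ (by omega))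
    (by
      rw [t1, h1, hh]
      simp only [Dir.toInt]
      have e : (h : ℤ) + -1 + (h : ℤ) * -1 = -1 := by ring
      rw [e, hb]
      rfl)
  have t2X : c2.tape X = c1.tape X := same_of_hit_miss hit miss
  obtain ⟨c3, r3, h3, t3, s3⟩ := mv_spec R .R c2
  have e3 : c3.head X = c2.head X := s3.head (by simpa using hRX.symm)
  have e3' : c3.tape X = c2.tape X := s3.tape (by simpa using hRX.symm)
  refine ⟨c3, ?_, ?_, ?_, ?_, ?_, ?_⟩
  · have := r1.seq (r2.seq r3)
    refine this.mono (by omega)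
  · rw [h3, h2, h1, hh]
    simp only [Dir.toInt]
    ring
  · rw [t3, t2, t1]
  · rw [e3, hX2, e1]
  · rw [e3', t2X, e1']
  · exact ((s1.trans (s2.trans s3)).mono (by simp))

theorem cast_runT_in {n : ℕ} {i : ℕ} (h : i < n) : (runT n (i : ℤ) : Sym G) = .one :=
  runT_in (by omega) (by omega)

theorem rew_ruler (R : T) (c : TS T (Sym G)) {n h : ℕ} (ht : c.tape R = runT n) (hh : c.head R = h)
    (hle : h ≤ n) :
    ∃ c', Run (rew R) c c' (2 * h + 3) ∧ Ruler c' R n ∧ Same [R] c c' := by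
  obtain ⟨c', r, h1, h2, s⟩ := rew_spec R c h hh
    (by
      intro i hi
      rw [ht, cast_runT_in (by omega)]
      rfl)
    (by rw [ht]; exact runT_out (by left; omega))
  exact ⟨c', r, ⟨h2.trans ht, h1⟩, s⟩

theorem rewM_ruler (R X : T) (d : Dir) (hRX : R ≠ X) (hd : d ≠ .S) (c : TS T (Sym G)) {n h : ℕ}
    (ht : c.tape R = runT n) (hh : c.head R = h) (hle : h ≤ n) :
    ∃ c', Run (rewM R X d) c c' (2 * h + 3) ∧ Ruler c' R n ∧ c'.head X = c.head X + h * d.toInt ∧
      c'.tape X = c.tape X ∧ Same [R, X] c c' := by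
  obtain ⟨c', r, h1, h2, h3, h4, s⟩ := rewM_spec R X d hRX hd c h hh
    (by
      intro i hi
      rw [ht, cast_runT_in (by omega)]
      rfl)
    (by rw [ht]; exact runT_out (by left; omega))
  exact ⟨c', r, ⟨h2.trans ht, h1⟩, h3, h4, s⟩

/-- The general ruler-driven scan with `X` moving by `dX` and getting `w`. -/
theorem sc1_ruler (R X : T) (dX : Dir) (w : Sym G → Sym G → Sym G) (hRX : R ≠ X) (hdX : dX ≠ .S)
    (c : TS T (Sym G)) {n : ℕ} (hR : Ruler c R n) :
    ∃ c', Run (sc1 Sym.isOne R .R X dX w) c c' (2 * n + 1) ∧ c'.head R = n ∧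
      c'.tape R = runT n ∧ c'.head X = c.head X + n * dX.toInt ∧
      (∀ j : ℕ, j < n → c'.tape X (c.head X + j * dX.toInt) =
        w .one (c.tape X (c.head X + j * dX.toInt))) ∧
      (∀ x, (∀ j : ℕ, j < n → x ≠ c.head X + j * dX.toInt) → c'.tape X x = c.tape X x) ∧
      Same [R, X] c c' := by
  obtain ⟨hR1, hR2⟩ := hR
  obtain ⟨c', r, h1, t1, h2, hit, miss, s⟩ := sc1_spec Sym.isOne R .R X dX w hRX (by simp) hdX c n
    (by
      intro i hi
      rw [hR1, hR2]
      simp only [Dir.toInt, mul_one, zero_add]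
      rw [cast_runT_in hi]
      rfl)
    (by
      rw [hR1, hR2]
      simp only [Dir.toInt, mul_one, zero_add]
      rw [runT_out (by right; exact le_rfl)]
      rfl)
  refine ⟨c', r, ?_, t1.trans hR1, h2, ?_, miss, s⟩
  · rw [h1, hR2]; simp [Dir.toInt]
  · intro j hj
    rw [hit j hj, hR1, hR2]
    simp only [Dir.toInt, mul_one, zero_add]
    rw [cast_runT_in hj]

theorem trail_R {h x : ℤ} {m : ℕ} : (∀ j : ℕ, j < m → x ≠ h + j * Dir.R.toInt) ↔ ¬ (h ≤ x ∧ x < h + m) := by
  simp only [Dir.toInt, mul_one]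
  constructor
  · rintro hj ⟨h1, h2⟩
    exact hj (x - h).toNat (by omega) (by omega)
  · intro hj j hjm he
    apply hj
    omega

theorem trail_L {h x : ℤ} {m : ℕ} : (∀ j : ℕ, j < m → x ≠ h + j * Dir.L.toInt) ↔ ¬ (x ≤ h ∧ h - m < x) := by
  simp only [Dir.toInt]
  constructor
  · rintro hj ⟨h1, h2⟩
    exact hj (h - x).toNat (by omega) (by omega)
  · intro hj j hjm he
    apply hj
    omega

/-- Move `X` by `n` cells in direction `d`, using a ruler of length `n`. -/
def mvBy (R X : T) (d : Dir) : Prog T (Sym G) :=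
  .seq (sc1 Sym.isOne R .R X d fun _ x => x) (rew R)

theorem mvBy_spec (R X : T) (d : Dir) (hRX : R ≠ X) (hd : d ≠ .S) (c : TS T (Sym G)) {n : ℕ}
    (hR : Ruler c R n) :
    ∃ c', Run (mvBy R X d) c c' (4 * n + 4) ∧ c'.head X = c.head X + n * d.toInt ∧
      c'.tape X = c.tape X ∧ Same [X] c c' := by
  obtain ⟨c1, r1, h1, t1, hX, hit, miss, s1⟩ := sc1_ruler R X d (fun _ x => x) hRX hd c hR
  have tX : c1.tape X = c.tape X := same_of_hit_miss hit miss
  obtain ⟨c2, r2, hR2, s2⟩ := rew_ruler R c1 t1 h1 le_rfl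
  refine ⟨c2, (r1.seq r2).mono (by omega), ?_, ?_, ?_⟩
  · rw [s2.head (by simpa using hRX.symm), hX]
  · rw [s2.tape (by simpa using hRX.symm), tX]
  · intro t ht
    by_cases htR : t = R
    · subst htR
      exact ⟨hR2.1.trans hR.1.symm, hR2.2.trans hR.2.symm⟩
    · have h3 := s1 t (by simp_all)
      have h4 := s2 t (by simp_all)
      exact ⟨h4.1.trans h3.1, h4.2.trans h3.2⟩

/-- Fill `n` cells of `X` with `v`, moving right. -/
def fillBy (R X : T) (v : Sym G) : Prog T (Sym G) :=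
  .seq (sc1 Sym.isOne R .R X .R fun _ _ => v) (rew R)

theorem fillBy_spec (R X : T) (v : Sym G) (hRX : R ≠ X) (c : TS T (Sym G)) {n : ℕ}
    (hR : Ruler c R n) :
    ∃ c', Run (fillBy R X v) c c' (4 * n + 4) ∧ c'.head X = c.head X + n ∧
      (∀ x, c'.tape X x = if c.head X ≤ x ∧ x < c.head X + n then v else c.tape X x) ∧
      Same [X] c c' := by
  obtain ⟨c1, r1, h1, t1, hX, hit, miss, s1⟩ := sc1_ruler R X .R (fun _ _ => v) hRX (by simp) c hR
  obtain ⟨c2, r2, hR2, s2⟩ := rew_ruler R c1 t1 h1 le_rfl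
  refine ⟨c2, (r1.seq r2).mono (by omega), ?_, ?_, ?_⟩
  · rw [s2.head (by simpa using hRX.symm), hX]
    simp [Dir.toInt]
  · intro x
    rw [s2.tape (by simpa using hRX.symm)]
    by_cases hx : c.head X ≤ x ∧ x < c.head X + n
    · rw [if_pos hx]
      have := hit (x - c.head X).toNat (by omega)
      simp only [Dir.toInt, mul_one] at this
      have e : c.head X + ((x - c.head X).toNat : ℤ) = x := by omega
      rw [e] at this
      exact this
    · rw [if_neg hx]
      exact miss x (trail_R.2 hx)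
  · intro t ht
    by_cases htR : t = R
    · subst htR
      exact ⟨hR2.1.trans hR.1.symm, hR2.2.trans hR.2.symm⟩
    · have h3 := s1 t (by simp_all)
      have h4 := s2 t (by simp_all)
      exact ⟨h4.1.trans h3.1, h4.2.trans h3.2⟩

/-- Copy `n` cells from `X` to `Y` through `w`, with directions `dX`, `dY`. -/
def copyD (R X : T) (dX : Dir) (Y : T) (dY : Dir) (w : Sym G → Sym G) : Prog T (Sym G) :=
  .seq (sc2 Sym.isOne R .R X dX Y dY w) (rew R)

theorem copyD_spec (R X : T) (dX : Dir) (Y : T) (dY : Dir) (w : Sym G → Sym G)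
    (hRX : R ≠ X) (hRY : R ≠ Y) (hXY : X ≠ Y) (hdX : dX ≠ .S) (hdY : dY ≠ .S)
    (c : TS T (Sym G)) {n : ℕ} (hR : Ruler c R n) :
    ∃ c', Run (copyD R X dX Y dY w) c c' (4 * n + 4) ∧
      c'.head X = c.head X + n * dX.toInt ∧ c'.tape X = c.tape X ∧
      c'.head Y = c.head Y + n * dY.toInt ∧
      (∀ j : ℕ, j < n → c'.tape Y (c.head Y + j * dY.toInt) = w (c.tape X (c.head X + j * dX.toInt))) ∧
      (∀ x, (∀ j : ℕ, j < n → x ≠ c.head Y + j * dY.toInt) → c'.tape Y x = c.tape Y x) ∧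
      Same [X, Y] c c' := by
  obtain ⟨hR1, hR2⟩ := id hR
  obtain ⟨c1, r1, h1, t1, hX, tX, hY, hit, miss, s1⟩ := sc2_spec Sym.isOne R .R X dX Y dY w hRX hRY hXY
    (by simp) hdX hdY c n
    (by
      intro i hi
      rw [hR1, hR2]
      simp only [Dir.toInt, mul_one, zero_add]
      rw [cast_runT_in hi]
      rfl)
    (by
      rw [hR1, hR2]
      simp only [Dir.toInt, mul_one, zero_add]
      rw [runT_out (by right; exact le_rfl)]
      rfl)
  obtain ⟨c2, r2, hR3, s2⟩ := rew_ruler R c1 (t1.trans hR1) (n := n) (h := n) (by rw [h1, hR2]; simp [Dir.toInt]) le_rfl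
  have sX : R ≠ X ∧ R ≠ Y := ⟨hRX, hRY⟩
  refine ⟨c2, (r1.seq r2).mono (by omega), ?_, ?_, ?_, ?_, ?_, ?_⟩
  · rw [s2.head (by simpa using hRX.symm), hX]
  · rw [s2.tape (by simpa using hRX.symm), tX]
  · rw [s2.head (by simpa using hRY.symm), hY]
  · intro j hj
    rw [s2.tape (by simpa using hRY.symm), hit j hj]
  · intro x hx
    rw [s2.tape (by simpa using hRY.symm)]
    exact miss x hx
  · intro t ht
    by_cases htR : t = R
    · subst htR
      exact ⟨hR3.1.trans hR.1.symm, hR3.2.trans hR.2.symm⟩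
    · have h3 := s1 t (by simp_all)
      have h4 := s2 t (by simp_all)
      exact ⟨h4.1.trans h3.1, h4.2.trans h3.2⟩

/-- A for loop driven by a ruler. -/
def forR (R : T) (body : Prog T (Sym G)) : Prog T (Sym G) :=
  .seq (.loop (fun s => (s R).isOne) (.seq body (mv R .R))) (rew R)

/-- The rule for a for loop. The invariant must not depend on the head of the ruler. -/
theorem forR_spec {R : T} {body : Prog T (Sym G)} {n : ℕ} (Inv : ℕ → TS T (Sym G) → Prop) (cost : ℕ → ℕ)
    {c : TS T (Sym G)} (hR : Ruler c R n) (hT : ¬ touch body R) (h0 : Inv 0 c)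
    (hI : ∀ i c c', Inv i c → Same [R] c c' → c'.tape R = c.tape R → Inv i c')
    (hstep : ∀ i < n, ∀ c, c.tape R = runT n → c.head R = (i : ℤ) → Inv i c →
      ∃ c', Run body c c' (cost i) ∧ Inv (i + 1) c') :
    ∃ c', Inv n c' ∧ Ruler c' R n ∧
      Run (forR R body) c c' (∑ i ∈ Finset.range n, (cost i + 2) + 1 + (2 * n + 3)) := by
  obtain ⟨c1, ⟨h1, h2, h3⟩, r1⟩ := Run.loop (g := fun s => (s R).isOne) (b := .seq body (mv R .R))
    (fun i c => c.tape R = runT n ∧ c.head R = i ∧ Inv i c) n (fun i => cost i + 1) (c := c)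
    ⟨hR.1, by simp [hR.2], h0⟩
    (by
      rintro i hi c ⟨h1, h2, h3⟩
      constructor
      · simp only [TS.read, h1, h2]
        rw [cast_runT_in hi]
        rfl
      · obtain ⟨c1, r1, hc1⟩ := hstep i hi c h1 h2 h3
        have f1 := r1.frame hT
        obtain ⟨c2, r2, h4, h5, s⟩ := mv_spec R .R c1
        refine ⟨c2, r1.seq r2, ?_, ?_, ?_⟩
        · rw [h5, f1.1, h1]
        · rw [h4, f1.2, h2]
          simp [Dir.toInt]
        · exact hI _ _ _ hc1 s h5)
    (by
      rintro c ⟨h1, h2, _⟩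
      simp only [TS.read, h1, h2]
      rw [runT_out (by right; exact le_rfl)]
      rfl)
  obtain ⟨c2, r2, hR2, s2⟩ := rew_ruler R c1 h1 h2 le_rfl
  refine ⟨c2, hI _ _ _ h3 s2 (hR2.1.trans h1.symm), hR2, ?_⟩
  refine (r1.seq r2).mono (le_of_eq ?_)
  simp only [add_assoc]

/-! Ruler arithmetic -/

/-- Erase a ruler. -/
def rclr (R : T) : Prog T (Sym G) :=
  .seq (sc0 Sym.isOne R .R fun x => x)
    (.seq (mv R .L) (.seq (sc0 Sym.nonBlank R .L fun _ => .blank) (mv R .R)))

theorem rclr_spec (R : T) (c : TS T (Sym G)) {n : ℕ} (hR : Ruler c R n) :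
    ∃ c', Run (rclr R) c c' (4 * n + 4) ∧ Ruler c' R 0 ∧ Same [R] c c' := by
  obtain ⟨hR1, hR2⟩ := hR
  obtain ⟨c1, r1, h1, hit1, miss1, s1⟩ := sc0_spec Sym.isOne R .R (fun x => x) (by simp) c n
    (by
      intro i hi
      rw [hR1, hR2]
      simp only [Dir.toInt, mul_one, zero_add]
      rw [cast_runT_in hi]
      rfl)
    (by
      rw [hR1, hR2]
      simp only [Dir.toInt, mul_one, zero_add]
      rw [runT_out (by right; exact le_rfl)]
      rfl)
  have t1 : c1.tape R = c.tape R := same_of_hit_miss hit1 miss1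
  have hh1 : c1.head R = n := by rw [h1, hR2]; simp [Dir.toInt]
  obtain ⟨c2, r2, h2, t2, s2⟩ := mv_spec R .L c1
  obtain ⟨c3, r3, h3, hit3, miss3, s3⟩ := sc0_spec Sym.nonBlank R .L (fun _ => .blank) (by simp) c2 n
    (by
      intro i hi
      rw [t2, t1, hR1, h2, hh1]
      simp only [Dir.toInt]
      have e : (n : ℤ) + -1 + (i : ℤ) * -1 = ((n - 1 - i : ℕ) : ℤ) := by omega
      rw [e, cast_runT_in (by omega)]
      rfl)
    (by
      rw [t2, t1, hR1, h2, hh1]
      simp only [Dir.toInt]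
      have e : (n : ℤ) + -1 + (n : ℤ) * -1 = -1 := by ring
      rw [e, runT_out (by left; omega)]
      rfl)
  obtain ⟨c4, r4, h4, t4, s4⟩ := mv_spec R .R c3
  refine ⟨c4, (r1.seq (r2.seq (r3.seq r4))).mono (by omega), ⟨?_, ?_⟩, ?_⟩
  · rw [t4]
    funext x
    rw [runT_out (by simp; omega)]
    by_cases hx : 0 ≤ x ∧ x < n
    · have := hit3 (n - 1 - x).toNat (by omega)
      rw [h2, hh1] at this
      simp only [Dir.toInt] at this
      have e : (n : ℤ) + -1 + ((n - 1 - x).toNat : ℤ) * -1 = x := by omega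
      rw [e] at this
      exact this
    · rw [miss3 x, t2, t1, hR1, runT_out (by omega)]
      rw [h2, hh1]
      intro j hj he
      simp only [Dir.toInt] at he
      omega
  · rw [h4, h3, h2, hh1]
    simp only [Dir.toInt]
    push_cast
    ring
  · exact (s1.trans (s2.trans (s3.trans s4))).mono (by simp)

/-- Add ruler `S` to ruler `R`. -/
def radd (S R : T) : Prog T (Sym G) :=
  .seq (sc0 Sym.isOne R .R fun x => x)
    (.seq (sc1 Sym.isOne S .R R .R fun _ _ => .one) (.seq (rew R) (rew S)))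

theorem scan_to_end (R : T) (c : TS T (Sym G)) {n : ℕ} (hR : Ruler c R n) :
    ∃ c', Run (sc0 Sym.isOne R .R fun x => x) c c' (2 * n + 1) ∧ c'.head R = n ∧
      c'.tape R = runT n ∧ Same [R] c c' := by
  obtain ⟨hR1, hR2⟩ := hR
  obtain ⟨c1, r1, h1, hit1, miss1, s1⟩ := sc0_spec Sym.isOne R .R (fun x => x) (by simp) c n
    (by
      intro i hi
      rw [hR1, hR2]
      simp only [Dir.toInt, mul_one, zero_add]
      rw [cast_runT_in hi]
      rfl)
    (by
      rw [hR1, hR2]
      simp only [Dir.toInt, mul_one, zero_add]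
      rw [runT_out (by right; exact le_rfl)]
      rfl)
  have t1 : c1.tape R = c.tape R := same_of_hit_miss hit1 miss1
  exact ⟨c1, r1, by rw [h1, hR2]; simp [Dir.toInt], t1.trans hR1, s1⟩

theorem radd_spec (S R : T) (hSR : S ≠ R) (c : TS T (Sym G)) {a n : ℕ} (hS : Ruler c S a)
    (hR : Ruler c R n) :
    ∃ c', Run (radd S R) c c' (6 * a + 4 * n + 8) ∧ Ruler c' R (n + a) ∧ Same [R] c c' := by
  obtain ⟨c1, r1, h1, t1, s1⟩ := scan_to_end R c hR
  have hS1 : Ruler c1 S a := hS.of_same s1 (by simpa using hSR)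
  obtain ⟨c2, r2, h2, t2, hX, hit, miss, s2⟩ := sc1_ruler S R .R (fun _ _ => .one) hSR (by simp) c1 hS1
  have tR : c2.tape R = runT (n + a) := by
    funext x
    by_cases hx : (n : ℤ) ≤ x ∧ x < n + a
    · have := hit (x - n).toNat (by omega)
      rw [h1] at this
      simp only [Dir.toInt, mul_one] at this
      have e : (n : ℤ) + ((x - n).toNat : ℤ) = x := by omega
      rw [e] at this
      rw [this, runT_in (by omega) (by push_cast; omega)]
    · rw [miss x, t1]
      · by_cases hx2 : 0 ≤ x ∧ x < n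
        · rw [runT_in hx2.1 hx2.2, runT_in hx2.1 (by push_cast; omega)]
        · rw [runT_out (by omega), runT_out (by push_cast; omega)]
      · rw [h1]
        exact trail_R.2 hx
  have hh2 : c2.head R = (n + a : ℕ) := by rw [hX, h1]; simp [Dir.toInt]
  obtain ⟨c3, r3, hR3, s3⟩ := rew_ruler R c2 tR hh2 le_rfl
  have hS3 : c3.tape S = runT a ∧ c3.head S = a := by
    rw [s3.tape (by simpa using hSR), s3.head (by simpa using hSR)]
    exact ⟨t2, h2⟩
  obtain ⟨c4, r4, hS4, s4⟩ := rew_ruler S c3 hS3.1 hS3.2 le_rfl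
  refine ⟨c4, (r1.seq (r2.seq (r3.seq r4))).mono (by omega), hR3.of_same s4 (by simpa using hSR.symm), ?_⟩
  exact Same.erase (R := S) ((s1.trans (s2.trans (s3.trans s4))).mono (by simp))
    (hS4.1.trans hS.1.symm) (hS4.2.trans hS.2.symm)

/-- Subtract ruler `S` from ruler `R` (assuming it is not longer). -/
def rsub (S R : T) : Prog T (Sym G) :=
  .seq (sc0 Sym.isOne R .R fun x => x)
    (.seq (mv R .L) (.seq (sc1 Sym.isOne S .R R .L fun _ _ => .blank)
      (.seq (mv R .R) (.seq (rew R) (rew S)))))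

theorem rsub_spec (S R : T) (hSR : S ≠ R) (c : TS T (Sym G)) {a n : ℕ} (hS : Ruler c S a)
    (hR : Ruler c R n) (han : a ≤ n) :
    ∃ c', Run (rsub S R) c c' (4 * a + 4 * n + 16) ∧ Ruler c' R (n - a) ∧ Same [R] c c' := by
  obtain ⟨c1, r1, h1, t1, s1⟩ := scan_to_end R c hR
  have hS1 : Ruler c1 S a := hS.of_same s1 (by simpa using hSR)
  obtain ⟨c1', r1', h1', t1', s1'⟩ := mv_spec R .L c1
  have hS1' : Ruler c1' S a := hS1.of_same s1' (by simpa using hSR)
  obtain ⟨c2, r2, h2, t2, hX, hit, miss, s2⟩ := sc1_ruler S R .L (fun _ _ => .blank) hSR (by simp) c1' hS1'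
  have hbase : c1'.head R = (n : ℤ) - 1 := by rw [h1', h1]; simp [Dir.toInt]; ring
  have tR : c2.tape R = runT (n - a) := by
    funext x
    by_cases hx : (n : ℤ) - a ≤ x ∧ x < n
    · have := hit (n - 1 - x).toNat (by omega)
      rw [hbase] at this
      simp only [Dir.toInt] at this
      have e : (n : ℤ) - 1 + ((n - 1 - x).toNat : ℤ) * -1 = x := by omega
      rw [e] at this
      rw [this, runT_out (by right; omega)]
    · rw [miss x, t1', t1]
      · by_cases hx2 : 0 ≤ x ∧ x < (n - a : ℕ)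
        · rw [runT_in hx2.1 hx2.2, runT_in hx2.1 (by omega)]
        · rw [runT_out (by omega), runT_out (by omega)]
      · rw [hbase]
        intro j hj he
        simp only [Dir.toInt] at he
        omega
  have hh2 : c2.head R = (n : ℤ) - 1 - a := by
    rw [hX, hbase]; simp [Dir.toInt]; ring
  obtain ⟨c3, r3, h3, t3, s3⟩ := mv_spec R .R c2
  have hh3 : c3.head R = ((n - a : ℕ) : ℤ) := by
    rw [h3, hh2]
    simp only [Dir.toInt]
    omega
  obtain ⟨c4, r4, hR4, s4⟩ := rew_ruler R c3 (t3.trans tR) hh3 le_rfl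
  have hS4 : c4.tape S = runT a ∧ c4.head S = a := by
    rw [s4.tape (by simpa using hSR), s4.head (by simpa using hSR),
      s3.tape (by simpa using hSR), s3.head (by simpa using hSR)]
    exact ⟨t2, h2⟩
  obtain ⟨c5, r5, hS5, s5⟩ := rew_ruler S c4 hS4.1 hS4.2 le_rfl
  refine ⟨c5, (r1.seq (r1'.seq (r2.seq (r3.seq (r4.seq r5))))).mono (by omega),
    hR4.of_same s5 (by simpa using hSR.symm), ?_⟩
  exact Same.erase (R := S) ((s1.trans (s1'.trans (s2.trans (s3.trans (s4.trans s5))))).mono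
    (by simp)) (hS5.1.trans hS.1.symm) (hS5.2.trans hS.2.symm)

/-- Add one to a ruler. -/
def rinc (R : T) : Prog T (Sym G) :=
  .seq (sc0 Sym.isOne R .R fun x => x) (.seq (act1 R (fun _ => .one) .R) (rew R))

theorem rinc_spec (R : T) (c : TS T (Sym G)) {n : ℕ} (hR : Ruler c R n) :
    ∃ c', Run (rinc R) c c' (4 * n + 9) ∧ Ruler c' R (n + 1) ∧ Same [R] c c' := by
  obtain ⟨c1, r1, h1, t1, s1⟩ := scan_to_end R c hR
  obtain ⟨c2, r2, h2, t2, s2⟩ := act1_spec R (fun _ => .one) .R c1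
  have tR : c2.tape R = runT (n + 1) := by
    funext x
    rw [t2, h1]
    by_cases hx : x = n
    · rw [if_pos hx, hx, runT_in (by omega) (by push_cast; omega)]
    · rw [if_neg hx, t1]
      by_cases hx2 : 0 ≤ x ∧ x < n
      · rw [runT_in hx2.1 hx2.2, runT_in hx2.1 (by push_cast; omega)]
      · rw [runT_out (by omega), runT_out (by push_cast; omega)]
  have hh2 : c2.head R = ((n + 1 : ℕ) : ℤ) := by rw [h2, h1]; simp [Dir.toInt]
  obtain ⟨c3, r3, hR3, s3⟩ := rew_ruler R c2 tR hh2 le_rfl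
  exact ⟨c3, (r1.seq (r2.seq r3)).mono (by omega), hR3, (s1.trans (s2.trans s3)).mono (by simp)⟩

/-- Set ruler `R` to `2 ^ e`, where `e` is the length of ruler `E`, assuming `R` is initially empty;
`Tmp` is an empty scratch ruler. -/
def rpow (E R Tmp : T) : Prog T (Sym G) :=
  .seq (rinc R) (forR E (.seq (radd R Tmp) (.seq (radd Tmp R) (rclr Tmp))))

theorem rpow_spec (E R Tmp : T) (hER : E ≠ R) (hETmp : E ≠ Tmp) (hRTmp : R ≠ Tmp) (c : TS T (Sym G))
    {e : ℕ} (hE : Ruler c E e) (hR : Ruler c R 0) (hTmp : Ruler c Tmp 0) :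
    ∃ c', Run (rpow E R Tmp) c c' (64 * 2 ^ e + 40 * e + 32) ∧ Ruler c' E e ∧ Ruler c' R (2 ^ e) ∧
      Ruler c' Tmp 0 ∧ Same [E, R, Tmp] c c' := by
  obtain ⟨c1, r1, hR1, s1⟩ := rinc_spec R c hR
  obtain ⟨c2, ⟨i1, i2, i3⟩, hE2, r2⟩ := forR_spec (R := E) (n := e)
    (body := .seq (radd R Tmp) (.seq (radd Tmp R) (rclr Tmp)))
    (fun i c' => Ruler c' R (2 ^ i) ∧ Ruler c' Tmp 0 ∧ Same [E, R, Tmp] c c')
    (fun i => 32 * 2 ^ i + 32) (c := c1)
    (hE.of_same s1 (by simpa using hER))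
    (by
      simp only [touch, act1, mv, rinc, radd, rclr, rew, sc0, sc1, scan, decide_eq_true_eq,
        Bool.or_eq_true, mv]
      simp [hER, hETmp])
    ⟨by simpa using hR1, hTmp.of_same s1 (by simpa using hRTmp.symm), s1.mono (by simp)⟩
    (by
      rintro i c2 c3 ⟨h1, h2, h3⟩ hs _
      refine ⟨h1.of_same hs (by simpa using hER.symm), h2.of_same hs (by simpa using hETmp.symm), ?_⟩
      exact (h3.trans hs).mono (by simp))
    (by
      rintro i _ c2 _ _ ⟨h1, h2, h3⟩
      obtain ⟨c3, r3, h4, s3⟩ := radd_spec R Tmp hRTmp c2 h1 h2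
      obtain ⟨c4, r4, h5, s4⟩ := radd_spec Tmp R hRTmp.symm c3 h4 (h1.of_same s3 (by simpa using hRTmp))
      obtain ⟨c5, r5, h6, s5⟩ := rclr_spec Tmp c4 (h4.of_same s4 (by simpa using hRTmp.symm))
      have h7 : Ruler c5 R (2 ^ (i + 1)) := by
        have := h5.of_same s5 (by simpa using hRTmp)
        rw [pow_succ]
        convert this using 1
        omega
      refine ⟨c5, (r3.seq (r4.seq r5)).mono ?_, h7, h6, ?_⟩
      · simp only [zero_add]
        have := pow_pos (two_pos : 0 < 2) i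
        omega
      · exact (h3.trans (s3.trans (s4.trans s5))).mono (by simp))
  refine ⟨c2, (r1.seq r2).mono ?_, hE2, i1, i2, (i3).mono (by simp)⟩
  have hsum : ∑ i ∈ Finset.range e, (32 * 2 ^ i + 32 + 2) = 32 * (2 ^ e - 1) + 34 * e := by
    clear r2 i1 i2 i3 hE2 hE
    induction e with
    | zero => simp
    | succ e ih =>
      rw [Finset.sum_range_succ, ih]
      have := Nat.one_le_two_pow (n := e)
      rw [pow_succ]
      omega
  rw [hsum]
  have := Nat.one_le_two_pow (n := e)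
  omega

end

end Vale.Agent.Lib.P338
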