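import Vale.Agent.Lib.P338.Prog

/-!
Scanning loops: a loop whose body is a single action with constant head directions.
-/

namespace Vale.Agent.Lib.P338
namespace Prog
variable {T Γ : Type}

/-- The displacement per iteration. -/
def dirZ (ts : T → Bool) (D : T → Dir) (t : T) : ℤ := if ts t then (D t).toInt else 0

theorem dirZ_cases (ts : T → Bool) (D : T → Dir) (t : T) :
    dirZ ts D t = 0 ∨ dirZ ts D t = 1 ∨ dirZ ts D t = -1 := by
  unfold dirZ
  split_ifs
  · cases D t <;> simp [Dir.toInt]
  · simp

theorem ts_of_dirZ {ts : T → Bool} {D : T → Dir} {t : T} (h : dirZ ts D t ≠ 0) : ts t = true := by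
  by_contra hh
  simp [dirZ, hh] at h

/-- A scanning loop. -/
def scan (g : (T → Γ) → Bool) (ts : T → Bool) (W : (T → Γ) → T → Γ) (D : T → Dir) : Prog T Γ :=
  .loop g (.act ts fun s => (W s, D))

/-- What is read at iteration `i`. -/
def rd (c : TS T Γ) (ts : T → Bool) (W : (T → Γ) → T → Γ) (D : T → Dir) : ℕ → T → Γ
  | 0 => c.read
  | i + 1 => fun t =>
      if dirZ ts D t = 0 then clampW ts (rd c ts W D i) (W (rd c ts W D i)) t
      else c.tape t (c.head t + ((i : ℤ) + 1) * dirZ ts D t)

/-- The configuration after `i` iterations. -/
def sres (c : TS T Γ) (ts : T → Bool) (W : (T → Γ) → T → Γ) (D : T → Dir) (i : ℕ) : TS T Γ where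
  tape t x :=
    if dirZ ts D t = 0 then (if x = c.head t then rd c ts W D i t else c.tape t x)
    else
      let j := (x - c.head t) * dirZ ts D t
      if 0 ≤ j ∧ j < i then W (rd c ts W D j.toNat) t else c.tape t x
  head t := c.head t + i * dirZ ts D t

theorem sres_read (c : TS T Γ) (ts : T → Bool) (W : (T → Γ) → T → Γ) (D : T → Dir) (i : ℕ) :
    (sres c ts W D i).read = rd c ts W D i := by
  funext t
  simp only [TS.read, sres]
  by_cases h : dirZ ts D t = 0
  · simp [h]
  · rw [if_neg h]
    have hc := dirZ_cases ts D t
    have hd : dirZ ts D t * dirZ ts D t = 1 := by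
      rcases hc with h0 | h1 | h1
      · exact absurd h0 h
      · rw [h1]; norm_num
      · rw [h1]; norm_num
    have e : (c.head t + (i : ℤ) * dirZ ts D t - c.head t) * dirZ ts D t = i := by
      have : (c.head t + (i : ℤ) * dirZ ts D t - c.head t) * dirZ ts D t
          = (i : ℤ) * (dirZ ts D t * dirZ ts D t) := by ring
      rw [this, hd, mul_one]
    simp only [e]
    rw [if_neg (by omega)]
    cases i with
    | zero => simp [rd, TS.read]
    | succ i =>
      simp only [rd, if_neg h]
      push_cast
      rfl

theorem sres_step (c : TS T Γ) (ts : T → Bool) (W : (T → Γ) → T → Γ) (D : T → Dir) (i : ℕ) :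
    (sres c ts W D i).apply (clampW ts (rd c ts W D i) (W (rd c ts W D i))) (clampD ts D)
      = sres c ts W D (i + 1) := by
  ext1
  · funext t x
    simp only [TS.apply, sres]
    by_cases h : dirZ ts D t = 0
    · simp only [h, if_true]
      simp only [mul_zero, add_zero]
      by_cases hx : x = c.head t
      · simp [hx, rd, h]
      · simp [hx]
    · simp only [if_neg h]
      have hc := dirZ_cases ts D t
      have hd : dirZ ts D t * dirZ ts D t = 1 := by
        rcases hc with h0 | h1 | h1
        · exact absurd h0 h
        · rw [h1]; norm_num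
        · rw [h1]; norm_num
      have ht := ts_of_dirZ h
      by_cases hx : x = c.head t + (i : ℤ) * dirZ ts D t
      · have e : (x - c.head t) * dirZ ts D t = i := by
          rw [hx]
          have : (c.head t + (i : ℤ) * dirZ ts D t - c.head t) * dirZ ts D t
              = (i : ℤ) * (dirZ ts D t * dirZ ts D t) := by ring
          rw [this, hd, mul_one]
        rw [if_pos hx]
        simp only [e]
        simp [clampW, ht]
      · rw [if_neg hx]
        have e : (x - c.head t) * dirZ ts D t ≠ i := by
          intro he
          apply hx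
          have h2 : x - c.head t = ((x - c.head t) * dirZ ts D t) * dirZ ts D t := by
            rw [mul_assoc, hd, mul_one]
          rw [he] at h2
          linarith
        have e2 : ((x - c.head t) * dirZ ts D t < (i : ℤ)) ↔
            ((x - c.head t) * dirZ ts D t < ((i + 1 : ℕ) : ℤ)) := by
          push_cast
          omega
        simp only [e2]
  · funext t
    simp only [TS.apply, sres, clampD, dirZ]
    by_cases h : ts t = true
    · simp only [h, if_true]
      push_cast
      ring
    · simp [h, Dir.toInt]

/-- The scanning loop, exactly. -/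
theorem exec_scan (g : (T → Γ) → Bool) (c : TS T Γ) (ts : T → Bool) (W : (T → Γ) → T → Γ) (D : T → Dir)
    (m : ℕ) (hg : ∀ i < m, g (rd c ts W D i) = true) (hm : g (rd c ts W D m) = false) :
    Exec (scan g ts W D) c (sres c ts W D m) (2 * m + 1) := by
  have key : ∀ k, k ≤ m → Exec (scan g ts W D) (sres c ts W D (m - k)) (sres c ts W D m) (2 * k + 1) := by
    intro k
    induction k with
    | zero =>
      intro _
      exact .loopDone (by rw [sres_read]; exact hm)
    | succ k ih =>
      intro hk
      have h1 := ih (by omega)
      have hi : m - (k + 1) < m := by omega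
      have e : m - k = m - (k + 1) + 1 := by omega
      have h2 : Exec (.act ts fun s => (W s, D)) (sres c ts W D (m - (k + 1)))
          (sres c ts W D (m - k)) 1 := by
        rw [e, ← sres_step]
        have := Exec.act (ts := ts) (F := fun s => (W s, D)) (c := sres c ts W D (m - (k + 1)))
        simp only [sres_read] at this
        exact this
      have := Exec.loopStep (g := g) (c := sres c ts W D (m - (k + 1))) (by rw [sres_read]; exact hg _ hi)
        h2 h1
      have e3 : 1 + (2 * k + 1) + 1 = 2 * (k + 1) + 1 := by omega
      rw [e3] at this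
      exact this
  have := key m le_rfl
  rw [Nat.sub_self] at this
  have e0 : sres c ts W D 0 = c := by
    ext1
    · funext t x
      simp only [sres]
      by_cases h : dirZ ts D t = 0
      · simp only [h, if_true]
        by_cases hx : x = c.head t
        · simp [hx, rd, TS.read]
        · simp [hx]
      · simp only [if_neg h]
        simp only [Nat.cast_zero]
        rw [if_neg (by omega)]
    · funext t
      simp [sres]
  rw [e0] at this
  exact this

theorem sres_head (c : TS T Γ) (ts W D) (m : ℕ) (t : T) :
    (sres (Γ := Γ) c ts W D m).head t = c.head t + m * dirZ ts D t := rfl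

theorem sres_hit (c : TS T Γ) (ts W D) (m : ℕ) {t : T} (h : dirZ ts D t ≠ 0) {j : ℕ} (hj : j < m) :
    (sres (Γ := Γ) c ts W D m).tape t (c.head t + j * dirZ ts D t) = W (rd c ts W D j) t := by
  simp only [sres, if_neg h]
  have hc := dirZ_cases ts D t
  have hd : dirZ ts D t * dirZ ts D t = 1 := by
    rcases hc with h0 | h1 | h1
    · exact absurd h0 h
    · rw [h1]; norm_num
    · rw [h1]; norm_num
  have e : (c.head t + (j : ℤ) * dirZ ts D t - c.head t) * dirZ ts D t = j := by
    have : (c.head t + (j : ℤ) * dirZ ts D t - c.head t) * dirZ ts D t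
        = (j : ℤ) * (dirZ ts D t * dirZ ts D t) := by ring
    rw [this, hd, mul_one]
  simp only [e]
  rw [if_pos (by omega)]
  simp

theorem sres_miss (c : TS T Γ) (ts W D) (m : ℕ) {t : T} (h : dirZ ts D t ≠ 0) {x : ℤ}
    (hx : ∀ j : ℕ, j < m → x ≠ c.head t + j * dirZ ts D t) :
    (sres (Γ := Γ) c ts W D m).tape t x = c.tape t x := by
  simp only [sres, if_neg h]
  have hc := dirZ_cases ts D t
  have hd : dirZ ts D t * dirZ ts D t = 1 := by
    rcases hc with h0 | h1 | h1
    · exact absurd h0 h
    · rw [h1]; norm_num
    · rw [h1]; norm_num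
  rw [if_neg]
  rintro ⟨h0, h1⟩
  apply hx ((x - c.head t) * dirZ ts D t).toNat (by omega)
  rw [Int.toNat_of_nonneg h0]
  have : (x - c.head t) * dirZ ts D t * dirZ ts D t = x - c.head t := by
    rw [mul_assoc, hd, mul_one]
  rw [this]
  ring

theorem sres_stat (c : TS T Γ) (ts W D) (m : ℕ) {t : T} (h : dirZ ts D t = 0) (x : ℤ) :
    (sres (Γ := Γ) c ts W D m).tape t x = if x = c.head t then rd c ts W D m t else c.tape t x := by
  simp only [sres, if_pos h]

/-- When the stationary tapes are not written, the reads have a closed form. -/
theorem rd_nostat (c : TS T Γ) (ts : T → Bool) (W : (T → Γ) → T → Γ) (D : T → Dir)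
    (hs : ∀ s t, dirZ ts D t = 0 → ts t = true → W s t = s t) (i : ℕ) (t : T) :
    rd c ts W D i t = c.tape t (c.head t + i * dirZ ts D t) := by
  induction i with
  | zero => simp [rd, TS.read]
  | succ i ih =>
    simp only [rd]
    by_cases h : dirZ ts D t = 0
    · simp only [h, if_true, mul_zero, add_zero]
      have := ih
      rw [h] at this
      simp only [mul_zero, add_zero] at this
      simp only [clampW]
      by_cases h2 : ts t = true
      · simp only [h2, if_true]; rw [hs _ _ h h2]; exact this
      · simp only [h2, if_false]; exact this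
    · rw [if_neg h]
      push_cast
      rfl

end Prog
end Vale.Agent.Lib.P338
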