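import Vale.Agent.Lib.P338.Regs

/-!
Computing the parameters of a pass in unary.
-/

namespace Vale.Agent.Lib.P338

open Prog

/-- The initial values of the registers. -/
def f0 (x y z k : ℕ) : Own → ℕ
  | .Ex => x
  | .Ey => y
  | .Ez => z
  | .Ek => k
  | _ => 0

/-- The computation of all parameters. -/
def setupOps : List ROp :=
  [.pow .Ex .Rp, .pow .Ey .Rq, .pow .Ez .Re,
   .add .Ez .Er, .inc .Er, .inc .Er, .inc .Er, .inc .Er, .inc .Er, .inc .Er,
   .inc .Er, .inc .Er, .inc .Er, .inc .Er, .inc .Er, .inc .Er,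
   .add .Ek .Ekap, .add .Ek .Ekap, .add .Ek .Ekap, .add .Ek .Ekap, .inc .Ekap, .inc .Ekap,
   .add .Ekap .Rk,
   .add .Er .Et, .sub .Ekap .Et,
   .pow .Et .Rt, .pow .Er .Rr,
   .add .Rr .RL, .add .Rr .RL,
   .add .RL .RB, .add .RL .RB, .add .RL .RB, .add .RL .RB,
   .add .RL .RBL, .add .RL .RBL, .add .RL .RBL,
   .add .RBL .RBL1, .inc .Rone, .sub .Rone .RBL1,
   .pow .Ekap .RN, .add .RN .R2N, .add .RN .R2N,
   .add .Ekap .ERes, .add .Er .ERes, .inc .ERes, .inc .ERes, .inc .ERes, .pow .ERes .RNB,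
   .add .RNB .R2NB, .add .RNB .R2NB, .add .R2NB .R4NB, .add .R2NB .R4NB,
   .add .RNB .RN1B, .sub .RB .RN1B,
   .add .RB .RBe, .sub .Re .RBe,
   .clr .ERes, .add .Ex .ERes, .add .Ey .ERes, .add .Ez .ERes, .pow .ERes .RS,
   .clr .ERes, .add .Ek .ERes, .add .Ek .ERes, .inc .ERes, .pow .ERes .R2k,
   .clr .ERes, .add .Ek .ERes, .inc .ERes, .pow .ERes .Rk1,
   .add .R2k .RP, .sub .Rk1 .RP, .inc .RP,
   .add .R2k .RQ, .add .Rk1 .RQ, .inc .RQ,
   .add .RL .RLt, .sub .Rt .RLt]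

/-- The values after the computation of the parameters. -/
def fS (x y z k : ℕ) : Own → ℕ := opsNext (f0 x y z k) setupOps

set_option maxRecDepth 10000 in
theorem fS_Tmp (x y z k : ℕ) : fS x y z k .Tmp = 0 := by
  simp [fS, setupOps, opsNext, ROp.next, Function.update, f0]
  try ring_nf

set_option maxRecDepth 10000 in
theorem fS_Rp (x y z k : ℕ) : fS x y z k .Rp = 2 ^ x := by
  simp [fS, setupOps, opsNext, ROp.next, Function.update, f0]
  try ring_nf

set_option maxRecDepth 10000 in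
theorem fS_Rq (x y z k : ℕ) : fS x y z k .Rq = 2 ^ y := by
  simp [fS, setupOps, opsNext, ROp.next, Function.update, f0]
  try ring_nf

set_option maxRecDepth 10000 in
theorem fS_Re (x y z k : ℕ) : fS x y z k .Re = 2 ^ z := by
  simp [fS, setupOps, opsNext, ROp.next, Function.update, f0]
  try ring_nf

set_option maxRecDepth 10000 in
theorem fS_Rr (x y z k : ℕ) : fS x y z k .Rr = 2 ^ (z + 12) := by
  simp [fS, setupOps, opsNext, ROp.next, Function.update, f0]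
  try ring_nf

set_option maxRecDepth 10000 in
theorem fS_Rk (x y z k : ℕ) : fS x y z k .Rk = 4 * k + 2 := by
  simp [fS, setupOps, opsNext, ROp.next, Function.update, f0]
  try ring_nf

set_option maxRecDepth 10000 in
theorem fS_RBe (x y z k : ℕ) : fS x y z k .RBe = 4 * (2 ^ (z + 12) + 2 ^ (z + 12)) - 2 ^ z := by
  simp [fS, setupOps, opsNext, ROp.next, Function.update, f0]
  try ring_nf

set_option maxRecDepth 10000 in
theorem fS_RN (x y z k : ℕ) : fS x y z k .RN = 2 ^ (4 * k + 2) := by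
  simp [fS, setupOps, opsNext, ROp.next, Function.update, f0]
  try ring_nf

set_option maxRecDepth 10000 in
theorem fS_R2N (x y z k : ℕ) : fS x y z k .R2N = 2 * 2 ^ (4 * k + 2) := by
  simp [fS, setupOps, opsNext, ROp.next, Function.update, f0]
  try ring_nf

set_option maxRecDepth 10000 in
theorem fS_RL (x y z k : ℕ) : fS x y z k .RL = 2 ^ (z + 12) + 2 ^ (z + 12) := by
  simp [fS, setupOps, opsNext, ROp.next, Function.update, f0]
  try ring_nf

set_option maxRecDepth 10000 in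
theorem fS_RB (x y z k : ℕ) : fS x y z k .RB = 4 * (2 ^ (z + 12) + 2 ^ (z + 12)) := by
  simp [fS, setupOps, opsNext, ROp.next, Function.update, f0]
  try ring_nf

set_option maxRecDepth 10000 in
theorem fS_RBL (x y z k : ℕ) : fS x y z k .RBL = 3 * (2 ^ (z + 12) + 2 ^ (z + 12)) := by
  simp [fS, setupOps, opsNext, ROp.next, Function.update, f0]
  try ring_nf

set_option maxRecDepth 10000 in
theorem fS_RBL1 (x y z k : ℕ) : fS x y z k .RBL1 = 3 * (2 ^ (z + 12) + 2 ^ (z + 12)) - 1 := by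
  simp [fS, setupOps, opsNext, ROp.next, Function.update, f0]
  try ring_nf

set_option maxRecDepth 10000 in
theorem fS_RN1B (x y z k : ℕ) : fS x y z k .RN1B = (2 ^ (4 * k + 2) - 1) * (4 * (2 ^ (z + 12) + 2 ^ (z + 12))) := by
  rw [Nat.sub_mul, one_mul]
  simp [fS, setupOps, opsNext, ROp.next, Function.update, f0]
  ring_nf

set_option maxRecDepth 10000 in
theorem fS_RNB (x y z k : ℕ) : fS x y z k .RNB = 2 ^ (4 * k + 2) * (4 * (2 ^ (z + 12) + 2 ^ (z + 12))) := by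
  simp [fS, setupOps, opsNext, ROp.next, Function.update, f0]
  try ring_nf

set_option maxRecDepth 10000 in
theorem fS_R2NB (x y z k : ℕ) : fS x y z k .R2NB = 2 * 2 ^ (4 * k + 2) * (4 * (2 ^ (z + 12) + 2 ^ (z + 12))) := by
  simp [fS, setupOps, opsNext, ROp.next, Function.update, f0]
  try ring_nf

set_option maxRecDepth 10000 in
theorem fS_R4NB (x y z k : ℕ) : fS x y z k .R4NB = 2 * (2 * 2 ^ (4 * k + 2) * (4 * (2 ^ (z + 12) + 2 ^ (z + 12)))) := by
  simp [fS, setupOps, opsNext, ROp.next, Function.update, f0]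
  try ring_nf

set_option maxRecDepth 10000 in
theorem fS_RS (x y z k : ℕ) : fS x y z k .RS = 2 ^ x * 2 ^ y * 2 ^ z := by
  simp [fS, setupOps, opsNext, ROp.next, Function.update, f0]
  try ring_nf

set_option maxRecDepth 10000 in
theorem fS_RP (x y z k : ℕ) : fS x y z k .RP = 2 ^ (2 * k + 1) - 2 ^ (k + 1) + 1 := by
  simp [fS, setupOps, opsNext, ROp.next, Function.update, f0]
  try ring_nf

set_option maxRecDepth 10000 in
theorem fS_RQ (x y z k : ℕ) : fS x y z k .RQ = 2 ^ (2 * k + 1) + 2 ^ (k + 1) + 1 := by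
  simp [fS, setupOps, opsNext, ROp.next, Function.update, f0]
  try ring_nf

set_option maxRecDepth 10000 in
theorem fS_Rt (x y z k : ℕ) : fS x y z k .Rt = 2 ^ (z + 12 - (4 * k + 2)) := by
  simp [fS, setupOps, opsNext, ROp.next, Function.update, f0]
  try ring_nf

set_option maxRecDepth 10000 in
theorem fS_RLt (x y z k : ℕ) : fS x y z k .RLt = (2 ^ (z + 12) + 2 ^ (z + 12)) - 2 ^ (z + 12 - (4 * k + 2)) := by
  simp [fS, setupOps, opsNext, ROp.next, Function.update, f0]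
  try ring_nf

/-- The size of the products of a pass. -/
def nP (z k : ℕ) : ℕ := 2 * 2 ^ (4 * k + 2) * (4 * (2 ^ (z + 12) + 2 ^ (z + 12)))

/-- The first Aurifeuillean factor. -/
def PP (k : ℕ) : ℕ := 2 ^ (2 * k + 1) - 2 ^ (k + 1) + 1

/-- The second Aurifeuillean factor. -/
def QQ (k : ℕ) : ℕ := 2 ^ (2 * k + 1) + 2 ^ (k + 1) + 1

theorem nP_eq (z k : ℕ) : nP z k = 2 ^ (4 * k + z + 18) := by
  unfold nP
  ring

theorem le_nP (z k e : ℕ) (h : e ≤ 4 * k + z + 18) : 2 ^ e ≤ nP z k := by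
  rw [nP_eq]
  exact Nat.pow_le_pow_right (by norm_num) h

theorem lt_nP (z k e : ℕ) (h : e ≤ 4 * k + z + 18) : e ≤ nP z k :=
  (Nat.lt_two_pow_self).le.trans (le_nP z k e h)

set_option maxRecDepth 10000 in
theorem setup_cost (x y z k : ℕ) (hx : x + y ≤ 4 * k) (hk : 4 * k + 2 ≤ z + 12) :
    opsCost (f0 x y z k) setupOps ≤ 5000 * nP z k := by
  have a1 := le_nP z k x (by omega)
  have a2 := le_nP z k y (by omega)
  have a3 := le_nP z k z (by omega)
  have a4 := le_nP z k (z + 1 + 1 + 1 + 1 + 1 + 1 + 1 + 1 + 1 + 1 + 1 + 1) (by omega)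
  have a5 := le_nP z k (k + k + k + k + 1 + 1) (by omega)
  have a6 := le_nP z k (k + k + k + k + 1 + 1 + (z + 1 + 1 + 1 + 1 + 1 + 1 + 1 + 1 + 1 + 1 + 1 + 1) + 1 + 1 + 1) (by omega)
  have a7 := le_nP z k (z + 10 - (k + k + k + k)) (by omega)
  have a8 := le_nP z k (x + y + z) (by omega)
  have a9 := le_nP z k (k + k + 1) (by omega)
  have a10 := le_nP z k (k + 1) (by omega)
  have b1 := lt_nP z k x (by omega)
  have b2 := lt_nP z k y (by omega)
  have b3 := lt_nP z k z (by omega)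
  have b4 := lt_nP z k k (by omega)
  have b6 := lt_nP z k (z + 10) (by omega)
  have b5 : 1 ≤ nP z k := Nat.one_le_two_pow.trans a1
  generalize nP z k = n at *
  simp [setupOps, opsCost, ROp.cost, ROp.next, Function.update, f0]
  have c1 : 2 ^ (k + k + 1) - 2 ^ (k + 1) ≤ n := (Nat.sub_le _ _).trans a9
  have c2 : z + 10 - (k + k + k + k) ≤ n := (Nat.sub_le _ _).trans b6
  linarith

set_option maxRecDepth 10000 in
theorem setup_ok (x y z k : ℕ) (hk : 4 * k + 2 ≤ z + 12) : opsOk (f0 x y z k) setupOps := by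
  simp [setupOps, opsOk, ROp.ok, ROp.next, Function.update, f0, isReg]
  have hp : ∀ a b : ℕ, a ≤ b → 2 ^ a ≤ 2 ^ b := fun a b h => Nat.pow_le_pow_right (by norm_num) h
  have h1 := hp z (z + 1 + 1 + 1 + 1 + 1 + 1 + 1 + 1 + 1 + 1 + 1 + 1) (by omega)
  have h2 := hp (z + 1 + 1 + 1 + 1 + 1 + 1 + 1 + 1 + 1 + 1 + 1 + 1)
    (k + k + k + k + 1 + 1 + (z + 1 + 1 + 1 + 1 + 1 + 1 + 1 + 1 + 1 + 1 + 1 + 1) + 1 + 1 + 1 - 3) (by omega)
  have h3 := hp (k + 1) (k + k + 1) (by omega)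
  have h4 := hp (z + 10 - (k + k + k + k)) (z + 1 + 1 + 1 + 1 + 1 + 1 + 1 + 1 + 1 + 1 + 1 + 1) (by omega)
  have h5 : 1 ≤ 2 ^ (z + 1 + 1 + 1 + 1 + 1 + 1 + 1 + 1 + 1 + 1 + 1 + 1) := Nat.one_le_two_pow
  have h6 : 2 ^ (k + k + k + k + 1 + 1 + (z + 1 + 1 + 1 + 1 + 1 + 1 + 1 + 1 + 1 + 1 + 1 + 1) + 1 + 1 + 1) =
      8 * 2 ^ (k + k + k + k + 1 + 1 + (z + 1 + 1 + 1 + 1 + 1 + 1 + 1 + 1 + 1 + 1 + 1 + 1) + 1 + 1 + 1 - 3) := by
    have : k + k + k + k + 1 + 1 + (z + 1 + 1 + 1 + 1 + 1 + 1 + 1 + 1 + 1 + 1 + 1 + 1) + 1 + 1 + 1 =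
        (k + k + k + k + 1 + 1 + (z + 1 + 1 + 1 + 1 + 1 + 1 + 1 + 1 + 1 + 1 + 1 + 1) + 1 + 1 + 1 - 3) + 3 := by omega
    conv_lhs => rw [this, pow_add]
    ring
  refine ⟨by omega, by omega, ?_, by omega, h3, by omega⟩
  rw [h6]
  omega

end Vale.Agent.Lib.P338
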