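import Vale.Agent.Lib.P338.Output

/-!
Simulation of a given machine `A` on the tapes `Sum.inr t`.
-/

namespace Vale.Agent.Lib.P338

open Prog

noncomputable instance instDecT (A : MTM) : DecidableEq A.T := Classical.decEq _
noncomputable instance instDecG (A : MTM) : DecidableEq A.Γ := Classical.decEq _

section sim
variable (A : MTM)

/-- The tapes of the machine we build. -/
abbrev BT := Own ⊕ A.T

/-- The symbols of the machine we build. -/
abbrev BG := Sym A.Γ

/-- The decoding of a cell of a simulated tape. -/
def dec : Sym A.Γ → A.Γ
  | .a g _ => g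
  | _ => A.blank

variable {A}

/-- The origin flag of a cell. -/
def flagOf : Sym A.Γ → Bool
  | .a _ b => b
  | _ => false

@[simp] theorem dec_a (g : A.Γ) (b : Bool) : dec A (.a g b) = g := rfl
@[simp] theorem dec_blank : dec A .blank = A.blank := rfl
@[simp] theorem flagOf_a (g : A.Γ) (b : Bool) : flagOf (.a g b : Sym A.Γ) = b := rfl
@[simp] theorem flagOf_blank : flagOf (.blank : Sym A.Γ) = false := rfl

variable (A)

/-- One step of the simulation. -/
def simδ : A.Q → (BT A → BG A) → Option (A.Q × (BT A → BG A) × (BT A → Dir)) := fun q s =>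
  match A.δ q (fun t => dec A (s (Sum.inr t))) with
  | none => none
  | some (q', w, d) => some (q',
      (fun tt => match tt with
        | Sum.inl a => s (Sum.inl a)
        | Sum.inr t => .a (w t) (flagOf (s (Sum.inr t)))),
      (fun tt => match tt with
        | Sum.inl _ => .S
        | Sum.inr t => d t))

/-- The tapes of the simulated machine. -/
def isA : BT A → Bool
  | Sum.inl _ => false
  | Sum.inr _ => true

/-- Run the simulated machine on the tapes `Sum.inr t`. -/
def runA : Prog (BT A) (BG A) := .call (isA A) A.Q A.fQ A.q0 (simδ A)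

variable {A}

/-- The relation between a configuration of `A` and the tapes of the simulating machine. -/
def SimT (c : TS (BT A) (BG A)) (a : A.Cfg) (base lo hi : A.T → ℤ) : Prop :=
  ∀ t,
    (∀ i, dec A (c.tape (Sum.inr t) (base t + i)) = a.tape t i) ∧
    c.head (Sum.inr t) = base t + a.head t ∧
    lo t - 1 ≤ c.head (Sum.inr t) ∧ c.head (Sum.inr t) ≤ hi t ∧
    (∀ x, lo t ≤ x → x < hi t → (c.tape (Sum.inr t) x).nonBlank = true) ∧
    (∀ x, (x < lo t ∨ hi t ≤ x) → c.tape (Sum.inr t) x = .blank) ∧
    (∀ x, flagOf (c.tape (Sum.inr t) x) = true ↔ x = base t)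

theorem sim_read {c : TS (BT A) (BG A)} {a : A.Cfg} {base lo hi : A.T → ℤ} (h : SimT c a base lo hi) :
    (fun t => dec A (c.read (Sum.inr t))) = a.read := by
  funext t
  obtain ⟨h1, h2, _⟩ := h t
  simp only [TS.read, MTM.Cfg.read]
  rw [h2, h1]

/-- One step. -/
theorem sim_step {c : TS (BT A) (BG A)} {a a' : A.Cfg} {base lo hi : A.T → ℤ} (h : SimT c a base lo hi)
    (hs : MTM.step a = some a') :
    ∃ q' w d, simδ A a.q c.read = some (q', w, d) ∧ q' = a'.q ∧
      SimT (c.apply (clampW (isA A) c.read w) (clampD (isA A) d)) a' base
        (fun t => min (lo t) (c.head (Sum.inr t))) (fun t => max (hi t) (c.head (Sum.inr t) + 1)) := by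
  unfold MTM.step at hs
  cases hδ : A.δ a.q a.read with
  | none => rw [hδ] at hs; simp at hs
  | some r =>
    obtain ⟨q', w, d⟩ := r
    rw [hδ] at hs
    simp only [Option.some.injEq] at hs
    subst hs
    refine ⟨q', (fun tt => match tt with
          | Sum.inl a => c.read (Sum.inl a)
          | Sum.inr t => .a (w t) (flagOf (c.read (Sum.inr t)))), (fun tt => match tt with
          | Sum.inl _ => .S
          | Sum.inr t => d t), ?_, rfl, ?_⟩
    · unfold simδ
      rw [sim_read h, hδ]
    · intro t
      obtain ⟨h1, h2, h3, h4, h5, h6, h7⟩ := h t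
      have hhead : (c.apply (clampW (isA A) c.read (fun tt => match tt with
          | Sum.inl a => c.read (Sum.inl a)
          | Sum.inr t => .a (w t) (flagOf (c.read (Sum.inr t))))) (clampD (isA A) (fun tt => match tt with
          | Sum.inl _ => .S
          | Sum.inr t => d t))).head (Sum.inr t) = c.head (Sum.inr t) + (d t).toInt := by
        simp [TS.apply, clampD, isA]
      have htape : ∀ x, (c.apply (clampW (isA A) c.read (fun tt => match tt with
          | Sum.inl a => c.read (Sum.inl a)
          | Sum.inr t => .a (w t) (flagOf (c.read (Sum.inr t))))) (clampD (isA A) (fun tt => match tt with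
          | Sum.inl _ => .S
          | Sum.inr t => d t))).tape (Sum.inr t) x =
          if x = c.head (Sum.inr t) then .a (w t) (flagOf (c.tape (Sum.inr t) x))
          else c.tape (Sum.inr t) x := by
        intro x
        simp only [TS.apply, clampW, isA, if_true, TS.read]
        by_cases hx : x = c.head (Sum.inr t)
        · rw [if_pos hx, if_pos hx, hx]
        · rw [if_neg hx, if_neg hx]
      have hdir : (d t).toInt = -1 ∨ (d t).toInt = 0 ∨ (d t).toInt = 1 := by
        cases d t <;> simp [Dir.toInt]
      refine ⟨?_, ?_, ?_, ?_, ?_, ?_, ?_⟩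
      · intro i
        rw [htape]
        simp only
        by_cases hi : i = a.head t
        · rw [if_pos (by rw [h2, hi]), if_pos hi]
          rfl
        · rw [if_neg (by rw [h2]; omega), if_neg hi]
          exact h1 i
      · rw [hhead, h2]
        simp only
        ring
      · rw [hhead]
        simp only
        omega
      · rw [hhead]
        simp only
        omega
      · intro x hx1 hx2
        rw [htape]
        simp only at hx1 hx2
        by_cases hx : x = c.head (Sum.inr t)
        · rw [if_pos hx]; rfl
        · rw [if_neg hx]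
          exact h5 x (by omega) (by omega)
      · intro x hx
        rw [htape]
        simp only at hx
        rw [if_neg (by omega)]
        exact h6 x (by omega)
      · intro x
        rw [htape]
        by_cases hx : x = c.head (Sum.inr t)
        · rw [if_pos hx, flagOf_a]
          exact h7 x
        · rw [if_neg hx]
          exact h7 x

theorem sim_halt {c : TS (BT A) (BG A)} {a : A.Cfg} {base lo hi : A.T → ℤ} (h : SimT c a base lo hi)
    (hs : MTM.step a = none) : simδ A a.q c.read = none := by
  unfold MTM.step at hs
  cases hδ : A.δ a.q a.read with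
  | none =>
    unfold simδ
    rw [sim_read h, hδ]
  | some r =>
    obtain ⟨q', w, d⟩ := r
    rw [hδ] at hs
    simp at hs

/-- A complete run of the simulated machine. -/
theorem sim_run (n : ℕ) {c : TS (BT A) (BG A)} {a a' : A.Cfg} {base lo hi : A.T → ℤ} (h : SimT c a base lo hi)
    (hr : MTM.run a n = some a') (hs : MTM.step a' = none) :
    ∃ c' lo' hi', SubRun (isA A) (simδ A) a.q c c' (n + 1) ∧ SimT c' a' base lo' hi' ∧
      ∀ t, hi' t - lo' t ≤ hi t - lo t + n := by
  induction n generalizing a c lo hi with
  | zero =>
    simp only [MTM.run, Option.some.injEq] at hr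
    subst hr
    exact ⟨c, lo, hi, .done (sim_halt h hs), h, by simp⟩
  | succ n ih =>
    simp only [MTM.run] at hr
    cases hstep : MTM.step a with
    | none => rw [hstep] at hr; simp at hr
    | some a1 =>
      rw [hstep] at hr
      simp only [Option.bind_some] at hr
      obtain ⟨q', w, d, e1, e2, h1⟩ := sim_step h hstep
      obtain ⟨c', lo', hi', r, h2, h3⟩ := ih h1 hr
      refine ⟨c', lo', hi', .step e1 (by rw [e2]; exact r), h2, ?_⟩
      intro t
      have := h3 t
      obtain ⟨_, _, h5, h6, _, h8, h9⟩ := h t
      have h10 : ¬ (base t < lo t ∨ hi t ≤ base t) := by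
        intro hh
        have e1 := h8 _ hh
        have e2 := (h9 (base t)).2 rfl
        rw [e1] at e2
        simp at e2
      omega

end sim

end Vale.Agent.Lib.P338
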