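import Vale.Agent.Lib.P338.Mul
import Vale.Agent.Lib.P338.Conv

/-!
One convolution stage: chirp multiplication, kernel, product.
-/

namespace Vale.Agent.Lib.P338

open Prog

section
variable (A : MTM)

/-- Pad the number on `W1` with zeros. -/
noncomputable def padW1 : Prog (BT A) (BG A) :=
  .seq (mvBy (o .RNB) (o .W1) .R) (.seq (fillBy (o .RNB) (o .W1) .zero) (mvBy (o .R2NB) (o .W1) .L))

/-- A stage: multiply by a chirp, then convolve with a kernel. -/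
noncomputable def stage (U V U' V' : BT A) : Prog (BT A) (BG A) :=
  .seq (.seq (chirp U V) (.seq (padW1 A) (kernel U' V'))) (mul A)

/-- The cost bound of a stage. -/
def stageCost (k N L T : ℕ) : ℕ :=
  chirpCost N L + (4 * (N * (4 * L)) + 4 + (4 * (N * (4 * L)) + 4) + (4 * (2 * N * (4 * L)) + 4)) +
    kernelCost (2 * N) L + mulCost k (2 * N * (4 * L)) T

variable {A}

theorem padW1_spec (c : TS (BT A) (BG A)) {N B : ℕ} (hN : Ruler c (o .RNB) (N * B))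
    (h2N : Ruler c (o .R2NB) (2 * N * B)) (hW : c.head (o .W1) = 0) :
    ∃ c', Run (padW1 A) c c' (4 * (N * B) + 4 + (4 * (N * B) + 4) + (4 * (2 * N * B) + 4)) ∧
      c'.head (o .W1) = 0 ∧
      (∀ x : ℤ, (N * B : ℕ) ≤ x → x < (2 * N * B : ℕ) → c'.tape (o .W1) x = .zero) ∧
      (∀ x : ℤ, x < (N * B : ℕ) → c'.tape (o .W1) x = c.tape (o .W1) x) ∧
      Same [o .W1] c c' := by
  obtain ⟨c1, r1, a1, a2, a3⟩ := mvBy_spec (o .RNB) (o .W1) .R (by simp) (by simp) c hN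
  obtain ⟨c2, r2, b1, b2, b3⟩ := fillBy_spec (o .RNB) (o .W1) .zero (by simp) c1 (hN.of_same a3 (by simp))
  obtain ⟨c3, r3, d1, d2, d3⟩ := mvBy_spec (o .R2NB) (o .W1) .L (by simp) (by simp) c2
    ((h2N.of_same a3 (by simp)).of_same b3 (by simp))
  have hh1 : c1.head (o .W1) = (N * B : ℕ) := by
    rw [a1, hW]
    simp [Dir.toInt]
  have e2 : ((2 * N * B : ℕ) : ℤ) = (N * B : ℕ) + (N * B : ℕ) := by
    push_cast
    ring
  have t3 : ∀ x, c3.tape (o .W1) x = if (N * B : ℕ) ≤ x ∧ x < (2 * N * B : ℕ) then .zero else c.tape (o .W1) x := by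
    intro x
    rw [d2, b2, a2, hh1, e2]
  refine ⟨c3, r1.seq (r2.seq r3) |>.mono (by omega), ?_, ?_, ?_, (a3.trans (b3.trans d3)).mono (by simp)⟩
  · rw [d1, b1, hh1]
    simp only [Dir.toInt, e2]
    ring
  · intro x h1 h2
    rw [t3, if_pos ⟨h1, h2⟩]
  · intro x hx
    rw [t3, if_neg (by omega)]

/-- Tapes changed by the chirp, padding and kernel part of a stage. -/
def inS1 : Own → Bool
  | .W1 | .W2 | .W3 | .Acc | .Cy | .TE | .TD => true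
  | _ => false

theorem nS1 {X : Type} (a : Own) (h : inS1 a = false) :
    (o a : Own ⊕ X) ∉ [o .W1, o .W3, o .Acc, o .Cy, o .TE, o .TD, o .W2] := by
  simp only [List.mem_cons, List.not_mem_nil, or_false, not_or, o, Sum.inl.injEq]
  cases a <;> simp_all [inS1]

theorem stage_pre (U V U' V' : BT A)
    (hU : U ≠ o .TD) (hUE : U ≠ o .TE)
    (hV : V ≠ o .TD) (hVE : V ≠ o .TE) (hVA : V ≠ o .Acc)
    (hVW : V ≠ o .W3) (hVC : V ≠ o .Cy) (hV1 : V ≠ o .W1) (hVN : V ≠ o .RN)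
    (hU' : U' ≠ o .TD) (hUE' : U' ≠ o .TE)
    (hV' : V' ≠ o .TD) (hVE' : V' ≠ o .TE) (hV2' : V' ≠ o .W2) (hVN' : V' ≠ o .R2N)
    (hU'1 : U' ∉ [o .W1, o .W3, o .Acc, o .Cy]) (hV'1 : V' ∉ [o .W1, o .W3, o .Acc, o .Cy])
    (c : TS (BT A) (BG A)) {L N u v u' v' e0 d0 : ℕ} (hL : 1 ≤ L)
    (hu : u ≤ L) (hv : v ≤ L) (hu' : u' ≤ L) (hv' : v' ≤ L) (he0 : e0 ≤ L) (hd0 : d0 ≤ L)
    (hTE : Cyc c (o .TE) L e0) (hTD : Cyc c (o .TD) L d0) (hUc : Cyc c U L u) (hVc : Cyc c V L v)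
    (hUc' : Cyc c U' L u') (hVc' : Cyc c V' L v')
    (hRN : Ruler c (o .RN) N) (hRL : Ruler c (o .RL) L) (hRB : Ruler c (o .RBL) (3 * L))
    (hRN1 : Ruler c (o .RN1B) ((N - 1) * (4 * L))) (hNB : Ruler c (o .RNB) (N * (4 * L)))
    (hR2N : Ruler c (o .R2N) (2 * N)) (hRB1 : Ruler c (o .RBL1) (3 * L - 1))
    (hR2NB : Ruler c (o .R2NB) (2 * N * (4 * L)))
    (hZ : (c.read (o .Z)).isOne = false)
    (hW1 : c.head (o .W1) = 0) (hW2 : c.head (o .W2) = 0) (hW3 : c.head (o .W3) = 0) :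
    ∃ c1 c3 : TS (BT A) (BG A), Run (.seq (chirp U V) (.seq (padW1 A) (kernel U' V'))) c c3
        (chirpCost N L + (4 * (N * (4 * L)) + 4 + (4 * (N * (4 * L)) + 4) + (4 * (2 * N * (4 * L)) + 4) + kernelCost (2 * N) L)) ∧
      c3.head (o .W1) = 0 ∧ c3.head (o .W2) = 0 ∧ c3.head (o .W3) = 0 ∧
      (∃ e', e' ≤ L ∧ Cyc c3 (o .TE) L e') ∧ (∃ d', d' ≤ L ∧ Cyc c3 (o .TD) L d') ∧
      Same [o .W1, o .W3, o .Acc, o .Cy, o .TE, o .TD, o .W2] c c3 ∧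
      (∀ k, k < N → vl (c1.tape (o .W1)) ((k * (4 * L) : ℕ) : ℤ) (4 * L) < 2 ^ L ∧
        vl (c1.tape (o .W1)) ((k * (4 * L) : ℕ) : ℤ) (4 * L) * 2 ^ (genE L u v k).1 ≡
          vl (c.tape (o .W3)) (((N - 1 + k) * (4 * L) : ℕ) : ℤ) (4 * L) [MOD 2 ^ L - 1]) ∧
      (∀ d, d < 2 * N → vl (c3.tape (o .W2)) ((d * (4 * L) : ℕ) : ℤ) (4 * L) = 2 ^ (genE L u' v' (d + 1)).1) ∧
      (∀ x : ℤ, (N * (4 * L) : ℕ) ≤ x → x < (2 * N * (4 * L) : ℕ) → c3.tape (o .W1) x = .zero) ∧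
      (∀ x : ℤ, x < (N * (4 * L) : ℕ) → c3.tape (o .W1) x = c1.tape (o .W1) x) := by
  obtain ⟨c1, r1, a1, a2, a3, a4, ⟨e1, he1, a5⟩, ⟨d1, hd1, a6⟩, a7⟩ := chirp_spec U V hU hUE hV hVE hVA hVW hVC hV1 hVN c
    hL hu hv he0 hd0 hTE hTD hUc hVc hRN hRL hRB hRN1 hNB hZ hW1 hW3
  have n1 : ∀ a : Own, inS1 a = false → (o a : BT A) ∉ [o .W1, o .W3, o .Acc, o .Cy, o .TE, o .TD] := by
    intro a h hm
    refine nS1 (X := A.T) a h ?_
    simp only [List.mem_cons, List.not_mem_nil, or_false] at hm ⊢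
    rcases hm with h | h | h | h | h | h <;> simp only [h, true_or, or_true]
  have hNB1 := hNB.of_same a7 (n1 _ rfl)
  have hR2NB1 := hR2NB.of_same a7 (n1 _ rfl)
  obtain ⟨c2, r2, b1, b3, b4, b5⟩ := padW1_spec c1 hNB1 hR2NB1 a1
  have n1W : (o .W2 : BT A) ∉ [o .W1, o .W3, o .Acc, o .Cy, o .TE, o .TD] := by
    simp [o]
  have nm : ∀ x : BT A, x ≠ o .TE → x ≠ o .TD → x ∉ [(o .W1 : BT A), o .W3, o .Acc, o .Cy] →
      x ∉ [(o .W1 : BT A), o .W3, o .Acc, o .Cy, o .TE, o .TD] := by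
    intro x h1 h2 h3 hm
    simp only [List.mem_cons, List.not_mem_nil, or_false] at hm h3
    rcases hm with h | h | h | h | h | h
    · exact h3 (Or.inl h)
    · exact h3 (Or.inr (Or.inl h))
    · exact h3 (Or.inr (Or.inr (Or.inl h)))
    · exact h3 (Or.inr (Or.inr (Or.inr h)))
    · exact h1 h
    · exact h2 h
  have nm1 : ∀ x : BT A, x ∉ [(o .W1 : BT A), o .W3, o .Acc, o .Cy] → x ∉ [(o .W1 : BT A)] := by
    intro x h3 hm
    simp only [List.mem_cons, List.not_mem_nil, or_false] at hm h3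
    exact h3 (Or.inl hm)
  obtain ⟨c3, r3, d3, d5, d5', d6, d7⟩ := kernel_spec U' V' hU' hUE' hV' hVE' hV2' hVN' c2 hL hu' hv' he1 hd1
    (a5.of_same b5 (by simp)) (a6.of_same b5 (by simp))
    ((hUc'.of_same a7 (nm _ hUE' hU' hU'1)).of_same b5 (nm1 _ hU'1))
    ((hVc'.of_same a7 (nm _ hVE' hV' hV'1)).of_same b5 (nm1 _ hV'1))
    ((hR2N.of_same a7 (n1 _ rfl)).of_same b5 (by simp))
    ((hRB1.of_same a7 (n1 _ rfl)).of_same b5 (by simp))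
    (hR2NB1.of_same b5 (by simp))
    (by rw [b5.head (by simp), a7.head n1W]; exact hW2)
  have n3 : (o .W1 : BT A) ∉ [(o .W2 : BT A), o .TE, o .TD] := by simp [o]
  have n3' : (o .W3 : BT A) ∉ [(o .W2 : BT A), o .TE, o .TD] := by simp [o]
  have tW1 : c3.tape (o .W1) = c2.tape (o .W1) := d7.tape n3
  refine ⟨c1, c3, r1.seq (r2.seq r3), ?_, d3, ?_, d5', d6, ?_, a4, d5, ?_, ?_⟩
  · rw [d7.head n3]; exact b1
  · rw [d7.head n3', b5.head (by simp)]; exact a2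
  · exact (a7.trans (b5.trans d7)).mono (by simp)
  · rw [tW1]; exact b3
  · rw [tW1]; exact b4

theorem stage_spec {τ : ℕ → ℕ} (hA : Multiplies A τ) (U V U' V' : BT A)
    (hU : U ≠ o .TD) (hUE : U ≠ o .TE)
    (hV : V ≠ o .TD) (hVE : V ≠ o .TE) (hVA : V ≠ o .Acc)
    (hVW : V ≠ o .W3) (hVC : V ≠ o .Cy) (hV1 : V ≠ o .W1) (hVN : V ≠ o .RN)
    (hU' : U' ≠ o .TD) (hUE' : U' ≠ o .TE)
    (hV' : V' ≠ o .TD) (hVE' : V' ≠ o .TE) (hV2' : V' ≠ o .W2) (hVN' : V' ≠ o .R2N)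
    (hU'1 : U' ∉ [o .W1, o .W3, o .Acc, o .Cy]) (hV'1 : V' ∉ [o .W1, o .W3, o .Acc, o .Cy])
    (c : TS (BT A) (BG A)) {L N u v u' v' e0 d0 : ℕ} (hL : 1 ≤ L) (hNL : 2 * N ≤ 2 ^ L) (hN1 : 1 ≤ N)
    (hu : u ≤ L) (hv : v ≤ L) (hu' : u' ≤ L) (hv' : v' ≤ L) (he0 : e0 ≤ L) (hd0 : d0 ≤ L)
    (hTE : Cyc c (o .TE) L e0) (hTD : Cyc c (o .TD) L d0) (hUc : Cyc c U L u) (hVc : Cyc c V L v)
    (hUc' : Cyc c U' L u') (hVc' : Cyc c V' L v')
    (hRN : Ruler c (o .RN) N) (hRL : Ruler c (o .RL) L) (hRB : Ruler c (o .RBL) (3 * L))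
    (hRN1 : Ruler c (o .RN1B) ((N - 1) * (4 * L))) (hNB : Ruler c (o .RNB) (N * (4 * L)))
    (hR2N : Ruler c (o .R2N) (2 * N)) (hRB1 : Ruler c (o .RBL1) (3 * L - 1))
    (hR2NB : Ruler c (o .R2NB) (2 * N * (4 * L))) (hR4NB : Ruler c (o .R4NB) (2 * (2 * N * (4 * L))))
    (hZ : (c.read (o .Z)).isOne = false)
    (hW1 : c.head (o .W1) = 0) (hW2 : c.head (o .W2) = 0) (hW3 : c.head (o .W3) = 0)
    (hB : ∀ t x, c.tape (Sum.inr t) x = .blank) :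
    ∃ c', Run (stage A U V U' V') c c' (stageCost (@Finset.univ A.T A.fT).card N L (τ (2 * N * (4 * L)))) ∧
      c'.head (o .W1) = 0 ∧ c'.head (o .W2) = 0 ∧ c'.head (o .W3) = 0 ∧
      (∀ t x, c'.tape (Sum.inr t) x = .blank) ∧
      (∃ e', e' ≤ L ∧ Cyc c' (o .TE) L e') ∧ (∃ d', d' ≤ L ∧ Cyc c' (o .TD) L d') ∧
      Same ([o .W1, o .W2, o .W3, o .Acc, o .Cy, o .TE, o .TD] ++ allA A) c c' ∧
      ∃ a : ℕ → ℕ,
        (∀ k, k < N → a k < 2 ^ L ∧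
          a k * 2 ^ (genE L u v k).1 ≡ vl (c.tape (o .W3)) (((N - 1 + k) * (4 * L) : ℕ) : ℤ) (4 * L) [MOD 2 ^ L - 1]) ∧
        ∀ k, k < N → vl (c'.tape (o .W3)) (((N - 1 + k) * (4 * L) : ℕ) : ℤ) (4 * L) =
          ∑ n ∈ Finset.range N, a n * 2 ^ (genE L u' v' (N + k - n)).1 := by
  have nA : ∀ a : Own, (Sum.inl a : BT A) ∉ allA A := not_mem_allA A
  obtain ⟨c1, c3, r3, hW1c3, d3, hW3c3, ⟨e', he', hE'⟩, ⟨d', hd', hD'⟩, s13, a4, d5, b3, b4⟩ :=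
    stage_pre U V U' V' hU hUE hV hVE hVA hVW hVC hV1 hVN hU' hUE' hV' hVE' hV2' hVN' hU'1 hV'1 c
      hL hu hv hu' hv' he0 hd0 hTE hTD hUc hVc hUc' hVc' hRN hRL hRB hRN1 hNB hR2N hRB1 hR2NB hZ hW1 hW2 hW3
  have hBA : ∀ t x, c3.tape (Sum.inr t) x = .blank := by
    intro t x
    have : (Sum.inr t : BT A) ∉ [o .W1, o .W3, o .Acc, o .Cy, o .TE, o .TD, o .W2] := by simp [o]
    rw [s13.tape this]
    exact hB t x
  obtain ⟨c4, r4, f2, f3, f4, f5⟩ := mul_spec hA c3 (n := 2 * N * (4 * L))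
    (Nat.succ_le_of_lt (by positivity))
    (hR2NB.of_same s13 (nS1 _ rfl))
    (hR4NB.of_same s13 (nS1 _ rfl))
    hW1c3 d3 hW3c3 hBA
  have n4 : ∀ a : Own, a ≠ .W3 → (o a : BT A) ∉ (o .W3 : BT A) :: allA A := by
    intro a h
    simp only [List.mem_cons, not_or]
    refine ⟨?_, nA a⟩
    simp [o, h]
  have hprod := stage_values (c1.tape (o .W1)) (c3.tape (o .W1)) (c3.tape (o .W2)) (c4.tape (o .W3)) (4 * L) L N
    (fun d => (genE L u' v' d).1) rfl hL hNL (fun d => (genE_le hu' hv' d).1)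
    b4 b3 (fun k hk => (a4 k hk).1) d5 f4
  refine ⟨c4, ?_, ?_, ?_, f3, f2, ?_, ?_, ?_, fun k => vl (c1.tape (o .W1)) ((k * (4 * L) : ℕ) : ℤ) (4 * L), a4, hprod⟩
  · unfold stageCost
    refine (r3.seq r4).mono ?_
    omega
  · rw [f5.head (n4 _ (by simp))]
    exact hW1c3
  · rw [f5.head (n4 _ (by simp))]
    exact d3
  · exact ⟨e', he', hE'.of_same f5 (n4 _ (by simp))⟩
  · exact ⟨d', hd', hD'.of_same f5 (n4 _ (by simp))⟩
  · refine (s13.trans f5).mono ?_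
    intro x hx
    rw [List.mem_append] at hx ⊢
    rcases hx with hx | hx
    · left
      revert x
      simp
    · rcases List.mem_cons.1 hx with hx | hx
      · left
        simp [hx]
      · right
        exact hx

end

end Vale.Agent.Lib.P338
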