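import Vale.Agent.Lib.P338.Scan

/-!
Symbols, elementary actions, frames, rulers, scanning loops driven by a ruler.
-/

namespace Vale.Agent.Lib.P338

/-- The alphabet of the machines we build: `a g o` is a cell of a simulated tape with symbol `g`
and origin flag `o`. -/
inductive Sym (G : Type)
  | blank | zero | one | mark
  | a (g : G) (o : Bool)

namespace Sym
variable {G : Type}

/-- Test for `one`. -/
def isOne : Sym G → Bool
  | one => true
  | _ => false

/-- Test for `zero`. -/
def isZero : Sym G → Bool
  | zero => true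
  | _ => false

/-- Test for non-blank. -/
def nonBlank : Sym G → Bool
  | blank => false
  | _ => true

/-- The symbol of a bit. -/
def ofBit : Bool → Sym G
  | true => one
  | false => zero

@[simp] theorem isOne_ofBit (b : Bool) : (ofBit b : Sym G).isOne = b := by cases b <;> rfl
@[simp] theorem nonBlank_ofBit (b : Bool) : (ofBit b : Sym G).nonBlank = true := by cases b <;> rfl
@[simp] theorem isOne_one : (one : Sym G).isOne = true := rfl
@[simp] theorem isOne_zero : (zero : Sym G).isOne = false := rfl
@[simp] theorem isOne_blank : (blank : Sym G).isOne = false := rfl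
@[simp] theorem isZero_one : (one : Sym G).isZero = false := rfl
@[simp] theorem isZero_zero : (zero : Sym G).isZero = true := rfl
@[simp] theorem isZero_blank : (blank : Sym G).isZero = false := rfl
@[simp] theorem nonBlank_one : (one : Sym G).nonBlank = true := rfl
@[simp] theorem nonBlank_zero : (zero : Sym G).nonBlank = true := rfl
@[simp] theorem nonBlank_blank : (blank : Sym G).nonBlank = false := rfl

end Sym

open Prog

section basics
variable {T G : Type}

/-- Frame relation: all tapes not in the list keep contents and head. -/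
def Same (l : List T) (c c' : TS T (Sym G)) : Prop :=
  ∀ t, t ∉ l → c'.tape t = c.tape t ∧ c'.head t = c.head t

theorem Same.tape {l : List T} {c c' : TS T (Sym G)} (h : Same l c c') {t : T} (ht : t ∉ l) :
    c'.tape t = c.tape t := (h t ht).1

theorem Same.head {l : List T} {c c' : TS T (Sym G)} (h : Same l c c') {t : T} (ht : t ∉ l) :
    c'.head t = c.head t := (h t ht).2

theorem Same.refl (l : List T) (c : TS T (Sym G)) : Same l c c := fun _ _ => ⟨rfl, rfl⟩

theorem Same.trans {l l' : List T} {c c1 c2 : TS T (Sym G)} (h : Same l c c1) (h' : Same l' c1 c2) :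
    Same (l ++ l') c c2 := by
  intro t ht
  simp only [List.mem_append, not_or] at ht
  exact ⟨(h' t ht.2).1.trans (h t ht.1).1, (h' t ht.2).2.trans (h t ht.1).2⟩

theorem Same.mono {l l' : List T} {c c' : TS T (Sym G)} (h : Same l c c') (hl : ∀ t ∈ l, t ∈ l') :
    Same l' c c' := fun t ht => h t fun h2 => ht (hl t h2)

theorem Same.erase {R : T} {l : List T} {c c' : TS T (Sym G)} (h : Same (R :: l) c c')
    (h1 : c'.tape R = c.tape R) (h2 : c'.head R = c.head R) : Same l c c' := by
  intro t ht
  by_cases htR : t = R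
  · subst htR
    exact ⟨h1, h2⟩
  · exact h t (by simp [htR, ht])

/-- Same as a statement about two lists with a clean target list. -/
theorem Same.trans' {l l' l2 : List T} {c c1 c2 : TS T (Sym G)} (h : Same l c c1) (h' : Same l' c1 c2)
    (h1 : ∀ t ∈ l, t ∈ l2) (h2 : ∀ t ∈ l', t ∈ l2) : Same l2 c c2 :=
  (h.mono h1).trans (h'.mono h2) |>.mono (by simp)

variable [DecidableEq T]

/-- Single action on one tape: write `w` (a function of all the symbols read) and move. -/
def act1 (X : T) (w : (T → Sym G) → Sym G) (d : Dir) : Prog T (Sym G) :=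
  .act (fun t => decide (t = X)) fun s => (fun _ => w s, fun _ => d)

/-- Move one head. -/
def mv (X : T) (d : Dir) : Prog T (Sym G) := act1 X (fun s => s X) d

/-- Do nothing (one step). -/
def skip : Prog T (Sym G) := .act (fun _ => false) fun s => (s, fun _ => .S)

theorem act1_spec (X : T) (w : (T → Sym G) → Sym G) (d : Dir) (c : TS T (Sym G)) :
    ∃ c', Run (act1 X w d) c c' 1 ∧ c'.head X = c.head X + d.toInt ∧
      (∀ x, c'.tape X x = if x = c.head X then w c.read else c.tape X x) ∧ Same [X] c c' := by
  refine ⟨_, ⟨1, le_rfl, Exec.act⟩, ?_, ?_, ?_⟩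
  · simp [TS.apply, clampD]
  · intro x
    simp [TS.apply, clampW]
  · intro t ht
    simp only [List.mem_singleton] at ht
    have h : (fun t => decide (t = X)) t = false := by simpa using ht
    exact apply_frame c _ _ h

theorem mv_spec (X : T) (d : Dir) (c : TS T (Sym G)) :
    ∃ c', Run (mv X d) c c' 1 ∧ c'.head X = c.head X + d.toInt ∧ c'.tape X = c.tape X ∧
      Same [X] c c' := by
  obtain ⟨c', h1, h2, h3, h4⟩ := act1_spec X (fun s => s X) d c
  refine ⟨c', h1, h2, ?_, h4⟩
  funext x
  rw [h3]
  by_cases hx : x = c.head X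
  · simp [hx, TS.read]
  · simp [hx]

theorem skip_spec (c : TS T (Sym G)) : Run (skip : Prog T (Sym G)) c c 1 := by
  refine ⟨1, le_rfl, ?_⟩
  have : Exec (skip : Prog T (Sym G)) c _ 1 := Exec.act
  convert this using 1
  ext1
  · funext t i
    simp only [TS.apply, clampW, if_false, Bool.false_eq_true, TS.read]
    by_cases h : i = c.head t
    · simp [h]
    · simp [h]
  · funext t
    simp [TS.apply, clampD, Dir.toInt]

/-- Scan: `R` moves by `dR` while `gt` holds of its symbol, writing `w` of what it reads. -/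
def sc0 (gt : Sym G → Bool) (R : T) (dR : Dir) (w : Sym G → Sym G) : Prog T (Sym G) :=
  scan (fun s => gt (s R)) (fun t => decide (t = R)) (fun s _ => w (s R)) (fun _ => dR)

theorem dirNe : ∀ {d : Dir}, d ≠ .S → d.toInt ≠ 0
  | .L, _ => by simp [Dir.toInt]
  | .R, _ => by simp [Dir.toInt]
  | .S, h => absurd rfl h

theorem sc0_spec (gt : Sym G → Bool) (R : T) (dR : Dir) (w : Sym G → Sym G) (hd : dR ≠ .S)
    (c : TS T (Sym G)) (m : ℕ)
    (hg : ∀ i : ℕ, i < m → gt (c.tape R (c.head R + i * dR.toInt)) = true)
    (hm : gt (c.tape R (c.head R + m * dR.toInt)) = false) :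
    ∃ c', Run (sc0 gt R dR w) c c' (2 * m + 1) ∧ c'.head R = c.head R + m * dR.toInt ∧
      (∀ j : ℕ, j < m → c'.tape R (c.head R + j * dR.toInt) = w (c.tape R (c.head R + j * dR.toInt))) ∧
      (∀ x, (∀ j : ℕ, j < m → x ≠ c.head R + j * dR.toInt) → c'.tape R x = c.tape R x) ∧
      Same [R] c c' := by
  set ts : T → Bool := fun t => decide (t = R) with hts
  set W : (T → Sym G) → T → Sym G := fun s _ => w (s R) with hW
  set D : T → Dir := fun _ => dR with hD
  have hz : dirZ ts D R = dR.toInt := by simp [dirZ, hts, hD]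
  have hnz : dirZ ts D R ≠ 0 := by rw [hz]; exact dirNe hd
  have hrd : ∀ i : ℕ, rd c ts W D i R = c.tape R (c.head R + i * dR.toInt) := by
    intro i
    rw [rd_nostat c ts W D ?_ i R, hz]
    intro s t h1 h2
    have : t = R := by simpa [hts] using h2
    subst this
    exact absurd h1 hnz
  refine ⟨sres c ts W D m, ⟨2 * m + 1, le_rfl, exec_scan _ c ts W D m ?_ ?_⟩, ?_, ?_, ?_, ?_⟩
  · intro i hi
    rw [hrd]; exact hg i hi
  · rw [hrd]; exact hm
  · rw [sres_head, hz]
  · intro j hj
    have := sres_hit c ts W D m hnz hj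
    rw [hz] at this
    rw [this]
    simp only [hW]
    rw [hrd]
  · intro x hx
    apply sres_miss c ts W D m hnz
    rw [hz]
    exact hx
  · intro t ht
    have h1 : t ≠ R := by simpa using ht
    have hz0 : dirZ ts D t = 0 := by simp [dirZ, hts, h1]
    constructor
    · funext x
      rw [sres_stat c ts W D m hz0]
      by_cases hx : x = c.head t
      · rw [if_pos hx, hx, rd_nostat c ts W D ?_ m t, hz0]
        · simp
        · intro s t' h3 h4
          have : t' = R := by simpa [hts] using h4
          subst this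
          exact absurd h3 hnz
      · rw [if_neg hx]
    · rw [sres_head, hz0]; simp

/-- Scan: `R` moves by `dR` while `gt` holds of its symbol, `X` moves by `dX` and gets `w` of the symbols
of `R` and `X`. -/
def sc1 (gt : Sym G → Bool) (R : T) (dR : Dir) (X : T) (dX : Dir) (w : Sym G → Sym G → Sym G) :
    Prog T (Sym G) :=
  scan (fun s => gt (s R)) (fun t => decide (t = R) || decide (t = X))
    (fun s t => if t = X then w (s R) (s X) else s t) (fun t => if t = R then dR else dX)

theorem sc1_spec (gt : Sym G → Bool) (R : T) (dR : Dir) (X : T) (dX : Dir) (w : Sym G → Sym G → Sym G)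
    (hRX : R ≠ X) (hd : dR ≠ .S) (hdX : dX ≠ .S)
    (c : TS T (Sym G)) (m : ℕ)
    (hg : ∀ i : ℕ, i < m → gt (c.tape R (c.head R + i * dR.toInt)) = true)
    (hm : gt (c.tape R (c.head R + m * dR.toInt)) = false) :
    ∃ c', Run (sc1 gt R dR X dX w) c c' (2 * m + 1) ∧ c'.head R = c.head R + m * dR.toInt ∧
      c'.tape R = c.tape R ∧ c'.head X = c.head X + m * dX.toInt ∧
      (∀ j : ℕ, j < m → c'.tape X (c.head X + j * dX.toInt) =
        w (c.tape R (c.head R + j * dR.toInt)) (c.tape X (c.head X + j * dX.toInt))) ∧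
      (∀ x, (∀ j : ℕ, j < m → x ≠ c.head X + j * dX.toInt) → c'.tape X x = c.tape X x) ∧
      Same [R, X] c c' := by
  set ts : T → Bool := fun t => decide (t = R) || decide (t = X) with hts
  set W : (T → Sym G) → T → Sym G := fun s t => if t = X then w (s R) (s X) else s t with hW
  set D : T → Dir := fun t => if t = R then dR else dX with hD
  have hz : dirZ ts D R = dR.toInt := by simp [dirZ, hts, hD]
  have hzX : dirZ ts D X = dX.toInt := by simp [dirZ, hts, hD, hRX.symm]
  have hnz : dirZ ts D R ≠ 0 := by rw [hz]; exact dirNe hd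
  have hnzX : dirZ ts D X ≠ 0 := by rw [hzX]; exact dirNe hdX
  have hst : ∀ (s : T → Sym G) (t : T), dirZ ts D t = 0 → ts t = true → W s t = s t := by
    intro s t h1 h2
    have : t = R ∨ t = X := by simpa [hts] using h2
    rcases this with rfl | rfl
    · exact absurd h1 hnz
    · exact absurd h1 hnzX
  have hrd : ∀ (i : ℕ) (t : T), rd c ts W D i t = c.tape t (c.head t + i * dirZ ts D t) :=
    fun i t => rd_nostat c ts W D hst i t
  refine ⟨sres c ts W D m, ⟨2 * m + 1, le_rfl, exec_scan _ c ts W D m ?_ ?_⟩, ?_, ?_, ?_, ?_, ?_, ?_⟩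
  · intro i hi
    rw [hrd, hz]; exact hg i hi
  · rw [hrd, hz]; exact hm
  · rw [sres_head, hz]
  · funext x
    by_cases hx : ∃ j : ℕ, j < m ∧ x = c.head R + j * dirZ ts D R
    · obtain ⟨j, hj, rfl⟩ := hx
      rw [sres_hit c ts W D m hnz hj]
      simp only [hW, if_neg hRX]
      rw [hrd]
    · push Not at hx
      exact sres_miss c ts W D m hnz hx
  · rw [sres_head, hzX]
  · intro j hj
    have := sres_hit c ts W D m hnzX hj
    rw [hzX] at this
    rw [this]
    simp only [hW, if_true]
    rw [hrd, hrd, hzX, hz]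
  · intro x hx
    apply sres_miss c ts W D m hnzX
    rw [hzX]
    exact hx
  · intro t ht
    simp only [List.mem_cons, List.not_mem_nil, or_false, not_or] at ht
    have hz0 : dirZ ts D t = 0 := by simp [dirZ, hts, ht.1, ht.2]
    constructor
    · funext x
      rw [sres_stat c ts W D m hz0]
      by_cases hx : x = c.head t
      · rw [if_pos hx, hx, hrd, hz0]
        simp
      · rw [if_neg hx]
    · rw [sres_head, hz0]; simp

/-- Scan: `R` moves by `dR` while `gt` holds of its symbol, `X` moves by `dX`, `Y` moves by `dY` and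
gets `w` of the symbol of `X`. -/
def sc2 (gt : Sym G → Bool) (R : T) (dR : Dir) (X : T) (dX : Dir) (Y : T) (dY : Dir)
    (w : Sym G → Sym G) : Prog T (Sym G) :=
  scan (fun s => gt (s R)) (fun t => decide (t = R) || decide (t = X) || decide (t = Y))
    (fun s t => if t = Y then w (s X) else s t)
    (fun t => if t = R then dR else if t = X then dX else dY)

theorem sc2_spec (gt : Sym G → Bool) (R : T) (dR : Dir) (X : T) (dX : Dir) (Y : T) (dY : Dir)
    (w : Sym G → Sym G) (hRX : R ≠ X) (hRY : R ≠ Y) (hXY : X ≠ Y)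
    (hd : dR ≠ .S) (hdX : dX ≠ .S) (hdY : dY ≠ .S)
    (c : TS T (Sym G)) (m : ℕ)
    (hg : ∀ i : ℕ, i < m → gt (c.tape R (c.head R + i * dR.toInt)) = true)
    (hm : gt (c.tape R (c.head R + m * dR.toInt)) = false) :
    ∃ c', Run (sc2 gt R dR X dX Y dY w) c c' (2 * m + 1) ∧ c'.head R = c.head R + m * dR.toInt ∧
      c'.tape R = c.tape R ∧ c'.head X = c.head X + m * dX.toInt ∧ c'.tape X = c.tape X ∧
      c'.head Y = c.head Y + m * dY.toInt ∧
      (∀ j : ℕ, j < m → c'.tape Y (c.head Y + j * dY.toInt) = w (c.tape X (c.head X + j * dX.toInt))) ∧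
      (∀ x, (∀ j : ℕ, j < m → x ≠ c.head Y + j * dY.toInt) → c'.tape Y x = c.tape Y x) ∧
      Same [R, X, Y] c c' := by
  set ts : T → Bool := fun t => decide (t = R) || decide (t = X) || decide (t = Y) with hts
  set W : (T → Sym G) → T → Sym G := fun s t => if t = Y then w (s X) else s t with hW
  set D : T → Dir := fun t => if t = R then dR else if t = X then dX else dY with hD
  have hz : dirZ ts D R = dR.toInt := by simp [dirZ, hts, hD]
  have hzX : dirZ ts D X = dX.toInt := by simp [dirZ, hts, hD, hRX.symm]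
  have hzY : dirZ ts D Y = dY.toInt := by simp [dirZ, hts, hD, hRY.symm, hXY.symm]
  have hnz : dirZ ts D R ≠ 0 := by rw [hz]; exact dirNe hd
  have hnzX : dirZ ts D X ≠ 0 := by rw [hzX]; exact dirNe hdX
  have hnzY : dirZ ts D Y ≠ 0 := by rw [hzY]; exact dirNe hdY
  have hst : ∀ (s : T → Sym G) (t : T), dirZ ts D t = 0 → ts t = true → W s t = s t := by
    intro s t h1 h2
    have : t = R ∨ t = X ∨ t = Y := by simpa [hts, or_assoc] using h2
    rcases this with rfl | rfl | rfl
    · exact absurd h1 hnz
    · exact absurd h1 hnzX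
    · exact absurd h1 hnzY
  have hrd : ∀ (i : ℕ) (t : T), rd c ts W D i t = c.tape t (c.head t + i * dirZ ts D t) :=
    fun i t => rd_nostat c ts W D hst i t
  have hkeep : ∀ {t : T}, t ≠ Y → dirZ ts D t ≠ 0 → (sres c ts W D m).tape t = c.tape t := by
    intro t hY hnz0
    funext x
    by_cases hx : ∃ j : ℕ, j < m ∧ x = c.head t + j * dirZ ts D t
    · obtain ⟨j, hj, rfl⟩ := hx
      rw [sres_hit c ts W D m hnz0 hj]
      simp only [hW, if_neg hY]
      rw [hrd]
    · push Not at hx
      exact sres_miss c ts W D m hnz0 hx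
  refine ⟨sres c ts W D m, ⟨2 * m + 1, le_rfl, exec_scan _ c ts W D m ?_ ?_⟩, ?_, hkeep hRY hnz, ?_,
    hkeep hXY hnzX, ?_, ?_, ?_, ?_⟩
  · intro i hi
    rw [hrd, hz]; exact hg i hi
  · rw [hrd, hz]; exact hm
  · rw [sres_head, hz]
  · rw [sres_head, hzX]
  · rw [sres_head, hzY]
  · intro j hj
    have := sres_hit c ts W D m hnzY hj
    rw [hzY] at this
    rw [this]
    simp only [hW, if_true]
    rw [hrd, hzX]
  · intro x hx
    apply sres_miss c ts W D m hnzY
    rw [hzY]
    exact hx
  · intro t ht
    simp only [List.mem_cons, List.not_mem_nil, or_false, not_or] at ht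
    have hz0 : dirZ ts D t = 0 := by simp [dirZ, hts, ht.1, ht.2.1, ht.2.2]
    constructor
    · funext x
      rw [sres_stat c ts W D m hz0]
      by_cases hx : x = c.head t
      · rw [if_pos hx, hx, hrd, hz0]
        simp
      · rw [if_neg hx]
    · rw [sres_head, hz0]; simp

end basics

end Vale.Agent.Lib.P338
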