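import Vale.Agent.Lib.P338.Main

/-!
The running time of the transposition machine.
-/

namespace Vale.Agent.Lib.P338

open Filter Topology

/-- The normalised cost of a product. -/
noncomputable def rho (τ : ℕ → ℕ) (N : ℕ) : ℝ := (τ N : ℝ) / N

theorem rho_nonneg (τ : ℕ → ℕ) (N : ℕ) : 0 ≤ rho τ N := by
  unfold rho
  positivity

theorem real_ineq {P S N M D R ρ : ℝ}
    (r1 : P ≤ 6000 * N + 2 * R + M * (501 * D * (N + ρ * N + 1)) + 10)
    (r2 : N ≤ 67108864 * R) (r3 : M * N ≤ 67108864 * R) (r4 : M ≤ R) (r5 : S ≤ 268435456 * R)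
    (r6 : 1 ≤ R) (hD : 1 ≤ D) (hρ : 0 ≤ ρ) :
    P + 100 * S + 100 ≤ 1099511627776 * D * R * (1 + ρ) := by
  have hD0 : 0 ≤ D := by linarith
  have hR0 : 0 ≤ R := by linarith
  have q2 : D * (M * N) ≤ D * (67108864 * R) := mul_le_mul_of_nonneg_left r3 hD0
  have q3 : (D * ρ) * (M * N) ≤ (D * ρ) * (67108864 * R) :=
    mul_le_mul_of_nonneg_left r3 (mul_nonneg hD0 hρ)
  have q4 : D * M ≤ D * R := mul_le_mul_of_nonneg_left r4 hD0
  have q5 : R ≤ D * R := by nlinarith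
  have q6 : 0 ≤ D * R * ρ := mul_nonneg (mul_nonneg hD0 hR0) hρ
  have e1 : M * (501 * D * (N + ρ * N + 1)) = 501 * (D * (M * N)) + 501 * ((D * ρ) * (M * N)) + 501 * (D * M) := by
    ring
  have e2 : 1099511627776 * D * R * (1 + ρ) = 1099511627776 * (D * R) + 1099511627776 * (D * R * ρ) := by ring
  have e3 : D * (67108864 * R) = 67108864 * (D * R) := by ring
  have e4 : (D * ρ) * (67108864 * R) = 67108864 * (D * R * ρ) := by ring
  rw [e1] at r1
  rw [e2]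
  rw [e3] at q2
  rw [e4] at q3
  linarith

theorem roundCost_nat {x y z k m n : ℕ} (hx : x ≤ 2 * k - 1) (hy : y ≤ 2 * k - 1) (hm : 1 ≤ m)
    (hn : n = m * 2 ^ (x + y + z)) (hr : 4 * k + 18 ≤ x + y + 26) :
    nP z k ≤ 2 ^ 26 * n ∧ m * nP z k ≤ 2 ^ 26 * n ∧ m ≤ n ∧ 1 ≤ n ∧ 0 < nP z k ∧
      x + y + z + k ≤ 4 * (2 ^ 26 * n) := by
  have hN : nP z k ≤ 2 ^ 26 * 2 ^ (x + y + z) := by
    rw [nP_eq, ← pow_add]
    exact Nat.pow_le_pow_right (by norm_num) (by omega)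
  have hS1 : 1 ≤ 2 ^ (x + y + z) := Nat.one_le_two_pow
  have hSn : 2 ^ (x + y + z) ≤ n := by
    rw [hn]
    exact Nat.le_mul_of_pos_left _ hm
  have hmn : m ≤ n := by
    rw [hn]
    exact Nat.le_mul_of_pos_right _ hS1
  have hNn : nP z k ≤ 2 ^ 26 * n := hN.trans (Nat.mul_le_mul_left _ hSn)
  have hmN : m * nP z k ≤ 2 ^ 26 * n := by
    calc m * nP z k ≤ m * (2 ^ 26 * 2 ^ (x + y + z)) := Nat.mul_le_mul_left _ hN
      _ = 2 ^ 26 * n := by rw [hn]; ring
  have hx' := lt_nP z k x (by omega)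
  have hy' := lt_nP z k y (by omega)
  have hz' := lt_nP z k z (by omega)
  have hk' := lt_nP z k k (by omega)
  have hNpos : 0 < nP z k := by
    rw [nP_eq]
    positivity
  refine ⟨hNn, hmN, hmn, hS1.trans hSn, hNpos, ?_⟩
  generalize nP z k = NN at *
  generalize 2 ^ 26 * n = RR at *
  omega

theorem cast_step {Pc S m n T NN d : ℕ}
    (h1 : Pc ≤ 6000 * NN + 2 * n + m * (501 * (d + 1) * (NN + T + 1)) + 10)
    (hNn : NN ≤ 2 ^ 26 * n) (hmN : m * NN ≤ 2 ^ 26 * n) (hmn : m ≤ n) (hn1 : 1 ≤ n) (hNpos : 0 < NN)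
    (hS : S ≤ 4 * (2 ^ 26 * n)) :
    ((Pc + 100 * S + 100 : ℕ) : ℝ) ≤ 2 ^ 40 * (d + 1) * n * (1 + (T : ℝ) / NN) := by
  have hNr : (0 : ℝ) < NN := by exact_mod_cast hNpos
  have hTe : (T : ℝ) / NN * NN = T := by
    field_simp
  have r1 : (Pc : ℝ) ≤ 6000 * (NN : ℝ) + 2 * n + m * (501 * ((d : ℝ) + 1) * ((NN : ℝ) + T + 1)) + 10 := by
    exact_mod_cast h1
  have r2 : (NN : ℝ) ≤ 67108864 * n := by
    have : NN ≤ 67108864 * n := by simpa using hNn
    exact_mod_cast this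
  have r3 : (m : ℝ) * NN ≤ 67108864 * n := by
    have : m * NN ≤ 67108864 * n := by simpa using hmN
    exact_mod_cast this
  have r4 : (m : ℝ) ≤ n := by exact_mod_cast hmn
  have r5 : (S : ℝ) ≤ 268435456 * n := by
    have : S ≤ 268435456 * n := by
      have h2 : 2 ^ 26 * n = 67108864 * n := by norm_num
      rw [h2] at hS
      omega
    exact_mod_cast this
  have r6 : (1 : ℝ) ≤ n := by exact_mod_cast hn1
  have hD : (1 : ℝ) ≤ (d : ℝ) + 1 := by
    have : (0 : ℝ) ≤ d := by positivity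
    linarith
  have hρ0 : 0 ≤ (T : ℝ) / NN := by positivity
  have key := real_ineq (P := (Pc : ℝ)) (S := (S : ℝ)) (N := (NN : ℝ)) (M := (m : ℝ)) (D := (d : ℝ) + 1)
    (R := (n : ℝ)) (ρ := (T : ℝ) / NN) (by
      rw [hTe]
      exact r1) r2 r3 r4 r5 r6 hD hρ0
  have e40 : (2 : ℝ) ^ 40 = 1099511627776 := by norm_num
  rw [e40]
  have hc : ((Pc + 100 * S + 100 : ℕ) : ℝ) = (Pc : ℝ) + 100 * (S : ℝ) + 100 := by
    push_cast
    ring
  rw [hc]
  exact key

theorem roundCost_real {d x y z k m n T : ℕ} (hk1 : 1 ≤ k) (hx : x ≤ 2 * k - 1) (hy : y ≤ 2 * k - 1)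
    (hk : 4 * k + 2 ≤ z + 12) (hm : 1 ≤ m) (hn : n = m * 2 ^ (x + y + z)) (hr : 4 * k + 18 ≤ x + y + 26) :
    (roundCost d x y z k m n T : ℝ) ≤ 2 ^ 40 * (d + 1) * n * (1 + (T : ℝ) / (nP z k)) := by
  have h1 := passCost_le (card := d) (x := x) (y := y) (z := z) (k := k) (m := m) (n := n) (T := T) hk1 hx hy hk
  unfold passBd at h1
  obtain ⟨hNn, hmN, hmn, hn1, hNpos, hS⟩ :=
    roundCost_nat (x := x) (y := y) (z := z) (k := k) (m := m) (n := n) hx hy hm hn hr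
  unfold roundCost
  exact cast_step h1 hNn hmN hmn hn1 hNpos hS

theorem kv_pos (a : ℕ) : 1 ≤ kv a := by
  unfold kv
  omega

theorem RC_real {d a0 : ℕ} {τ : ℕ → ℕ} {a : ℕ} {Sx Sy : Own} {Z : List Own} (hG : Good a Sx Sy Z)
    (haa : a ≤ a0) :
    (RC d a0 τ a Sx Sy Z : ℝ) ≤ 2 ^ 40 * (d + 1) * 4 ^ a0 * (1 + rho τ (nP (zv a Z) (kv a))) := by
  have hs : dv a Sx + dv a Sy + zv a Z ≤ 2 * a0 := hG.hs.trans (by omega)
  have hn : 4 ^ a0 = 2 ^ (2 * a0 - (dv a Sx + dv a Sy + zv a Z)) * 2 ^ (dv a Sx + dv a Sy + zv a Z) := by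
    rw [← pow_add, show (4 : ℕ) = 2 ^ 2 by norm_num, ← pow_mul]
    congr 1
    omega
  have key := roundCost_real (d := d) (T := τ (nP (zv a Z) (kv a))) (kv_pos a) hG.hx hG.hy hG.hk
    (Nat.one_le_two_pow) hn hG.hr
  unfold RC rho
  push_cast at key
  exact key

/-- The three kinds of entry sizes. -/
def Z1 : List Own := [.A2, .A3]

/-- The three kinds of entry sizes. -/
def Z2 : List Own := [.A3, .A3, .A2]

/-- The three kinds of entry sizes. -/
def Z3 : List Own := [.A2, .A2, .A3, .A3]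

/-- The normalised cost of all products of one level. -/
noncomputable def G (τ : ℕ → ℕ) (b : ℕ) : ℝ :=
  rho τ (nP (zv b Z1) (kv b)) + rho τ (nP (zv b Z2) (kv b)) + rho τ (nP (zv b Z3) (kv b)) + 1

theorem G_one_le (τ : ℕ → ℕ) (b : ℕ) : 1 ≤ G τ b := by
  unfold G
  have h1 := rho_nonneg τ (nP (zv b Z1) (kv b))
  have h2 := rho_nonneg τ (nP (zv b Z2) (kv b))
  have h3 := rho_nonneg τ (nP (zv b Z3) (kv b))
  linarith

theorem le_four_pow (a : ℕ) : (a : ℝ) ≤ 4 ^ a := by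
  have h : a ≤ 4 ^ a := (Nat.lt_pow_self (by norm_num)).le
  exact_mod_cast h

theorem one_le_four_pow (a : ℕ) : (1 : ℝ) ≤ 4 ^ a := one_le_pow₀ (by norm_num)

theorem level_ineq {r1 r2 r3 s D F ρ1 ρ2 ρ3 : ℝ}
    (h1 : r1 ≤ 2 ^ 40 * D * F * (1 + ρ1)) (h2 : r2 ≤ 2 ^ 40 * D * F * (1 + ρ2))
    (h3 : r3 ≤ 2 ^ 40 * D * F * (1 + ρ3)) (hs : s ≤ 1000 * F) (hD : 1 ≤ D) (hF : 1 ≤ F)
    (h01 : 0 ≤ ρ1) (h02 : 0 ≤ ρ2) (h03 : 0 ≤ ρ3) :
    s + r1 + r2 + r3 ≤ 2 ^ 42 * D * F * (ρ1 + ρ2 + ρ3 + 1) := by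
  have hX : F ≤ D * F := by nlinarith
  have hX0 : 0 ≤ D * F := by linarith
  have q1 : 0 ≤ D * F * ρ1 := mul_nonneg hX0 h01
  have q2 : 0 ≤ D * F * ρ2 := mul_nonneg hX0 h02
  have q3 : 0 ≤ D * F * ρ3 := mul_nonneg hX0 h03
  have e1 : 2 ^ 40 * D * F * (1 + ρ1) = 1099511627776 * (D * F) + 1099511627776 * (D * F * ρ1) := by ring
  have e2 : 2 ^ 40 * D * F * (1 + ρ2) = 1099511627776 * (D * F) + 1099511627776 * (D * F * ρ2) := by ring
  have e3 : 2 ^ 40 * D * F * (1 + ρ3) = 1099511627776 * (D * F) + 1099511627776 * (D * F * ρ3) := by ring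
  have e4 : 2 ^ 42 * D * F * (ρ1 + ρ2 + ρ3 + 1) = 4398046511104 * (D * F * ρ1) + 4398046511104 * (D * F * ρ2) +
      4398046511104 * (D * F * ρ3) + 4398046511104 * (D * F) := by ring
  rw [e1] at h1
  rw [e2] at h2
  rw [e3] at h3
  rw [e4]
  linarith

theorem levelF_real {d a0 b : ℕ} (τ : ℕ → ℕ) (h : b ≤ a0) :
    ((levelF d a0 τ b + 1 : ℕ) : ℝ) ≤ 2 ^ 42 * (d + 1) * 4 ^ a0 * G τ b := by
  have h1 := RC_real (d := d) (τ := τ) (good1 b) h
  have h2 := RC_real (d := d) (τ := τ) (good2 b) h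
  have h3 := RC_real (d := d) (τ := τ) (good3 b) h
  have hb : (b : ℝ) ≤ a0 := by exact_mod_cast h
  have h4 := le_four_pow a0
  have h5 := one_le_four_pow a0
  have hd : (0 : ℝ) ≤ d := by positivity
  have hs : (124 : ℝ) * b + 407 ≤ 1000 * 4 ^ a0 := by linarith
  have key := level_ineq h1 h2 h3 hs (by linarith) h5 (rho_nonneg _ _) (rho_nonneg _ _) (rho_nonneg _ _)
  have e : ((levelF d a0 τ b + 1 : ℕ) : ℝ) = (124 : ℝ) * b + 407 + (RC d a0 τ b .A3 .A1 [.A2, .A3] : ℝ) +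
      (RC d a0 τ b .A2 .A1 [.A3, .A3, .A2] : ℝ) + (RC d a0 τ b .A1 .A1 [.A2, .A2, .A3, .A3] : ℝ) := by
    unfold levelF digCost
    push_cast
    ring
  rw [e]
  exact key

theorem levelB_real {d a0 b : ℕ} (τ : ℕ → ℕ) (h : b ≤ a0) :
    ((levelB d a0 τ b + 1 : ℕ) : ℝ) ≤ 2 ^ 42 * (d + 1) * 4 ^ a0 * G τ b := by
  have h1 := RC_real (d := d) (τ := τ) (good5 b) h
  have h2 := RC_real (d := d) (τ := τ) (good4 b) h
  have hb : (b : ℝ) ≤ a0 := by exact_mod_cast h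
  have h4 := le_four_pow a0
  have h5 := one_le_four_pow a0
  have hd : (0 : ℝ) ≤ d := by positivity
  have hs : (88 : ℝ) * b + 310 ≤ 1000 * 4 ^ a0 := by linarith
  have hD : (1 : ℝ) ≤ (d : ℝ) + 1 := by linarith
  have h3 : (0 : ℝ) ≤ 2 ^ 40 * ((d : ℝ) + 1) * 4 ^ a0 * (1 + rho τ (nP (zv b Z3) (kv b))) := by
    have := rho_nonneg τ (nP (zv b Z3) (kv b))
    positivity
  have key := level_ineq h1 h2 h3 hs hD h5 (rho_nonneg _ _) (rho_nonneg _ _) (rho_nonneg _ _)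
  have e : ((levelB d a0 τ b + 1 : ℕ) : ℝ) = (88 : ℝ) * b + 310 + (RC d a0 τ b .A1 .A3 [.A2, .A3] : ℝ) +
      (RC d a0 τ b .A1 .A2 [.A3, .A3, .A2] : ℝ) + 0 := by
    unfold levelB digCost
    push_cast
    ring
  rw [e]
  exact key

theorem list_sum_le (l : List ℕ) (f : ℕ → ℕ) (g : ℕ → ℝ) (h : ∀ b ∈ l, (f b : ℝ) ≤ g b) :
    (((l.map f).sum : ℕ) : ℝ) ≤ (l.map g).sum := by
  induction l with
  | nil => simp
  | cons x l ih =>
    simp only [List.map_cons, List.sum_cons]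
    rw [Nat.cast_add]
    have h1 := h x (by simp)
    have h2 := ih (fun b hb => h b (by simp [hb]))
    linarith

/-- The total normalised cost over all levels. -/
noncomputable def Gs (τ : ℕ → ℕ) (a : ℕ) : ℝ := ((levels a).map (G τ)).sum

theorem list_sum_mul (l : List ℕ) (g : ℕ → ℝ) (C : ℝ) :
    (l.map fun b => C * g b).sum = C * (l.map g).sum := by
  induction l with
  | nil => simp
  | cons x l ih =>
    simp only [List.map_cons, List.sum_cons, ih]
    ring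

theorem topCost_real (d a0 : ℕ) (τ : ℕ → ℕ) :
    (topCost d a0 τ : ℝ) ≤ 4 ^ a0 * (163 + 2 ^ 43 * (d + 1) * Gs τ a0) := by
  have h1 := list_sum_le (levels a0) (fun b => levelF d a0 τ b + 1)
    (fun b => (2 ^ 42 * (d + 1) * 4 ^ a0) * G τ b) (fun b hb => levelF_real τ (levels_le a0 b hb))
  have h2 := list_sum_le (levels a0) (fun b => levelB d a0 τ b + 1)
    (fun b => (2 ^ 42 * (d + 1) * 4 ^ a0) * G τ b) (fun b hb => levelB_real τ (levels_le a0 b hb))
  rw [list_sum_mul] at h1 h2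
  have h3 := one_le_four_pow a0
  have e : (topCost d a0 τ : ℝ) = 1 + (140 * 4 ^ a0 + 20 +
      ((((levels a0).map fun b => levelF d a0 τ b + 1).sum : ℕ) + 1 +
        ((((levels a0).map fun b => levelB d a0 τ b + 1).sum : ℕ) + 1))) := by
    unfold topCost caCost
    rw [List.map_reverse, List.sum_reverse]
    push_cast
    ring
  rw [e]
  unfold Gs
  have e2 : (4 : ℝ) ^ a0 * (163 + 2 ^ 43 * ((d : ℝ) + 1) * ((levels a0).map (G τ)).sum) =
      163 * 4 ^ a0 + (2 ^ 42 * ((d : ℝ) + 1) * 4 ^ a0 * ((levels a0).map (G τ)).sum +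
        2 ^ 42 * ((d : ℝ) + 1) * 4 ^ a0 * ((levels a0).map (G τ)).sum) := by
    ring
  rw [e2]
  linarith

theorem nxt_lt {a : ℕ} (h : a ≠ 0) : nxt a < a := by
  unfold nxt
  omega

theorem G_nonneg (τ : ℕ → ℕ) (b : ℕ) : 0 ≤ G τ b := le_trans zero_le_one (G_one_le τ b)

theorem Gs_bound (τ : ℕ → ℕ) {ε : ℝ} (hε : 0 ≤ ε) {b0 : ℕ} (hb : ∀ b, b0 ≤ b → G τ b ≤ ε * (b + 1)) :
    ∀ a, Gs τ a ≤ ∑ b ∈ Finset.range (min (a + 1) b0), G τ b + ε * (6 * a) := by
  intro a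
  induction a using Nat.strong_induction_on with
  | _ a ih =>
    by_cases h0 : a = 0
    · subst h0
      unfold Gs
      rw [levels_zero]
      simp only [List.map_nil, List.sum_nil]
      have : 0 ≤ ∑ b ∈ Finset.range (min (0 + 1) b0), G τ b :=
        Finset.sum_nonneg fun b _ => G_nonneg τ b
      simpa using this
    · have h1 := ih (nxt a) (nxt_lt h0)
      have e : Gs τ a = G τ a + Gs τ (nxt a) := by
        unfold Gs
        rw [levels_pos h0]
        simp only [List.map_cons, List.sum_cons]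
      rw [e]
      have hn : a + 1 + 6 * nxt a ≤ 6 * a := by
        unfold nxt
        omega
      have hnr : (a : ℝ) + 1 + 6 * (nxt a : ℝ) ≤ 6 * a := by exact_mod_cast hn
      have hm : ε * ((a : ℝ) + 1) + ε * (6 * (nxt a : ℝ)) ≤ ε * (6 * a) := by
        have := mul_le_mul_of_nonneg_left hnr hε
        linarith
      have hnn : ε * (6 * (nxt a : ℝ)) ≤ ε * (6 * a) := by
        have h2 : (nxt a : ℝ) ≤ a := by
          have := (nxt_lt h0).le
          exact_mod_cast this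
        exact mul_le_mul_of_nonneg_left (by linarith) hε
      by_cases hab : b0 ≤ a
      · have h2 := hb a hab
        have hs : ∑ b ∈ Finset.range (min (nxt a + 1) b0), G τ b ≤ ∑ b ∈ Finset.range (min (a + 1) b0), G τ b := by
          apply Finset.sum_le_sum_of_subset_of_nonneg
          · intro x hx
            simp only [Finset.mem_range] at hx ⊢
            have := nxt_lt h0
            omega
          · intro b _ _
            exact G_nonneg τ b
        linarith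
      · have hs : G τ a + ∑ b ∈ Finset.range (min (nxt a + 1) b0), G τ b ≤
            ∑ b ∈ Finset.range (min (a + 1) b0), G τ b := by
          have hm1 : min (a + 1) b0 = a + 1 := by omega
          rw [hm1, Finset.sum_range_succ, add_comm]
          have : ∑ b ∈ Finset.range (min (nxt a + 1) b0), G τ b ≤ ∑ b ∈ Finset.range a, G τ b := by
            apply Finset.sum_le_sum_of_subset_of_nonneg
            · intro x hx
              simp only [Finset.mem_range] at hx ⊢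
              have := nxt_lt h0
              omega
            · intro b _ _
              exact G_nonneg τ b
          linarith
        linarith

theorem smallE {τ : ℕ → ℕ} (hτ : Tendsto (fun n : ℕ => (τ n : ℝ) / (n * Real.log n)) atTop (𝓝 0))
    (E : ℕ → ℕ) (h1 : ∀ b, b ≤ 2 * E b) (h2 : ∀ b, E b ≤ 26 * (b + 1)) {ε : ℝ} (hε : 0 < ε) :
    ∃ b0, ∀ b, b0 ≤ b → rho τ (2 ^ E b) ≤ ε * (b + 1) := by
  have hδ : 0 < ε / 26 := by positivity
  obtain ⟨n0, hn0⟩ := Metric.tendsto_atTop.1 hτ (ε / 26) hδ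
  refine ⟨2 * n0 + 2, fun b hb => ?_⟩
  have hE : n0 + 1 ≤ E b := by
    have := h1 b
    omega
  have hNn : n0 ≤ 2 ^ E b := by
    have : E b < 2 ^ E b := Nat.lt_pow_self (by norm_num)
    omega
  have h3 := hn0 (2 ^ E b) hNn
  rw [Real.dist_eq, sub_zero] at h3
  have hNpos : (0 : ℝ) < ((2 ^ E b : ℕ) : ℝ) := by positivity
  have hlog : Real.log ((2 ^ E b : ℕ) : ℝ) = E b * Real.log 2 := by
    push_cast
    rw [Real.log_pow]
  have hl2 : 0 < Real.log 2 := Real.log_pos (by norm_num)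
  have hl3 : Real.log 2 ≤ 1 := by
    have := Real.log_two_lt_d9
    linarith
  have hE0 : (0 : ℝ) < E b := by
    have : 0 < E b := by omega
    exact_mod_cast this
  have hlogpos : 0 < Real.log ((2 ^ E b : ℕ) : ℝ) := by
    rw [hlog]
    positivity
  have hNL : 0 < ((2 ^ E b : ℕ) : ℝ) * Real.log ((2 ^ E b : ℕ) : ℝ) := by positivity
  rw [abs_of_nonneg (by positivity)] at h3
  rw [div_lt_iff₀ hNL] at h3
  unfold rho
  rw [div_le_iff₀ hNpos]
  have hlE : Real.log ((2 ^ E b : ℕ) : ℝ) ≤ 26 * ((b : ℝ) + 1) := by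
    rw [hlog]
    have h4 : (E b : ℝ) ≤ 26 * ((b : ℝ) + 1) := by exact_mod_cast h2 b
    nlinarith
  calc (τ (2 ^ E b) : ℝ) ≤ ε / 26 * (((2 ^ E b : ℕ) : ℝ) * Real.log ((2 ^ E b : ℕ) : ℝ)) := h3.le
    _ = (ε / 26) * Real.log ((2 ^ E b : ℕ) : ℝ) * ((2 ^ E b : ℕ) : ℝ) := by ring
    _ ≤ (ε / 26) * (26 * ((b : ℝ) + 1)) * ((2 ^ E b : ℕ) : ℝ) := by
        apply mul_le_mul_of_nonneg_right _ hNpos.le
        exact mul_le_mul_of_nonneg_left hlE hδ.le
    _ = ε * ((b : ℝ) + 1) * ((2 ^ E b : ℕ) : ℝ) := by ring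

theorem small_nP {τ : ℕ → ℕ} (hτ : Tendsto (fun n : ℕ => (τ n : ℝ) / (n * Real.log n)) atTop (𝓝 0))
    (Z : List Own) (h1 : ∀ b, 2 * zv b Z ≤ 4 * b) {ε : ℝ} (hε : 0 < ε) :
    ∃ b0, ∀ b, b0 ≤ b → rho τ (nP (zv b Z) (kv b)) ≤ ε * (b + 1) := by
  obtain ⟨b0, hb0⟩ := smallE hτ (fun b => 4 * kv b + zv b Z + 18)
    (fun b => by
      have : b ≤ 2 * (4 * kv b) := by
        unfold kv
        omega
      omega)
    (fun b => by
      have := h1 b
      have : 4 * kv b ≤ 4 * b + 8 := by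
        unfold kv
        omega
      omega) hε
  refine ⟨b0, fun b hb => ?_⟩
  have := hb0 b hb
  rw [nP_eq]
  exact this

theorem zv_Z1 (b : ℕ) : 2 * zv b Z1 ≤ 4 * b := by
  simp only [zv, Z1, dv, List.map_cons, List.map_nil, List.sum_cons, List.sum_nil]
  omega

theorem zv_Z2 (b : ℕ) : 2 * zv b Z2 ≤ 4 * b := by
  simp only [zv, Z2, dv, List.map_cons, List.map_nil, List.sum_cons, List.sum_nil]
  omega

theorem zv_Z3 (b : ℕ) : 2 * zv b Z3 ≤ 4 * b := by
  simp only [zv, Z3, dv, List.map_cons, List.map_nil, List.sum_cons, List.sum_nil]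
  omega

theorem small_G {τ : ℕ → ℕ} (hτ : Tendsto (fun n : ℕ => (τ n : ℝ) / (n * Real.log n)) atTop (𝓝 0))
    {ε : ℝ} (hε : 0 < ε) : ∃ b0, ∀ b, b0 ≤ b → G τ b ≤ ε * (b + 1) := by
  have hδ : 0 < ε / 4 := by positivity
  obtain ⟨b1, h1⟩ := small_nP hτ Z1 zv_Z1 hδ
  obtain ⟨b2, h2⟩ := small_nP hτ Z2 zv_Z2 hδ
  obtain ⟨b3, h3⟩ := small_nP hτ Z3 zv_Z3 hδ
  obtain ⟨b4, h4⟩ := exists_nat_gt (1 / (ε / 4))
  refine ⟨max (max b1 b2) (max b3 b4), fun b hb => ?_⟩
  have hb1 : b1 ≤ b := le_trans (le_trans (le_max_left _ _) (le_max_left _ _)) hb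
  have hb2 : b2 ≤ b := le_trans (le_trans (le_max_right _ _) (le_max_left _ _)) hb
  have hb3 : b3 ≤ b := le_trans (le_trans (le_max_left _ _) (le_max_right _ _)) hb
  have hb4 : b4 ≤ b := le_trans (le_trans (le_max_right _ _) (le_max_right _ _)) hb
  have q1 := h1 b hb1
  have q2 := h2 b hb2
  have q3 := h3 b hb3
  have q4 : (1 : ℝ) ≤ ε / 4 * (b + 1) := by
    have h5 : (b4 : ℝ) ≤ b := by exact_mod_cast hb4
    have h6 : 1 / (ε / 4) < (b : ℝ) + 1 := by linarith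
    rw [div_lt_iff₀ hδ] at h6
    linarith
  unfold G
  have e : ε * ((b : ℝ) + 1) = ε / 4 * (b + 1) + ε / 4 * (b + 1) + ε / 4 * (b + 1) + ε / 4 * (b + 1) := by ring
  rw [e]
  linarith

/-- The running time bound is `o(m² log m)` when `τ` is `o(n log n)`. -/
theorem topCost_tendsto {τ : ℕ → ℕ} (hτ : Tendsto (fun n : ℕ => (τ n : ℝ) / (n * Real.log n)) atTop (𝓝 0))
    (d : ℕ) : Tendsto (fun a : ℕ => (topCost d a τ : ℝ) / (4 ^ a * a)) atTop (𝓝 0) := by
  set C : ℝ := 2 ^ 43 * ((d : ℝ) + 1) with hC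
  have hCpos : 0 < C := by positivity
  rw [Metric.tendsto_atTop]
  intro ε hε
  have hε1 : 0 < ε / (12 * C) := by positivity
  obtain ⟨b0, hb0⟩ := small_G hτ hε1
  have hbd := Gs_bound τ hε1.le hb0
  set S : ℝ := ∑ b ∈ Finset.range b0, G τ b with hS
  have hS0 : 0 ≤ S := Finset.sum_nonneg fun b _ => G_nonneg τ b
  have hG : ∀ a, Gs τ a ≤ S + ε / (12 * C) * (6 * a) := by
    intro a
    refine (hbd a).trans ?_
    have : ∑ b ∈ Finset.range (min (a + 1) b0), G τ b ≤ S := by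
      apply Finset.sum_le_sum_of_subset_of_nonneg
      · intro x hx
        simp only [Finset.mem_range] at hx ⊢
        omega
      · intro b _ _
        exact G_nonneg τ b
    linarith
  obtain ⟨a1, ha1⟩ := exists_nat_gt ((163 + C * S) / (ε / 2))
  refine ⟨a1 + 1, fun a ha => ?_⟩
  have ha0 : (0 : ℝ) < a := by
    have : 0 < a := by omega
    exact_mod_cast this
  have hFpos : (0 : ℝ) < 4 ^ a := by positivity
  have hv0 : 0 ≤ (topCost d a τ : ℝ) / (4 ^ a * a) := by positivity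
  rw [Real.dist_eq, sub_zero, abs_of_nonneg hv0]
  have h1 := topCost_real d a τ
  have h2 : (topCost d a τ : ℝ) / (4 ^ a * a) ≤ (163 + C * Gs τ a) / a := by
    rw [div_le_div_iff₀ (by positivity) ha0]
    have : (topCost d a τ : ℝ) * a ≤ 4 ^ a * (163 + C * Gs τ a) * a :=
      mul_le_mul_of_nonneg_right h1 ha0.le
    calc (topCost d a τ : ℝ) * a ≤ 4 ^ a * (163 + C * Gs τ a) * a := this
      _ = (163 + C * Gs τ a) * (4 ^ a * a) := by ring
  have h3 : C * Gs τ a ≤ C * S + ε / 2 * a := by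
    have := mul_le_mul_of_nonneg_left (hG a) hCpos.le
    have e : C * (S + ε / (12 * C) * (6 * a)) = C * S + ε / 2 * a := by
      field_simp
      ring
    linarith
  have h4 : (163 + C * S) / (a : ℝ) < ε / 2 := by
    have h5 : (a1 : ℝ) + 1 ≤ a := by exact_mod_cast ha
    have h6 : (163 + C * S) / (ε / 2) < a := by linarith
    rw [div_lt_iff₀ (by positivity)] at h6
    rw [div_lt_iff₀ ha0]
    linarith
  have h7 : (163 + C * Gs τ a) / a ≤ (163 + C * S) / a + ε / 2 := by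
    rw [div_le_iff₀ ha0]
    have e : ((163 + C * S) / (a : ℝ) + ε / 2) * a = 163 + C * S + ε / 2 * a := by
      field_simp
    rw [e]
    linarith
  linarith

/-- The main theorem: if some machine multiplies `n`-bit integers in time `o(n log n)`, then some machine
transposes binary matrices of side `m = 2 ^ a` in time `o(m² log m)`. -/
theorem main (A : MTM) (τ : ℕ → ℕ) (hA : Multiplies A τ)
    (hτ : Tendsto (fun n : ℕ => (τ n : ℝ) / (n * Real.log n)) atTop (𝓝 0)) :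
    ∃ (B : MTM) (σ : ℕ → ℕ), Transposes B σ ∧
      Tendsto (fun a : ℕ => (σ a : ℝ) / (4 ^ a * a)) atTop (𝓝 0) :=
  ⟨machine A, fun a => topCost (@Finset.univ A.T A.fT).card a τ, machine_transposes hA, topCost_tendsto hτ _⟩

end Vale.Agent.Lib.P338
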