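import Vale.Agent.Lib.P338.Level

/-!
The machine: forward loop, backward loop, computation of the side length.
-/

namespace Vale.Agent.Lib.P338

open Prog

section
variable {G : Type}

/-- The stack tape holds the list `l`, with the head on the last cell of the top entry. -/
def StkOK (τ : ℤ → Sym G) : ℤ → List ℕ → Prop
  | h, [] => τ h = .blank
  | h, a :: l => τ h = .zero ∧ (∀ i : ℕ, i < a → τ (h - 1 - i) = .one) ∧ StkOK τ (h - 1 - a) l

theorem StkOK_congr {τ τ' : ℤ → Sym G} {h : ℤ} {l : List ℕ} (hc : ∀ x, x ≤ h → τ' x = τ x) (hS : StkOK τ h l) :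
    StkOK τ' h l := by
  induction l generalizing h with
  | nil =>
    rw [StkOK] at hS ⊢
    rw [hc h (le_refl h)]
    exact hS
  | cons a l ih =>
    rw [StkOK] at hS ⊢
    obtain ⟨h1, h2, h3⟩ := hS
    refine ⟨by rw [hc h (le_refl h)]; exact h1, ?_, ih (fun x hx => hc x (by omega)) h3⟩
    intro i hi
    rw [hc _ (by omega)]
    exact h2 i hi

end

section
variable {A : MTM}

/-- The state in the middle of a level. -/
structure MidS (c : TS (BT A) (BG A)) (a : ℕ) (l : List ℕ) (n : ℕ) (f : ℕ → Bool) : Prop where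
  hR : Regs c (f0 0 0 0 0)
  hI : Idle c
  hD : c.tape (o .D) = dataT n f
  hh : c.head (o .D) = 0
  hTa : Ruler c (o .Ta) a
  h1 : Ruler c (o .A1) ((a + 2) / 3)
  h2 : Ruler c (o .A2) ((a + 1) / 3)
  h3 : Ruler c (o .A3) (a / 3)
  hK : Ruler c (o .K0) (kv a)
  hS : StkOK (c.tape (o .Stk)) (c.head (o .Stk)) l

/-- The own tapes not used by a pass. -/
def notPass : Own → Bool
  | .Ta | .A1 | .A2 | .A3 | .K0 | .Stk | .Fl => true
  | _ => false

theorem nPass (a : Own) (h : notPass a = true) : (o a : BT A) ∉ PassT A := by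
  unfold PassT
  simp only [List.mem_append, not_or]
  exact ⟨nW a (by cases a <;> first | exact absurd h (by decide) | rfl),
    nC a (by cases a <;> first | exact absurd h (by decide) | decide),
    nR a (by cases a <;> first | exact absurd h (by decide) | rfl)⟩

theorem round_mid {τ : ℕ → ℕ} (hA : Multiplies A τ) (c : TS (BT A) (BG A)) {a m n : ℕ} {l : List ℕ} {f : ℕ → Bool}
    {Sx Sy : Own} {Z : List Own} (hG : Good a Sx Sy Z)
    (hm : n = m * (2 ^ dv a Sy * 2 ^ dv a Sx * 2 ^ zv a Z))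
    (hM : MidS c a l n f) :
    ∃ c', Run (roundP A Sx Sy Z) c c'
        (roundCost (@Finset.univ A.T A.fT).card (dv a Sx) (dv a Sy) (zv a Z) (kv a) m n (τ (nP (zv a Z) (kv a)))) ∧
      MidS c' a l n (rd a Sx Sy Z f) ∧ Same (PassT A) c c' := by
  have hRS : ∀ S : Own, (S = .A1 ∨ S = .A2 ∨ S = .A3) → Ruler c (o S) (dv a S) ∧ isReg S = false := by
    intro S hS
    rcases hS with rfl | rfl | rfl
    · exact ⟨hM.h1, rfl⟩
    · exact ⟨hM.h2, rfl⟩
    · exact ⟨hM.h3, rfl⟩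
  obtain ⟨c', r, g, i, t, h, s⟩ := round_spec hA c (Sx := Sx) (Sy := Sy) (Z := Z) (v := dv a) (k := kv a) (m := m) (n := n) (f := f)
    (hRS _ hG.hsx).2 (hRS _ hG.hsy).2 (fun S hS => (hRS S (hG.hd S hS)).2)
    (hRS _ hG.hsx).1 (hRS _ hG.hsy).1 (fun S hS => (hRS S (hG.hd S hS)).1) hM.hK hM.hR hG.hl
    (by unfold kv; omega) hG.hx hG.hy hG.hk hm hM.hI hM.hD hM.hh
  refine ⟨c', r, ⟨g, i, t, h, hM.hTa.of_same s (nPass _ rfl), hM.h1.of_same s (nPass _ rfl), hM.h2.of_same s (nPass _ rfl),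
    hM.h3.of_same s (nPass _ rfl), hM.hK.of_same s (nPass _ rfl), ?_⟩, s⟩
  rw [s.tape (nPass _ rfl), s.head (nPass _ rfl)]
  exact hM.hS

end

theorem Run.loopDone' {T Γ : Type} {g} {b : Prog T Γ} {c : TS T Γ} (hg : g c.read = false) : Run (.loop g b) c c 1 :=
  ⟨1, le_refl 1, .loopDone hg⟩

theorem Run.loopStep' {T Γ : Type} {g} {b : Prog T Γ} {c c1 c2 : TS T Γ} {x y : ℕ} (hg : g c.read = true) (h1 : Run b c c1 x)
    (h2 : Run (.loop g b) c1 c2 y) : Run (.loop g b) c c2 (x + y + 1) := by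
  obtain ⟨n, hn, he⟩ := h1
  obtain ⟨m, hm, hf⟩ := h2
  exact ⟨n + m + 1, by omega, .loopStep hg he hf⟩

section
variable (A : MTM)

/-- Push the number on `Ta` on the stack. -/
noncomputable def pushS : Prog (BT A) (BG A) :=
  .seq (mv (o .Stk) .R) (.seq (fillBy (o .Ta) (o .Stk) .one) (act1 (o .Stk) (fun _ => .zero) .S))

/-- Pop the top of the stack to `Ta`. -/
noncomputable def popS : Prog (BT A) (BG A) :=
  .seq (mv (o .Stk) .L) (.seq (sc1 Sym.isOne (o .Stk) .L (o .Ta) .R (fun _ _ => .one)) (rew (o .Ta)))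

/-- The next level. -/
noncomputable def nextA : Prog (BT A) (BG A) :=
  .seq (rclr (o .Ta)) (.seq (radd (o .A2) (o .Ta)) (radd (o .A3) (o .Ta)))

/-- Erase the digit lengths. -/
noncomputable def clearD : Prog (BT A) (BG A) :=
  .seq (rclr (o .A1)) (.seq (rclr (o .A2)) (.seq (rclr (o .A3)) (rclr (o .K0))))

/-- The forward step of a level. -/
noncomputable def fwdBody : Prog (BT A) (BG A) :=
  .seq (pushS A) (.seq digits (.seq (roundP A .A3 .A1 [.A2, .A3]) (.seq (roundP A .A2 .A1 [.A3, .A3, .A2])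
    (.seq (roundP A .A1 .A1 [.A2, .A2, .A3, .A3]) (.seq (nextA A) (clearD A))))))

/-- The backward step of a level. -/
noncomputable def bwdBody : Prog (BT A) (BG A) :=
  .seq (popS A) (.seq digits (.seq (roundP A .A1 .A2 [.A3, .A3, .A2]) (.seq (roundP A .A1 .A3 [.A2, .A3])
    (.seq (rclr (o .Ta)) (clearD A)))))

/-- The forward loop. -/
noncomputable def fwdLoop : Prog (BT A) (BG A) := .loop (fun s => (s (o .Ta)).isOne) (fwdBody A)

/-- The backward loop. -/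
noncomputable def bwdLoop : Prog (BT A) (BG A) := .loop (fun s => (s (o .Stk)).nonBlank) (bwdBody A)

variable {A}

/-- The state between levels. -/
structure TopS (c : TS (BT A) (BG A)) (a : ℕ) (l : List ℕ) (n : ℕ) (f : ℕ → Bool) : Prop where
  hR : Regs c (f0 0 0 0 0)
  hI : Idle c
  hD : c.tape (o .D) = dataT n f
  hh : c.head (o .D) = 0
  hTa : Ruler c (o .Ta) a
  h1 : Ruler c (o .A1) 0
  h2 : Ruler c (o .A2) 0
  h3 : Ruler c (o .A3) 0
  hK : Ruler c (o .K0) 0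
  hS : StkOK (c.tape (o .Stk)) (c.head (o .Stk)) l

/-- The tapes of the top level control. -/
noncomputable def CtlT (A : MTM) : List (BT A) := [o .Ta, o .A1, o .A2, o .A3, o .K0, o .Stk]

/-- Is an own tape a top level control tape? -/
def isCtl : Own → Bool
  | .Ta | .A1 | .A2 | .A3 | .K0 | .Stk => true
  | _ => false

theorem nCtl (a : Own) (h : isCtl a = false) : (o a : BT A) ∉ CtlT A := by
  unfold CtlT
  simp only [List.mem_cons, List.not_mem_nil, or_false, not_or, o, Sum.inl.injEq]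
  cases a <;> simp_all [isCtl]

theorem nCtlA (t : A.T) : (Sum.inr t : BT A) ∉ CtlT A := by
  unfold CtlT
  simp [o]

theorem Regs.of_ctl {c c' : TS (BT A) (BG A)} {f : Own → ℕ} (h : Regs c f) {l : List (BT A)} (hs : Same l c c')
    (hl : ∀ x ∈ l, x ∈ CtlT A) : Regs c' f := by
  intro a ha
  refine (h a ha).of_same hs (fun hm => nCtl a ?_ (hl _ hm))
  cases a <;> first | exact absurd ha (by decide) | rfl

theorem Idle.of_ctl {c c' : TS (BT A) (BG A)} (h : Idle c) {l : List (BT A)} (hs : Same l c c')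
    (hl : ∀ x ∈ l, x ∈ CtlT A) : Idle c' := by
  have n : ∀ a : Own, isCtl a = false → (o a : BT A) ∉ l := fun a ha hm => nCtl a ha (hl _ hm)
  exact ⟨h.z0.of_same hs (n _ rfl), h.z1.of_same hs (n _ rfl), h.z2.of_same hs (n _ rfl), h.z3.of_same hs (n _ rfl),
    h.z4.of_same hs (n _ rfl), h.z5.of_same hs (n _ rfl), h.z6.of_same hs (n _ rfl), h.z7.of_same hs (n _ rfl),
    h.z8.of_same hs (n _ rfl),
    by have := h.hZ; unfold TS.read at this ⊢; rw [hs.tape (n _ rfl), hs.head (n _ rfl)]; exact this,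
    by rw [hs.head (n _ rfl)]; exact h.hW1, by rw [hs.head (n _ rfl)]; exact h.hW2, by rw [hs.head (n _ rfl)]; exact h.hW3,
    fun t x => by rw [hs.tape (fun hm => nCtlA t (hl _ hm))]; exact h.hB t x⟩

theorem pushS_spec (c : TS (BT A) (BG A)) {a : ℕ} {l : List ℕ} (hTa : Ruler c (o .Ta) a)
    (hS : StkOK (c.tape (o .Stk)) (c.head (o .Stk)) l) :
    ∃ c', Run (pushS A) c c' (4 * a + 6) ∧ StkOK (c'.tape (o .Stk)) (c'.head (o .Stk)) (a :: l) ∧ Same [o .Stk] c c' := by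
  obtain ⟨c1, r1, a1, a2, a3⟩ := mv_spec (o .Stk) .R c
  obtain ⟨c2, r2, b1, b2, b3⟩ := fillBy_spec (o .Ta) (o .Stk) .one (by simp) c1 (hTa.of_same a3 (by simp))
  obtain ⟨c3, r3, d1, d2, d3⟩ := act1_spec (o .Stk) (fun _ => (.zero : Sym A.Γ)) .S c2
  have hh3 : c3.head (o .Stk) = c.head (o .Stk) + 1 + a := by
    rw [d1, b1, a1]
    simp [Dir.toInt]
  have hh2 : c2.head (o .Stk) = c.head (o .Stk) + 1 + a := by
    rw [b1, a1]
    simp [Dir.toInt]
  have hh1 : c1.head (o .Stk) = c.head (o .Stk) + 1 := by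
    rw [a1]
    simp [Dir.toInt]
  refine ⟨c3, (r1.seq (r2.seq r3)).mono (by omega), ?_, (a3.trans (b3.trans d3)).mono (by simp)⟩
  rw [StkOK]
  refine ⟨?_, ?_, ?_⟩
  · rw [d2, hh3, if_pos (by rw [hh2])]
  · intro i hi
    rw [d2, if_neg (by rw [hh2, hh3]; omega), b2, if_pos (by rw [hh1, hh3]; omega)]
  · have e : c3.head (o .Stk) - 1 - (a : ℤ) = c.head (o .Stk) := by
      rw [hh3]
      ring
    rw [e]
    refine StkOK_congr ?_ hS
    intro x hx
    rw [d2, if_neg (by rw [hh2]; omega), b2, if_neg (by rw [hh1]; omega), a2]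

theorem StkOK_not_one {τ : ℤ → Sym A.Γ} {h : ℤ} {l : List ℕ} (hS : StkOK τ h l) : (τ h).isOne = false := by
  cases l with
  | nil =>
    rw [StkOK] at hS
    rw [hS]
    rfl
  | cons a l =>
    rw [StkOK] at hS
    rw [hS.1]
    rfl

theorem popS_spec (c : TS (BT A) (BG A)) {a : ℕ} {l : List ℕ} (hTa : Ruler c (o .Ta) 0)
    (hS : StkOK (c.tape (o .Stk)) (c.head (o .Stk)) (a :: l)) :
    ∃ c', Run (popS A) c c' (4 * a + 5) ∧ Ruler c' (o .Ta) a ∧ StkOK (c'.tape (o .Stk)) (c'.head (o .Stk)) l ∧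
      Same [o .Stk, o .Ta] c c' := by
  rw [StkOK] at hS
  obtain ⟨s1, s2, s3⟩ := hS
  obtain ⟨c1, r1, a1, a2, a3⟩ := mv_spec (o .Stk) .L c
  have hh1 : c1.head (o .Stk) = c.head (o .Stk) - 1 := by
    rw [a1]
    simp only [Dir.toInt]
    ring
  have hTa1 := hTa.of_same a3 (by simp)
  obtain ⟨c2, r2, b1, b2, b3, b4, b5, b6⟩ := sc1_spec Sym.isOne (o .Stk) .L (o .Ta) .R (fun _ _ => .one) (by simp) (by simp) (by simp) c1 a
    (by
      intro i hi
      rw [a2, hh1]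
      simp only [Dir.toInt]
      have e : c.head (o .Stk) - 1 + (i : ℤ) * -1 = c.head (o .Stk) - 1 - i := by ring
      rw [e, s2 i hi]
      rfl)
    (by
      rw [a2, hh1]
      simp only [Dir.toInt]
      have e : c.head (o .Stk) - 1 + (a : ℤ) * -1 = c.head (o .Stk) - 1 - a := by ring
      rw [e]
      exact StkOK_not_one s3)
  have tTa : c2.tape (o .Ta) = runT a := by
    funext x
    by_cases hx : 0 ≤ x ∧ x < a
    · obtain ⟨y, rfl⟩ : ∃ y : ℕ, x = (y : ℤ) := ⟨x.toNat, by omega⟩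
      have hy : y < a := by exact_mod_cast hx.2
      have := b4 y hy
      rw [hTa1.2] at this
      simp only [Dir.toInt, mul_one, zero_add] at this
      rw [this, cast_runT_in hy]
    · rw [b5 x, hTa1.1, runT_out, runT_out]
      · omega
      · simp only [Nat.cast_zero]
        omega
      · intro j hj he
        rw [hTa1.2] at he
        simp only [Dir.toInt, mul_one, zero_add] at he
        omega
  have hTa2 : c2.head (o .Ta) = (a : ℤ) := by
    rw [b3, hTa1.2]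
    simp [Dir.toInt]
  obtain ⟨c3, r3, d1, d2⟩ := rew_ruler (o .Ta) c2 tTa hTa2 (le_refl a)
  refine ⟨c3, (r1.seq (r2.seq r3)).mono (by omega), d1, ?_, (a3.trans (b6.trans d2)).mono (by simp)⟩
  rw [d2.tape (by simp), d2.head (by simp), b2, a2, b1, hh1]
  simp only [Dir.toInt]
  have e : c.head (o .Stk) - 1 + (a : ℤ) * -1 = c.head (o .Stk) - 1 - a := by ring
  rw [e]
  exact s3

end

section
variable {A : MTM}

theorem pow_split {a0 x y z : ℕ} (h : x + y + z ≤ 2 * a0) :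
    4 ^ a0 = 2 ^ (2 * a0 - (x + y + z)) * (2 ^ y * 2 ^ x * 2 ^ z) := by
  rw [← pow_add, ← pow_add, ← pow_add, show (4 : ℕ) = 2 ^ 2 by norm_num, ← pow_mul]
  congr 1
  omega

/-- The cost of a round of a level. -/
noncomputable def RC (card a0 : ℕ) (τ : ℕ → ℕ) (a : ℕ) (Sx Sy : Own) (Z : List Own) : ℕ :=
  roundCost card (dv a Sx) (dv a Sy) (zv a Z) (kv a) (2 ^ (2 * a0 - (dv a Sx + dv a Sy + zv a Z))) (4 ^ a0)
    (τ (nP (zv a Z) (kv a)))

/-- The cost of the forward step of a level. -/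
noncomputable def levelF (card a0 : ℕ) (τ : ℕ → ℕ) (a : ℕ) : ℕ :=
  (4 * a + 6) + (digCost a + (RC card a0 τ a .A3 .A1 [.A2, .A3] + (RC card a0 τ a .A2 .A1 [.A3, .A3, .A2] +
    (RC card a0 τ a .A1 .A1 [.A2, .A2, .A3, .A3] + (40 * a + 100 + 40 * a + 100)))))

/-- The cost of the backward step of a level. -/
noncomputable def levelB (card a0 : ℕ) (τ : ℕ → ℕ) (a : ℕ) : ℕ :=
  (4 * a + 5) + (digCost a + (RC card a0 τ a .A1 .A2 [.A3, .A3, .A2] + (RC card a0 τ a .A1 .A3 [.A2, .A3] +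
    (4 * a + 4 + (40 * a + 100)))))

theorem clearD_spec (c : TS (BT A) (BG A)) {a : ℕ} (h1 : Ruler c (o .A1) ((a + 2) / 3)) (h2 : Ruler c (o .A2) ((a + 1) / 3))
    (h3 : Ruler c (o .A3) (a / 3)) (h4 : Ruler c (o .K0) (kv a)) :
    ∃ c', Run (clearD A) c c' (40 * a + 100) ∧ Ruler c' (o .A1) 0 ∧ Ruler c' (o .A2) 0 ∧ Ruler c' (o .A3) 0 ∧
      Ruler c' (o .K0) 0 ∧ Same [o .A1, o .A2, o .A3, o .K0] c c' := by
  obtain ⟨c1, r1, a1, s1⟩ := rclr_spec (o .A1) c h1
  obtain ⟨c2, r2, a2, s2⟩ := rclr_spec (o .A2) c1 (h2.of_same s1 (by simp))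
  obtain ⟨c3, r3, a3, s3⟩ := rclr_spec (o .A3) c2 ((h3.of_same s1 (by simp)).of_same s2 (by simp))
  obtain ⟨c4, r4, a4, s4⟩ := rclr_spec (o .K0) c3 (((h4.of_same s1 (by simp)).of_same s2 (by simp)).of_same s3 (by simp))
  refine ⟨c4, (r1.seq (r2.seq (r3.seq r4))).mono ?_, ((a1.of_same s2 (by simp)).of_same s3 (by simp)).of_same s4 (by simp),
    (a2.of_same s3 (by simp)).of_same s4 (by simp), a3.of_same s4 (by simp), a4,
    (s1.trans (s2.trans (s3.trans s4))).mono (by simp)⟩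
  unfold kv
  omega

theorem ctl_sub1 : ∀ x ∈ [(o .Stk : BT A)], x ∈ CtlT A := by simp [CtlT]

theorem ctl_subD : ∀ x ∈ (DigT : List (BT A)), x ∈ CtlT A := by simp [CtlT, DigT]

theorem ctl_subC : ∀ x ∈ [(o .A1 : BT A), o .A2, o .A3, o .K0], x ∈ CtlT A := by simp [CtlT]

theorem ctl_subT : ∀ x ∈ [(o .Ta : BT A)], x ∈ CtlT A := by simp [CtlT]

theorem ctl_subS : ∀ x ∈ [(o .Stk : BT A), o .Ta], x ∈ CtlT A := by simp [CtlT]

theorem to_mid_dig (c : TS (BT A) (BG A)) {a n : ℕ} {l : List ℕ} {f : ℕ → Bool}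
    (hR : Regs c (f0 0 0 0 0)) (hI : Idle c) (hD : c.tape (o .D) = dataT n f) (hh : c.head (o .D) = 0)
    (hTa : Ruler c (o .Ta) a) (h1 : Ruler c (o .A1) 0) (h2 : Ruler c (o .A2) 0) (h3 : Ruler c (o .A3) 0) (h4 : Ruler c (o .K0) 0)
    (hS : StkOK (c.tape (o .Stk)) (c.head (o .Stk)) l) :
    ∃ c', Run digits c c' (digCost a) ∧ MidS c' a l n f := by
  obtain ⟨c2, r2, b1, b2, b3, b4, b5, s2⟩ := digits_spec c hTa h1 h2 h3 h4
  have nn : ∀ a : Own, isCtl a = false → (o a : BT A) ∉ (DigT : List (BT A)) := fun a ha hm => nCtl a ha (ctl_subD _ hm)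
  refine ⟨c2, r2, hR.of_ctl s2 ctl_subD, hI.of_ctl s2 ctl_subD, ?_, ?_, b1, b2, b3, b4, b5, ?_⟩
  · rw [s2.tape (nn _ rfl)]
    exact hD
  · rw [s2.head (nn _ rfl)]
    exact hh
  · have nStk : (o .Stk : BT A) ∉ (DigT : List (BT A)) := by simp [DigT]
    rw [s2.tape nStk, s2.head nStk]
    exact hS

theorem fwd_tail (c : TS (BT A) (BG A)) {a n : ℕ} {l : List ℕ} {f : ℕ → Bool} (hM : MidS c a l n f) :
    ∃ c', Run (.seq (nextA A) (clearD A)) c c' (40 * a + 100 + 40 * a + 100) ∧ TopS c' (nxt a) l n f := by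
  obtain ⟨c1, r1, a1, s1⟩ := rclr_spec (o .Ta) c hM.hTa
  obtain ⟨c2, r2, a2, s2⟩ := radd_spec (o .A2) (o .Ta) (by simp) c1 (hM.h2.of_same s1 (by simp)) a1
  obtain ⟨c3, r3, a3, s3⟩ := radd_spec (o .A3) (o .Ta) (by simp) c2 ((hM.h3.of_same s1 (by simp)).of_same s2 (by simp)) a2
  have s13 : Same [o .Ta] c c3 := (s1.trans (s2.trans s3)).mono (by simp)
  obtain ⟨c4, r4, b1, b2, b3, b4, s4⟩ := clearD_spec c3 (a := a) (hM.h1.of_same s13 (by simp)) (hM.h2.of_same s13 (by simp))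
    (hM.h3.of_same s13 (by simp)) (hM.hK.of_same s13 (by simp))
  have nn : ∀ a : Own, isCtl a = false → (o a : BT A) ∉ [(o .Ta : BT A)] := fun a ha hm => nCtl a ha (ctl_subT _ hm)
  have nn2 : ∀ a : Own, isCtl a = false → (o a : BT A) ∉ [(o .A1 : BT A), o .A2, o .A3, o .K0] := fun a ha hm => nCtl a ha (ctl_subC _ hm)
  refine ⟨c4, (r1.seq (r2.seq r3)).seq r4 |>.mono ?_, ⟨(hM.hR.of_ctl s13 ctl_subT).of_ctl s4 ctl_subC,
    (hM.hI.of_ctl s13 ctl_subT).of_ctl s4 ctl_subC, ?_, ?_, ?_, b1, b2, b3, b4, ?_⟩⟩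
  · omega
  · rw [s4.tape (nn2 _ rfl), s13.tape (nn _ rfl)]
    exact hM.hD
  · rw [s4.head (nn2 _ rfl), s13.head (nn _ rfl)]
    exact hM.hh
  · have e : 0 + (a + 1) / 3 + a / 3 = nxt a := by
      unfold nxt
      omega
    rw [e] at a3
    exact a3.of_same s4 (by simp)
  · have n1 : (o .Stk : BT A) ∉ [(o .Ta : BT A)] := by simp
    have n2 : (o .Stk : BT A) ∉ [(o .A1 : BT A), o .A2, o .A3, o .K0] := by simp
    rw [s4.tape n2, s4.head n2, s13.tape n1, s13.head n1]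
    exact hM.hS

theorem fwd_level {τ : ℕ → ℕ} (hA : Multiplies A τ) (c : TS (BT A) (BG A)) {a a0 : ℕ} {l : List ℕ} {f : ℕ → Bool}
    (haa : a ≤ a0) (hS : TopS c a l (4 ^ a0) f) :
    ∃ c', Run (fwdBody A) c c' (levelF (@Finset.univ A.T A.fT).card a0 τ a) ∧ TopS c' (nxt a) (a :: l) (4 ^ a0) (Af a f) := by
  obtain ⟨c1, r1, s1, t1⟩ := pushS_spec c hS.hTa hS.hS
  have nn : ∀ a : Own, isCtl a = false → (o a : BT A) ∉ [(o .Stk : BT A)] := fun a ha hm => nCtl a ha (ctl_sub1 _ hm)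
  obtain ⟨c2, r2, hM⟩ := to_mid_dig c1 (a := a) (l := a :: l) (n := 4 ^ a0) (f := f) (hS.hR.of_ctl t1 ctl_sub1) (hS.hI.of_ctl t1 ctl_sub1)
    (by rw [t1.tape (nn _ rfl)]; exact hS.hD) (by rw [t1.head (nn _ rfl)]; exact hS.hh)
    (hS.hTa.of_same t1 (by simp)) (hS.h1.of_same t1 (by simp)) (hS.h2.of_same t1 (by simp)) (hS.h3.of_same t1 (by simp))
    (hS.hK.of_same t1 (by simp)) s1
  obtain ⟨c3, r3, hM3, _⟩ := round_mid hA c2 (good1 a) (pow_split (by have := (good1 a).hs; omega)) hM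
  obtain ⟨c4, r4, hM4, _⟩ := round_mid hA c3 (good2 a) (pow_split (by have := (good2 a).hs; omega)) hM3
  obtain ⟨c5, r5, hM5, _⟩ := round_mid hA c4 (good3 a) (pow_split (by have := (good3 a).hs; omega)) hM4
  obtain ⟨c6, r6, hT⟩ := fwd_tail c5 hM5
  exact ⟨c6, r1.seq (r2.seq (r3.seq (r4.seq (r5.seq r6)))), hT⟩

theorem fwd_spec {τ : ℕ → ℕ} (hA : Multiplies A τ) (a0 : ℕ) (a : ℕ) :
    ∀ (c : TS (BT A) (BG A)) (l : List ℕ) (f : ℕ → Bool), a ≤ a0 → TopS c a l (4 ^ a0) f →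
    ∃ c', Run (fwdLoop A) c c' (((levels a).map fun b => levelF (@Finset.univ A.T A.fT).card a0 τ b + 1).sum + 1) ∧
      TopS c' 0 ((levels a).reverse ++ l) (4 ^ a0) (Afull a f) := by
  induction a using Nat.strong_induction_on with
  | _ a ih =>
    intro c l f haa hS
    by_cases h : a = 0
    · subst h
      have hg : (fun s : BT A → BG A => (s (o .Ta)).isOne) c.read = false := by
        simp only [TS.read]
        rw [hS.hTa.1, hS.hTa.2, runT_out (by simp)]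
        rfl
      rw [levels_zero, Afull]
      exact ⟨c, Run.loopDone' hg, hS⟩
    · have hg : (fun s : BT A → BG A => (s (o .Ta)).isOne) c.read = true := by
        simp only [TS.read]
        rw [hS.hTa.1, hS.hTa.2, show (0 : ℤ) = ((0 : ℕ) : ℤ) by simp, cast_runT_in (by omega)]
        rfl
      obtain ⟨c1, r1, h1⟩ := fwd_level hA c haa hS
      have hlt : nxt a < a := by unfold nxt; omega
      obtain ⟨c2, r2, h2⟩ := ih (nxt a) hlt c1 (a :: l) (Af a f) (by omega) h1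
      refine ⟨c2, (Run.loopStep' hg r1 r2).mono ?_, ?_⟩
      · rw [levels_pos h]
        simp only [List.map_cons, List.sum_cons]
        omega
      · rw [levels_pos h, Afull, dif_neg h, List.reverse_cons, List.append_assoc]
        exact h2

theorem bwd_level {τ : ℕ → ℕ} (hA : Multiplies A τ) (c : TS (BT A) (BG A)) {a a0 : ℕ} {l : List ℕ} {f : ℕ → Bool}
    (haa : a ≤ a0) (hS : TopS c 0 (a :: l) (4 ^ a0) f) :
    ∃ c', Run (bwdBody A) c c' (levelB (@Finset.univ A.T A.fT).card a0 τ a) ∧ TopS c' 0 l (4 ^ a0) (Bf a f) := by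
  obtain ⟨c1, r1, t1, s1, t2⟩ := popS_spec c hS.hTa hS.hS
  have nn : ∀ a : Own, isCtl a = false → (o a : BT A) ∉ [(o .Stk : BT A), o .Ta] := fun a ha hm => nCtl a ha (ctl_subS _ hm)
  obtain ⟨c2, r2, hM⟩ := to_mid_dig c1 (a := a) (l := l) (n := 4 ^ a0) (f := f) (hS.hR.of_ctl t2 ctl_subS) (hS.hI.of_ctl t2 ctl_subS)
    (by rw [t2.tape (nn _ rfl)]; exact hS.hD) (by rw [t2.head (nn _ rfl)]; exact hS.hh)
    t1 (hS.h1.of_same t2 (by simp)) (hS.h2.of_same t2 (by simp)) (hS.h3.of_same t2 (by simp))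
    (hS.hK.of_same t2 (by simp)) s1
  obtain ⟨c3, r3, hM3, _⟩ := round_mid hA c2 (good4 a) (pow_split (by have := (good4 a).hs; omega)) hM
  obtain ⟨c4, r4, hM4, _⟩ := round_mid hA c3 (good5 a) (pow_split (by have := (good5 a).hs; omega)) hM3
  obtain ⟨c5, r5, a1, s5⟩ := rclr_spec (o .Ta) c4 hM4.hTa
  obtain ⟨c6, r6, b1, b2, b3, b4, s6⟩ := clearD_spec c5 (a := a) (hM4.h1.of_same s5 (by simp)) (hM4.h2.of_same s5 (by simp))
    (hM4.h3.of_same s5 (by simp)) (hM4.hK.of_same s5 (by simp))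
  have nn1 : ∀ a : Own, isCtl a = false → (o a : BT A) ∉ [(o .Ta : BT A)] := fun a ha hm => nCtl a ha (ctl_subT _ hm)
  have nn2 : ∀ a : Own, isCtl a = false → (o a : BT A) ∉ [(o .A1 : BT A), o .A2, o .A3, o .K0] := fun a ha hm => nCtl a ha (ctl_subC _ hm)
  refine ⟨c6, r1.seq (r2.seq (r3.seq (r4.seq (r5.seq r6)))) |>.mono ?_, ⟨(hM4.hR.of_ctl s5 ctl_subT).of_ctl s6 ctl_subC,
    (hM4.hI.of_ctl s5 ctl_subT).of_ctl s6 ctl_subC, ?_, ?_, a1.of_same s6 (by simp), b1, b2, b3, b4, ?_⟩⟩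
  · unfold levelB RC
    omega
  · rw [s6.tape (nn2 _ rfl), s5.tape (nn1 _ rfl)]
    exact hM4.hD
  · rw [s6.head (nn2 _ rfl), s5.head (nn1 _ rfl)]
    exact hM4.hh
  · have n1 : (o .Stk : BT A) ∉ [(o .Ta : BT A)] := by simp
    have n2 : (o .Stk : BT A) ∉ [(o .A1 : BT A), o .A2, o .A3, o .K0] := by simp
    rw [s6.tape n2, s6.head n2, s5.tape n1, s5.head n1]
    exact hM4.hS

theorem bwd_spec {τ : ℕ → ℕ} (hA : Multiplies A τ) (a0 : ℕ) (l : List ℕ) :
    ∀ (c : TS (BT A) (BG A)) (f : ℕ → Bool), (∀ a ∈ l, a ≤ a0) → TopS c 0 l (4 ^ a0) f →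
    ∃ c', Run (bwdLoop A) c c' ((l.map fun b => levelB (@Finset.univ A.T A.fT).card a0 τ b + 1).sum + 1) ∧
      TopS c' 0 [] (4 ^ a0) (Bfold l f) := by
  induction l with
  | nil =>
    intro c f _ hS
    have hg : (fun s : BT A → BG A => (s (o .Stk)).nonBlank) c.read = false := by
      have := hS.hS
      rw [StkOK] at this
      simp only [TS.read]
      rw [this]
      rfl
    exact ⟨c, Run.loopDone' hg, hS⟩
  | cons a l ih =>
    intro c f hl hS
    have hg : (fun s : BT A → BG A => (s (o .Stk)).nonBlank) c.read = true := by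
      have := hS.hS
      rw [StkOK] at this
      simp only [TS.read]
      rw [this.1]
      rfl
    obtain ⟨c1, r1, h1⟩ := bwd_level hA c (hl a (by simp)) hS
    obtain ⟨c2, r2, h2⟩ := ih c1 (Bf a f) (fun b hb => hl b (by simp [hb])) h1
    refine ⟨c2, (Run.loopStep' hg r1 r2).mono ?_, h2⟩
    simp only [List.map_cons, List.sum_cons]
    omega

end

end Vale.Agent.Lib.P338
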